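import Vale.Agent.P006.SV.TR
import Vale.Agent.P006.H611.T1S
import Vale.Agent.P006.Main.Defs

/-!
P006, block 20b (helper577): adaptor from helper611's sharp Type I estimate.
-/

namespace Vale.Agent.P006.SV

open Finset Vale.Agent.P006

open Classical in
/-- the conclusion of `H611.type_one_sharp` for `P = InP` gives `T1SHyp` -/
theorem t1s_of {w : O → ℂ} (hw : ∀ c, ¬ Squarefree c → w c = 0)
    (h : ∃ C : ℝ, 0 ≤ C ∧ ∀ X : ℝ, 1 ≤ X →
      ∑ m ∈ (H570.nb (X ^ (1 / 3 + 1 / 1000 : ℝ))).filter InP,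
        ‖∑ c ∈ (H570.nb X).filter (fun c => InP c ∧ m ∣ c), w c‖ ≤
        C * X ^ (5 / 6 - 1 / 1000 : ℝ)) : T1SHyp w (1 / 1000) := by
  obtain ⟨C, hC, h⟩ := h
  refine ⟨C, hC, fun X hX => ?_⟩
  refine le_trans (le_of_eq ?_) (h X hX)
  have hX0 : 0 ≤ X := by linarith
  have hD0 : 0 ≤ X ^ (1 / 3 + 1 / 1000 : ℝ) := by positivity
  have key : ∀ m, ∑ c ∈ (PB X).filter (m ∣ ·), w c =
      ∑ c ∈ (H570.nb X).filter (fun c => InP c ∧ m ∣ c), w c := by
    intro m
    symm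
    apply sum_subset
    · intro c hc
      rw [mem_filter, H570.mem_nb hX0] at hc
      rw [mem_filter, mem_PB]
      exact ⟨⟨hc.2.1.1, hc.1⟩, hc.2.2⟩
    · intro c hc hc'
      rw [mem_filter, mem_PB] at hc
      apply hw
      intro hs
      exact hc' (by rw [mem_filter, H570.mem_nb hX0]; exact ⟨hc.1.2, ⟨hc.1.1, hs⟩, hc.2⟩)
  symm
  rw [sum_congr rfl (fun m _ => by rw [← key m])]
  apply sum_subset
  · intro m hm
    rw [mem_filter, H570.mem_nb hD0] at hm
    rw [mem_PB]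
    exact ⟨hm.2.1, hm.1⟩
  · intro m hm hm'
    rw [mem_PB] at hm
    have h1 : ¬ Squarefree m := fun hs =>
      hm' (by rw [mem_filter, H570.mem_nb hD0]; exact ⟨hm.2, hm.1, hs⟩)
    rw [sum_eq_zero, norm_zero]
    intro c hc
    rw [mem_filter] at hc
    exact hw c (fun hs => h1 (hs.squarefree_of_dvd hc.2))

end Vale.Agent.P006.SV
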