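import Vale.Agent.P006.SV.Buch

/-!
P006, block SV (20b): the Buchstab decomposition, summed over all `c`.
-/

namespace Vale.Agent.P006.SV

open Finset Vale.Agent.P006

theorem bsum_eq {x : ℝ} {F : O → O → ℂ} (G : O → O → ℂ)
    (h : ∀ a b, Primary a → Primary b → F a b = G (a * b) a) :
    bsum x F = ∑ c ∈ PB x, ∑ a ∈ dvs c, G c a := by
  rw [← sum_pairs x G, bsum]
  apply sum_congr rfl
  intro a ha
  apply sum_congr rfl
  intro b hb
  rw [mem_PB] at ha
  rw [mem_filter, mem_PB] at hb
  exact h a b ha.1 hb.1.1

theorem bsum_congr {x : ℝ} {F F' : O → O → ℂ}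
    (h : ∀ a b, Primary a → Primary b → (N (a * b) : ℝ) ≤ x → F a b = F' a b) :
    bsum x F = bsum x F' := by
  rw [bsum, bsum]
  apply sum_congr rfl
  intro a ha
  apply sum_congr rfl
  intro b hb
  rw [mem_PB] at ha
  rw [mem_filter, mem_PB] at hb
  exact h a b ha.1 hb.1.1 hb.2

theorem rough_mul_iff {z : ℝ} {a b : O} (ha : Rough z a) : Rough z (a * b) ↔ Rough z b :=
  ⟨fun h => h.of_dvd (dvd_mul_left _ _), fun h => ha.mul h⟩

open Classical in
/-- **Buchstab decomposition of the rough Type I sum.** -/
theorem decomp (z Y x : ℝ) (cf w : O → ℂ) (hcf : ∀ q, Y < N q → cf q = 0)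
    (hcr : ∀ q, cf q ≠ 0 → Rough z q) (hw : ∀ c, ¬ Squarefree c → w c = 0) :
    bsum x (fun q n => cf q * (if Rough z n then w (q * n) else 0)) =
      bsum x (fun m n => (if (N m : ℝ) ≤ Y then lamO z cf m else 0) * w (m * n)) +
      bsum x (fun a b => alO z Y cf a *
        (if ∀ q ∈ pdv b, key (Pmin a) < key q then w (a * b) else 0)) := by
  rw [bsum_eq (fun c q => if Rough z c then cf q * w c else 0),
    bsum_eq (fun c m => (if (N m : ℝ) ≤ Y then lamO z cf m else 0) * w c),
    bsum_eq (fun c a => (if ∀ q ∈ pdv c, key (Pmin a) ≤ key q then alO z Y cf a else 0) * w c),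
    ← sum_add_distrib]
  · apply sum_congr rfl
    intro c hc
    rw [mem_PB] at hc
    by_cases hs : Squarefree c
    · have h1 := buchstab_O z Y cf hcf hc.1 hs
      rw [← sum_mul, ← sum_mul, ← add_mul]
      rw [sum_filter, sum_filter] at h1
      rw [← h1]
      split_ifs
      · rw [sum_mul]
      · simp
    · simp [hw c hs]
  · intro a b ha hb
    by_cases h0 : alO z Y cf a = 0
    · simp [h0]
    have h1 : Primary a ∧ Squarefree a ∧ Stop z Y a := by
      by_contra h
      exact h0 (by rw [alO, if_neg h])
    by_cases hs : Squarefree (a * b)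
    · have h2 : (∀ q ∈ pdv b, key (Pmin a) < key q) ↔ ∀ q ∈ pdv (a * b), key (Pmin a) ≤ key q := by
        rw [pdv_mul ha hb]
        constructor
        · intro h q hq
          rw [mem_union] at hq
          rcases hq with hq | hq
          · exact key_Pmin_le hq
          · exact (h q hq).le
        · intro h q hq
          refine lt_of_le_of_ne (h q (mem_union_right _ hq)) ?_
          intro he
          have h3 : Pmin a = q := key_injective he
          have h4 := Pmin_dvd ha h1.2.2.1
          rw [h3] at h4
          have h5 := (mem_pdv hb.ne_zero).1 hq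
          exact h5.2.1.not_isUnit (hs q (mul_dvd_mul h4 h5.2.2))
      simp only [h2]
      split_ifs <;> simp
    · simp [hw _ hs]
  · intro a b _ _
    rfl
  · intro q n hq hn
    by_cases h0 : cf q = 0
    · simp [h0]
    · have h1 := hcr q h0
      rw [if_congr (rough_mul_iff h1) rfl rfl]
      split_ifs <;> simp

end Vale.Agent.P006.SV
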