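import Vale.Agent.P006.H103.Defs
import Vale.Agent.P006.SV.Decomp

/-!
P006, block SV: bounded variation in the largest prime, splicing; the class `ClassG` is stable
under cutting and under the passage to the Type II coefficients of the Buchstab decomposition.
-/

namespace Vale.Agent.P006.SV

open Finset Vale.Agent.P006

/-- `v` has total variation plus sup norm at most `G` -/
def BV (G : ℝ) (v : ℕ → ℂ) : Prop := ∀ n, ‖v n‖ + ∑ j ∈ range n, ‖v j - v (j + 1)‖ ≤ G

theorem BV.mono {G G' : ℝ} {v : ℕ → ℂ} (h : BV G v) (hG : G ≤ G') : BV G' v :=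
  fun n => (h n).trans hG

theorem BV.norm_le {G : ℝ} {v : ℕ → ℂ} (h : BV G v) (n : ℕ) : ‖v n‖ ≤ G :=
  le_trans (le_add_of_nonneg_right (sum_nonneg fun _ _ => norm_nonneg _)) (h n)

theorem BV.nonneg {G : ℝ} {v : ℕ → ℂ} (h : BV G v) : 0 ≤ G :=
  (norm_nonneg _).trans (h.norm_le 0)

theorem BV.add {G G' : ℝ} {v v' : ℕ → ℂ} (h : BV G v) (h' : BV G' v') :
    BV (G + G') (fun n => v n + v' n) := by
  intro n
  have h1 := h n
  have h2 := h' n
  have h3 : ∑ j ∈ range n, ‖v j + v' j - (v (j + 1) + v' (j + 1))‖ ≤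
      ∑ j ∈ range n, ‖v j - v (j + 1)‖ + ∑ j ∈ range n, ‖v' j - v' (j + 1)‖ := by
    rw [← sum_add_distrib]
    apply sum_le_sum
    intro j _
    have : v j + v' j - (v (j + 1) + v' (j + 1)) = (v j - v (j + 1)) + (v' j - v' (j + 1)) := by
      ring
    rw [this]
    exact norm_add_le _ _
  have h4 := norm_add_le (v n) (v' n)
  linarith

theorem BV.const_mul {G : ℝ} {v : ℕ → ℂ} (h : BV G v) (c : ℂ) :
    BV (‖c‖ * G) (fun n => c * v n) := by
  intro n
  have h1 := h n
  have h3 : ∑ j ∈ range n, ‖c * v j - c * v (j + 1)‖ =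
      ‖c‖ * ∑ j ∈ range n, ‖v j - v (j + 1)‖ := by
    rw [mul_sum]
    apply sum_congr rfl
    intro j _
    rw [← mul_sub, norm_mul]
  rw [h3, norm_mul, ← mul_add]
  exact mul_le_mul_of_nonneg_left h1 (norm_nonneg _)

theorem BV.zero : BV 0 (fun _ => 0) := by
  intro n; simp

theorem BV.const (c : ℂ) : BV ‖c‖ (fun _ => c) := by
  intro n; simp

/-- cutting from above preserves the bound -/
theorem BV.cut_above {G : ℝ} {v : ℕ → ℂ} (h : BV G v) (k : ℕ) :
    BV G (fun n => if n < k then v n else 0) := by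
  intro n
  beta_reduce
  by_cases hn : n < k
  · have h1 : ∑ j ∈ range n, ‖(if j < k then v j else 0) - (if j + 1 < k then v (j + 1) else 0)‖ =
        ∑ j ∈ range n, ‖v j - v (j + 1)‖ := by
      apply sum_congr rfl
      intro j hj
      rw [mem_range] at hj
      rw [if_pos (by omega), if_pos (by omega)]
    rw [h1, if_pos hn]
    exact h n
  · rw [if_neg hn, norm_zero, zero_add]
    cases k with
    | zero => simpa using h.nonneg
    | succ k =>
      have h1 : ∑ j ∈ range n, ‖(if j < k + 1 then v j else 0) -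
          (if j + 1 < k + 1 then v (j + 1) else 0)‖ ≤
          ∑ j ∈ range n, ((if j < k then ‖v j - v (j + 1)‖ else 0) + (if j = k then ‖v k‖ else 0)) := by
        apply sum_le_sum
        intro j _
        by_cases hj : j < k
        · rw [if_pos (by omega), if_pos (by omega), if_pos hj, if_neg (by omega), add_zero]
        · by_cases hj2 : j = k
          · subst hj2
            simp
          · rw [if_neg (by omega), if_neg (by omega), if_neg hj, if_neg hj2]
            simp
      refine h1.trans ?_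
      rw [sum_add_distrib, ← sum_filter, ← sum_filter]
      have h2 : (range n).filter (fun j => j < k) = range k := by
        ext j; simp only [mem_filter, mem_range]; omega
      have h3 : (range n).filter (fun j => j = k) = {k} := by
        ext j; simp only [mem_filter, mem_range, mem_singleton]; omega
      rw [h2, h3, sum_singleton]
      have := h k
      linarith

/-- cutting from below costs a factor two -/
theorem BV.cut_below {G : ℝ} {v : ℕ → ℂ} (h : BV G v) (k : ℕ) :
    BV (2 * G) (fun n => if k ≤ n then v n else 0) := by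
  have h1 : (fun n => if k ≤ n then v n else 0) =
      (fun n => v n + (-1) * (if n < k then v n else 0)) := by
    funext n
    by_cases hn : k ≤ n
    · rw [if_pos hn, if_neg (by omega)]; ring
    · rw [if_neg hn, if_pos (by omega)]; ring
  rw [h1]
  have h2 := h.add ((h.cut_above k).const_mul (-1))
  refine h2.mono ?_
  simp; linarith

/-- piecewise definition -/
theorem BV.piece {G G' : ℝ} {v v' : ℕ → ℂ} (h : BV G v) (h' : BV G' v') (k : ℕ) :
    BV (G + 2 * G') (fun n => if n < k then v n else v' n) := by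
  have h1 : (fun n => if n < k then v n else v' n) =
      (fun n => (if n < k then v n else 0) + (if k ≤ n then v' n else 0)) := by
    funext n
    by_cases hn : k ≤ n
    · rw [if_neg (by omega), if_pos hn, if_neg (by omega)]; ring
    · rw [if_pos (by omega), if_neg hn, if_pos (by omega)]; ring
  rw [h1]
  exact (h.cut_above k).add (h'.cut_below k)

/-- real cut-offs: upper closed -/
theorem BV.cut_le {G : ℝ} {v : ℕ → ℂ} (h : BV G v) (t : ℝ) :
    BV G (fun n => if (n : ℝ) ≤ t then v n else 0) := by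
  by_cases ht : 0 ≤ t
  · have h1 : (fun n : ℕ => if (n : ℝ) ≤ t then v n else 0) =
        (fun n => if n < ⌊t⌋₊ + 1 then v n else 0) := by
      funext n
      have : ((n : ℝ) ≤ t) ↔ n < ⌊t⌋₊ + 1 := by
        rw [Nat.lt_add_one_iff, Nat.le_floor_iff ht]
      simp only [this]
    rw [h1]
    exact h.cut_above _
  · have h1 : (fun n : ℕ => if (n : ℝ) ≤ t then v n else 0) = fun _ => 0 := by
      funext n
      rw [if_neg]
      intro h2
      exact ht (le_trans (by positivity) h2)
    rw [h1]
    exact BV.zero.mono h.nonneg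

/-- real cut-offs: lower open -/
theorem BV.cut_gt {G : ℝ} {v : ℕ → ℂ} (h : BV G v) (t : ℝ) :
    BV (2 * G) (fun n => if t < (n : ℝ) then v n else 0) := by
  by_cases ht : 0 ≤ t
  · have h1 : (fun n : ℕ => if t < (n : ℝ) then v n else 0) =
        (fun n => if ⌊t⌋₊ + 1 ≤ n then v n else 0) := by
      funext n
      have : (t < (n : ℝ)) ↔ ⌊t⌋₊ + 1 ≤ n := by
        rw [Nat.add_one_le_iff, Nat.floor_lt ht]
      simp only [this]
    rw [h1]
    exact h.cut_below _
  · have h1 : (fun n : ℕ => if t < (n : ℝ) then v n else 0) = v := by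
      funext n
      rw [if_pos]
      exact lt_of_lt_of_le (not_le.1 ht) (by positivity)
    rw [h1]
    exact h.mono (by linarith [h.nonneg])

/-- real cut-offs: lower closed -/
theorem BV.cut_ge {G : ℝ} {v : ℕ → ℂ} (h : BV G v) (t : ℝ) :
    BV (2 * G) (fun n => if t ≤ (n : ℝ) then v n else 0) := by
  have h1 : (fun n : ℕ => if t ≤ (n : ℝ) then v n else 0) =
      (fun n => if ⌈t⌉₊ ≤ n then v n else 0) := by
    funext n
    have : (t ≤ (n : ℝ)) ↔ ⌈t⌉₊ ≤ n := Nat.ceil_le.symm
    simp only [this]
  rw [h1]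
  exact h.cut_below _

/-- piecewise definition at a real point -/
theorem BV.piece_lt {G G' : ℝ} {v v' : ℕ → ℂ} (h : BV G v) (h' : BV G' v') (t : ℝ) :
    BV (G + 2 * G') (fun n => if (n : ℝ) < t then v n else v' n) := by
  have h1 : (fun n : ℕ => if (n : ℝ) < t then v n else v' n) =
      (fun n => if n < ⌈t⌉₊ then v n else v' n) := by
    funext n
    have : ((n : ℝ) < t) ↔ n < ⌈t⌉₊ := Nat.lt_ceil.symm
    simp only [this]
  rw [h1]
  exact h.piece h' _

/-! ### squarefree elements `m p` -/

theorem squarefree_mul_prime_iff {m p : O} (hm : Primary m) (hp : Prime p)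
    (h : ∀ q ∈ pdv m, N q < N p) : Squarefree (m * p) ↔ Squarefree m := by
  constructor
  · exact fun hs => hs.squarefree_of_dvd (dvd_mul_right _ _)
  · intro hs
    rw [mul_comm]
    apply squarefree_prime_mul hp hs
    intro hd
    obtain ⟨q, hq, hqp, hqd⟩ := exists_primary_prime_dvd hm hd hp.not_isUnit
    have h1 := h q ((mem_pdv hm.ne_zero).2 ⟨hq, hqp, hqd.trans hd⟩)
    rw [N_eq_of_associated (hqp.associated_of_dvd hp hqd)] at h1
    exact lt_irrefl _ h1

theorem rough_mul_prime_iff {z : ℝ} {m p : O} (hp : Prime p) :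
    Rough z (m * p) ↔ Rough z m ∧ z ≤ N p := by
  constructor
  · intro h
    exact ⟨h.of_dvd (dvd_mul_right _ _), h p hp (dvd_mul_left _ _)⟩
  · rintro ⟨h1, h2⟩
    exact h1.mul (rough_prime hp h2)

/-- multiplication of `ClassG` by the indicator of an interval and roughness -/
theorem classG_cut {α : O → ℂ} {X G : ℝ} (h : ClassG α X G) (z y₁ y₂ : ℝ) :
    ClassG (cut z y₁ y₂ α) X (4 * G) := by
  have hG : 0 ≤ G := (norm_nonneg _).trans (h.bound 1)
  constructor
  · intro a ha
    rw [cut] at ha
    split_ifs at ha with h1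
    · exact h.supp a ha
    · exact absurd rfl ha
  · intro a
    rw [cut]
    split_ifs
    · exact (h.bound a).trans (by linarith)
    · rw [norm_zero]; linarith
  · intro m hm
    obtain ⟨v, hv, hv2⟩ := h.str m hm
    by_cases hms : Squarefree m ∧ Rough z m
    · refine ⟨fun n => if (n : ℝ) * (N m : ℝ) ≤ y₂ then
        (if y₁ < (n : ℝ) * N m then (if z ≤ (n : ℝ) then v n else 0) else 0) else 0, ?_, ?_⟩
      · have hN : (0 : ℝ) < N m := by exact_mod_cast N_pos hm.ne_zero
        have h1 := (((show BV G v from hv).cut_ge z).cut_gt (y₁ / N m)).cut_le (y₂ / N m)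
        have h2 : (fun n : ℕ => if (n : ℝ) * (N m : ℝ) ≤ y₂ then
            (if y₁ < (n : ℝ) * N m then (if z ≤ (n : ℝ) then v n else 0) else 0) else 0) =
            (fun n : ℕ => if (n : ℝ) ≤ y₂ / N m then
            (if y₁ / N m < (n : ℝ) then (if z ≤ (n : ℝ) then v n else 0) else 0) else 0) := by
          funext n
          have e1 : ((n : ℝ) * (N m : ℝ) ≤ y₂) ↔ (n : ℝ) ≤ y₂ / N m := (le_div_iff₀ hN).symm
          have e2 : (y₁ < (n : ℝ) * (N m : ℝ)) ↔ y₁ / N m < n := (div_lt_iff₀ hN).symm
          simp only [e1, e2]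
        rw [h2]
        exact h1.mono (by linarith)
      · intro p hp hpp hlt
        rw [cut, N_mul, Nat.cast_mul, hv2 p hp hpp hlt, squarefree_mul_prime_iff hm hp hlt,
          rough_mul_prime_iff hp, mul_comm (N m : ℝ)]
        beta_reduce
        by_cases c1 : (N p : ℝ) * N m ≤ y₂
        · by_cases c2 : y₁ < (N p : ℝ) * N m
          · by_cases c3 : z ≤ (N p : ℝ)
            · rw [if_pos ⟨hm.mul hpp, hms.1, ⟨hms.2, c3⟩, c2, c1⟩, if_pos c1, if_pos c2, if_pos c3]
            · rw [if_neg (fun h => c3 h.2.2.1.2), if_pos c1, if_pos c2, if_neg c3]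
          · rw [if_neg (fun h => c2 h.2.2.2.1), if_pos c1, if_neg c2]
        · rw [if_neg (fun h => c1 h.2.2.2.2), if_neg c1]
    · refine ⟨fun _ => 0, BV.zero.mono (by linarith), ?_⟩
      intro p hp hpp hlt
      rw [cut, if_neg]
      intro h1
      exact hms ⟨(squarefree_mul_prime_iff hm hp hlt).1 h1.2.1,
        ((rough_mul_prime_iff hp).1 h1.2.2.1).1⟩

end Vale.Agent.P006.SV
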