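import Mathlib.Analysis.Fourier.FiniteAbelian.PontryaginDuality
import Mathlib.NumberTheory.LegendreSymbol.AddCharacter
import Mathlib.Analysis.SpecialFunctions.Complex.CircleAddChar
import Mathlib.Tactic

/-!
P006, block SV: separation of the condition `i < j` at logarithmic cost.
-/

namespace Vale.Agent.P006.SV

open Finset

theorem avg_eq (n : ℕ) [NeZero n] (x y : ZMod n) :
    ∑ h : ZMod n, ZMod.stdAddChar (N := n) (h * x) * ZMod.stdAddChar (N := n) (h * (-y)) =
      if x = y then (n : ℂ) else 0 := by
  have h1 : ∀ h : ZMod n, ZMod.stdAddChar (N := n) (h * x) * ZMod.stdAddChar (N := n) (h * (-y)) =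
      ZMod.stdAddChar (N := n) (h * (x - y)) := by
    intro h
    rw [← AddChar.map_add_eq_mul]; congr 1; ring
  simp only [h1]
  rw [AddChar.sum_mulShift (x - y) (ZMod.isPrimitive_stdAddChar n)]
  simp [sub_eq_zero]

/-- **separation lemma** -/
theorem sep {σ : Type*} (S : Finset σ) (F : σ → ℂ) (T : ℝ) (L : ℕ) :
    ∀ i j : σ → ℕ, (∀ s ∈ S, i s < 2 ^ L ∧ j s < 2 ^ L) →
    (∀ u v : ℕ → ℂ, (∀ n, ‖u n‖ ≤ 1) → (∀ n, ‖v n‖ ≤ 1) →
      ‖∑ s ∈ S, F s * (u (i s) * v (j s))‖ ≤ T) →
    ‖∑ s ∈ S, if i s < j s then F s else 0‖ ≤ L * T := by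
  induction L with
  | zero =>
    intro i j hij _
    rw [sum_eq_zero]
    · simp
    · intro s hs
      have := hij s hs
      simp only [pow_zero, Nat.lt_one_iff] at this
      rw [this.1, this.2, if_neg (lt_irrefl _)]
  | succ L ih =>
    intro i j hij hT
    have h1 : ∀ s ∈ S, (if i s < j s then F s else 0) =
        (if i s / 2 < j s / 2 then F s else 0) +
        (if i s / 2 = j s / 2 ∧ i s % 2 = 0 ∧ j s % 2 = 1 then F s else 0) := by
      intro s _
      by_cases hc : i s < j s
      · by_cases hc2 : i s / 2 < j s / 2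
        · rw [if_pos hc, if_pos hc2, if_neg (by omega), add_zero]
        · rw [if_pos hc, if_neg hc2, if_pos (by omega), zero_add]
      · rw [if_neg hc, if_neg (by omega), if_neg (by omega), add_zero]
    rw [sum_congr rfl h1, sum_add_distrib]
    have h2 : ‖∑ s ∈ S, if i s / 2 < j s / 2 then F s else 0‖ ≤ L * T := by
      apply ih (fun s => i s / 2) (fun s => j s / 2)
      · intro s hs
        have := hij s hs
        rw [pow_succ] at this
        constructor <;> omega
      · intro u v hu hv
        exact hT (fun n => u (n / 2)) (fun n => v (n / 2)) (fun n => hu _) (fun n => hv _)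
    have h3 : ‖∑ s ∈ S, if i s / 2 = j s / 2 ∧ i s % 2 = 0 ∧ j s % 2 = 1 then F s else 0‖ ≤ T := by
      set n : ℕ := 2 ^ L with hn
      have : NeZero n := ⟨by positivity⟩
      set ψ := ZMod.stdAddChar (N := n) with hψ
      have hψ1 : ∀ x : ZMod n, ‖ψ x‖ = 1 := fun x => AddChar.norm_apply ψ x
      have h4 : (n : ℂ) * ∑ s ∈ S, (if i s / 2 = j s / 2 ∧ i s % 2 = 0 ∧ j s % 2 = 1 then F s else 0) =
          ∑ h : ZMod n, ∑ s ∈ S, F s * ((if i s % 2 = 0 then ψ (h * ((i s / 2 : ℕ) : ZMod n)) else 0) *
            (if j s % 2 = 1 then ψ (h * (-((j s / 2 : ℕ) : ZMod n))) else 0)) := by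
        rw [sum_comm, mul_sum]
        apply sum_congr rfl
        intro s hs
        rw [← mul_sum]
        have h5 := hij s hs
        rw [pow_succ] at h5
        by_cases hp : i s % 2 = 0 ∧ j s % 2 = 1
        · simp only [hp.1, hp.2, if_true, and_true]
          rw [avg_eq]
          have h6 : (((i s / 2 : ℕ) : ZMod n) = ((j s / 2 : ℕ) : ZMod n)) ↔ i s / 2 = j s / 2 := by
            rw [ZMod.natCast_eq_natCast_iff]
            constructor
            · intro h
              have h7 : i s / 2 < n := by omega
              have h8 : j s / 2 < n := by omega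
              rwa [Nat.ModEq, Nat.mod_eq_of_lt h7, Nat.mod_eq_of_lt h8] at h
            · intro h; rw [h]
          simp only [h6]
          split_ifs
          · ring
          · simp
        · rw [if_neg (fun h => hp h.2), mul_zero]
          symm
          rw [mul_eq_zero]; right
          apply sum_eq_zero
          intro h _
          by_cases hp1 : i s % 2 = 0
          · rw [if_neg (fun hp2 => hp ⟨hp1, hp2⟩), mul_zero]
          · rw [if_neg hp1, zero_mul]
      have h5 : ‖(n : ℂ) * ∑ s ∈ S, (if i s / 2 = j s / 2 ∧ i s % 2 = 0 ∧ j s % 2 = 1 then F s else 0)‖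
          ≤ n * T := by
        rw [h4]
        refine (norm_sum_le _ _).trans ?_
        have h6 : ∀ h ∈ (univ : Finset (ZMod n)), ‖∑ s ∈ S, F s * ((if i s % 2 = 0 then
            ψ (h * ((i s / 2 : ℕ) : ZMod n)) else 0) *
            (if j s % 2 = 1 then ψ (h * (-((j s / 2 : ℕ) : ZMod n))) else 0))‖ ≤ T := by
          intro h _
          apply hT (fun m => if m % 2 = 0 then ψ (h * ((m / 2 : ℕ) : ZMod n)) else 0)
            (fun m => if m % 2 = 1 then ψ (h * (-((m / 2 : ℕ) : ZMod n))) else 0)
          · intro m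
            show ‖if m % 2 = 0 then ψ (h * ((m / 2 : ℕ) : ZMod n)) else 0‖ ≤ 1
            split_ifs
            · exact (hψ1 _).le
            · simp
          · intro m
            show ‖if m % 2 = 1 then ψ (h * (-((m / 2 : ℕ) : ZMod n))) else 0‖ ≤ 1
            split_ifs
            · exact (hψ1 _).le
            · simp
        refine (sum_le_sum h6).trans ?_
        rw [sum_const, card_univ, ZMod.card, nsmul_eq_mul]
      rw [norm_mul, Complex.norm_natCast] at h5
      have hn0 : (0 : ℝ) < n := by
        have : 0 < n := by positivity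
        exact_mod_cast this
      exact le_of_mul_le_mul_left h5 hn0
    refine (norm_add_le _ _).trans ?_
    push_cast
    linarith

end Vale.Agent.P006.SV
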