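import Vale.Agent.P006.SV.EdgeMain
import Vale.Agent.P006.Main.Final

/-!
P006: the leaf `EdgeGoal` (helper577).
-/

namespace Vale.Agent.P006.SV

open Vale.Agent.P006

theorem edgeGoal : EdgeGoal := by
  intro hDN η hη _
  refine ⟨1 / 20, by norm_num, fun d hd hd2 => ?_⟩
  have h := hDN (1 / 6) (by norm_num) (by norm_num)
  exact EdgeH.of (edge_of (by norm_num) (by norm_num) hη hd (by nlinarith) norm_wf_le_two h)

end Vale.Agent.P006.SV
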