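import Vale.Agent.P006.SV.BV

/-!
P006, block SV (20b): the Type II coefficients of the Buchstab decomposition are in `ClassG`.
-/

namespace Vale.Agent.P006.SV

open Finset Vale.Agent.P006

theorem pdv_mul_prime {m p : O} (hm : Primary m) (hp : Prime p) (hpp : Primary p) :
    pdv (m * p) = insert p (pdv m) := by
  rw [pdv_mul hm hpp, pdv_prime hp hpp, union_comm]
  rfl

theorem notMem_pdv_of_lt {m p : O} (h : ∀ q ∈ pdv m, N q < N p) : p ∉ pdv m :=
  fun hp => lt_irrefl _ (h p hp)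

theorem Pmin_mul_prime {m p : O} (hm : Primary m) (hm1 : m ≠ 1) (hp : Prime p) (hpp : Primary p)
    (h : ∀ q ∈ pdv m, N q < N p) : Pmin (m * p) = Pmin m := by
  apply Pmin_eq
  · rw [pdv_mul_prime hm hp hpp]
    exact mem_insert_of_mem (Pmin_mem hm hm1)
  · intro q hq
    rw [pdv_mul_prime hm hp hpp, mem_insert] at hq
    rcases hq with rfl | hq
    · exact (key_lt_of_N_lt (h _ (Pmin_mem hm hm1))).le
    · exact key_Pmin_le hq

theorem lamO_mul_lt {z : ℝ} {cf : O → ℂ} {m p : O} (hm : Primary m) (hp : Prime p)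
    (hpp : Primary p) (h : ∀ q ∈ pdv m, N q < N p) (hz : (N p : ℝ) < z) :
    lamO z cf (m * p) = -(cf (prodF ((pdv m).filter (fun p => z ≤ (N p : ℝ)))) *
      (-1) ^ ((pdv m).filter (fun p => (N p : ℝ) < z)).card) := by
  rw [lamO, pdv_mul_prime hm hp hpp, filter_insert, filter_insert, if_neg (not_le.2 hz),
    if_pos hz, card_insert_of_notMem, pow_succ]
  · ring
  · intro h1
    exact notMem_pdv_of_lt h (mem_of_mem_filter _ h1)

theorem lamO_mul_ge {z : ℝ} {cf : O → ℂ} {m p : O} (hm : Primary m) (hp : Prime p)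
    (hpp : Primary p) (h : ∀ q ∈ pdv m, N q < N p) (hz : z ≤ (N p : ℝ)) :
    lamO z cf (m * p) = (cf (prodF ((pdv m).filter (fun p => z ≤ (N p : ℝ))) * p)) *
      (-1) ^ ((pdv m).filter (fun p => (N p : ℝ) < z)).card := by
  rw [lamO, pdv_mul_prime hm hp hpp, filter_insert, filter_insert, if_pos hz,
    if_neg (not_lt.2 hz), prodF_insert, mul_comm p]
  intro h1
  exact notMem_pdv_of_lt h (mem_of_mem_filter _ h1)

theorem norm_lamO_le {z : ℝ} {cf : O → ℂ} {G : ℝ} (h : ∀ a, ‖cf a‖ ≤ G) (m : O) :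
    ‖lamO z cf m‖ ≤ G := by
  rw [lamO, norm_mul, norm_pow, norm_neg, norm_one, one_pow, mul_one]
  exact h _

theorem norm_alO_le {z Y : ℝ} {cf : O → ℂ} {G : ℝ} (h : ∀ a, ‖cf a‖ ≤ G) (a : O) :
    ‖alO z Y cf a‖ ≤ G := by
  rw [alO]
  split_ifs
  · exact norm_lamO_le h a
  · rw [norm_zero]; exact (norm_nonneg _).trans (h a)

/-- **the Type II coefficients are in `ClassG`.** -/
theorem classG_alO {cf : O → ℂ} {X G z Y : ℝ} (h : ClassG cf X G) (hzY : z ≤ Y)
    (hY : 0 ≤ Y) (hYz : Y * z ≤ X) (f : O → ℂ) (hf : ∀ p, ‖f p‖ ≤ 1) :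
    ClassG (fun a => alO z Y cf a * f (Pmin a)) X (6 * G) := by
  have hG : 0 ≤ G := (norm_nonneg _).trans (h.bound 1)
  have hsupp : ∀ a, alO z Y cf a ≠ 0 → Primary a ∧ Squarefree a ∧ Stop z Y a := by
    intro a ha
    by_contra h1
    exact ha (by rw [alO, if_neg h1])
  constructor
  · intro a ha
    have h1 := hsupp a (left_ne_zero_of_mul ha)
    refine ⟨h1.1, h1.2.1, h1.2.2.2.2.2.trans ?_⟩
    exact (mul_le_mul_of_nonneg_left h1.2.2.2.1.le hY).trans hYz
  · intro a
    rw [norm_mul]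
    calc ‖alO z Y cf a‖ * ‖f (Pmin a)‖ ≤ G * 1 :=
          mul_le_mul (norm_alO_le h.bound a) (hf _) (norm_nonneg _) hG
      _ ≤ 6 * G := by linarith
  · intro m hm
    by_cases hm1 : m = 1
    · refine ⟨fun _ => 0, BV.zero.mono (by linarith), ?_⟩
      intro p hp hpp _
      rw [hm1, one_mul, alO, if_neg, zero_mul]
      rintro ⟨_, _, _, h2, h3, _⟩
      have h4 : Pmin p = p := by
        apply Pmin_eq
        · rw [pdv_prime hp hpp]; exact mem_singleton_self _
        · intro q hq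
          rw [pdv_prime hp hpp, mem_singleton] at hq
          rw [hq]
      rw [h4] at h2
      linarith
    by_cases hms : Squarefree m ∧ (N (Pmin m) : ℝ) < z
    swap
    · refine ⟨fun _ => 0, BV.zero.mono (by linarith), ?_⟩
      intro p hp hpp hlt
      rw [alO, if_neg, zero_mul]
      rintro ⟨_, h1, _, h2, _, _⟩
      rw [Pmin_mul_prime hm hm1 hp hpp hlt] at h2
      exact hms ⟨(squarefree_mul_prime_iff hm hp hlt).1 h1, h2⟩
    have hr : Primary (prodF ((pdv m).filter (fun p => z ≤ (N p : ℝ)))) :=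
      ((ppset_pdv hm.ne_zero).subset (filter_subset _ _)).primary
    have hrp : pdv (prodF ((pdv m).filter (fun p => z ≤ (N p : ℝ)))) =
        (pdv m).filter (fun p => z ≤ (N p : ℝ)) :=
      ((ppset_pdv hm.ne_zero).subset (filter_subset _ _)).pdv
    set r := prodF ((pdv m).filter (fun p => z ≤ (N p : ℝ))) with hrdef
    set k := ((pdv m).filter (fun p => (N p : ℝ) < z)).card with hk
    obtain ⟨v, hv, hv2⟩ := h.str r hr
    have hN : (0 : ℝ) < N m := by exact_mod_cast N_pos hm.ne_zero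
    set c1 : ℂ := -(cf r * (-1) ^ k) * f (Pmin m) with hc1
    set c2 : ℂ := (-1) ^ k * f (Pmin m) with hc2
    have hc1n : ‖c1‖ ≤ G := by
      rw [hc1, norm_mul, norm_neg, norm_mul, norm_pow, norm_neg, norm_one, one_pow, mul_one]
      calc ‖cf r‖ * ‖f (Pmin m)‖ ≤ G * 1 := mul_le_mul (h.bound r) (hf _) (norm_nonneg _) hG
        _ = G := mul_one G
    have hc2n : ‖c2‖ ≤ 1 := by
      rw [hc2, norm_mul, norm_pow, norm_neg, norm_one, one_pow, one_mul]
      exact hf _
    refine ⟨fun n => if (n : ℝ) ≤ Y * N (Pmin m) / N m then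
      (if Y / N m < (n : ℝ) then (if (n : ℝ) < z then c1 else c2 * v n) else 0) else 0, ?_, ?_⟩
    · have h1 : BV G (fun _ => c1) := (BV.const c1).mono hc1n
      have h2 : BV G (fun n => c2 * v n) :=
        ((show BV G v from hv).const_mul c2).mono (by nlinarith)
      have h3 := ((h1.piece_lt h2 z).cut_gt (Y / N m)).cut_le (Y * N (Pmin m) / N m)
      exact h3.mono (by linarith)
    · intro p hp hpp hlt
      beta_reduce
      have e1 : ((N (m * p) : ℕ) : ℝ) = N p * N m := by rw [N_mul, Nat.cast_mul, mul_comm]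
      rw [Pmin_mul_prime hm hm1 hp hpp hlt, alO]
      have hiff : (Primary (m * p) ∧ Squarefree (m * p) ∧ Stop z Y (m * p)) ↔
          ((N p : ℝ) ≤ Y * N (Pmin m) / N m ∧ Y / N m < (N p : ℝ)) := by
        rw [Stop, Pmin_mul_prime hm hm1 hp hpp hlt, e1, le_div_iff₀ hN, div_lt_iff₀ hN]
        constructor
        · rintro ⟨_, _, _, _, h1, h2⟩
          exact ⟨h2, h1⟩
        · rintro ⟨h1, h2⟩
          refine ⟨hm.mul hpp, (squarefree_mul_prime_iff hm hp hlt).2 hms.1, ?_, hms.2, h2, h1⟩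
          intro h3
          exact hp.not_isUnit (isUnit_of_dvd_one (h3 ▸ dvd_mul_left p m))
      by_cases hcond : (N p : ℝ) ≤ Y * N (Pmin m) / N m ∧ Y / N m < (N p : ℝ)
      · rw [if_pos (hiff.2 hcond), if_pos hcond.1, if_pos hcond.2]
        by_cases hz : (N p : ℝ) < z
        · rw [if_pos hz, lamO_mul_lt hm hp hpp hlt hz]
        · rw [if_neg hz, lamO_mul_ge hm hp hpp hlt (not_lt.1 hz), ← hrdef, hv2 p hp hpp]
          · rw [hc2]; ring
          · intro q hq
            rw [hrp] at hq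
            exact hlt q (mem_of_mem_filter _ hq)
      · rw [if_neg (fun h => hcond (hiff.1 h)), zero_mul]
        by_cases h5 : (N p : ℝ) ≤ Y * N (Pmin m) / N m
        · rw [if_pos h5, if_neg (fun h => hcond ⟨h5, h⟩)]
        · rw [if_neg h5]

end Vale.Agent.P006.SV
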