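import Vale.Agent.P006.SV.Prod

/-!
P006, block SV (20b): the Buchstab decomposition of the rough Type I sum
`∑_q c_q ∑_{n rough, N(qn) ≤ x} w(qn)` into an unsifted Type I sum and a Type II sum.
-/

namespace Vale.Agent.P006.SV

open Finset Vale.Agent.P006

/-- the bilinear sum `∑_{a,b primary, N(ab) ≤ x} F a b` -/
noncomputable def bsum (x : ℝ) (F : O → O → ℂ) : ℂ :=
  ∑ a ∈ PB x, ∑ b ∈ (PB x).filter (fun b => (N (a * b) : ℝ) ≤ x), F a b

/-- coefficient `c(rough part) μ(smooth part)` of a squarefree primary element -/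
noncomputable def lamO (z : ℝ) (cf : O → ℂ) (m : O) : ℂ :=
  cf (prodF ((pdv m).filter (fun p => z ≤ (N p : ℝ)))) *
    (-1) ^ ((pdv m).filter (fun p => (N p : ℝ) < z)).card

/-- the stopping set of the Buchstab iteration: `P⁻(a) < z`, `Y < N(a)`, `N(a / P⁻(a)) ≤ Y` -/
def Stop (z Y : ℝ) (a : O) : Prop :=
  a ≠ 1 ∧ (N (Pmin a) : ℝ) < z ∧ Y < N a ∧ (N a : ℝ) ≤ Y * N (Pmin a)

open Classical in
/-- the Type II coefficient -/
noncomputable def alO (z Y : ℝ) (cf : O → ℂ) (a : O) : ℂ :=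
  if Primary a ∧ Squarefree a ∧ Stop z Y a then lamO z cf a else 0

theorem lamO_prodF {z : ℝ} {cf : O → ℂ} {s : Finset O} (h : PPset s) :
    lamO z cf (prodF s) = lamc (fun p => (N p : ℝ)) z (fun s => cf (prodF s)) s := by
  rw [lamO, lamc, h.pdv]

theorem stop_iff {z Y : ℝ} {c : O} (hc : Primary c) {s : Finset O} (hs : s ⊆ pdv c) :
    (∃ i ∈ s, (∀ j ∈ pdv c, key i ≤ key j) ∧ (N i : ℝ) < z ∧ Y < (N (prodF s) : ℝ) ∧
        (N (prodF (s.erase i)) : ℝ) ≤ Y) ↔
        ((∀ q ∈ pdv c, key (Pmin (prodF s)) ≤ key q) ∧ Stop z Y (prodF s)) := by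
  have h2 := (ppset_pdv hc.ne_zero).subset hs
  have h3 := h2.primary
  have h5 := h2.pdv
  by_cases hs0 : s = ∅
  · subst hs0
    constructor
    · rintro ⟨i, hi, _⟩; simp at hi
    · rintro ⟨_, h, _⟩; exact absurd prodF_empty h
  have hne : prodF s ≠ 1 := by
    intro h
    rw [h, pdv_one] at h5
    exact hs0 h5.symm
  have h6 := Pmin_mem h3 hne
  have h7 : ∀ q ∈ s, key (Pmin (prodF s)) ≤ key q := fun q hq => key_Pmin_le (by rw [h5]; exact hq)
  rw [h5] at h6
  have h8 : ((N (prodF s) : ℕ) : ℝ) =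
      N (Pmin (prodF s)) * N (prodF (s.erase (Pmin (prodF s)))) := by
    have h9 : prodF s = Pmin (prodF s) * prodF (s.erase (Pmin (prodF s))) := by
      rw [← prodF_insert (notMem_erase _ _), insert_erase h6]
    have h10 : N (prodF s) = N (Pmin (prodF s)) * N (prodF (s.erase (Pmin (prodF s)))) := by
      rw [← N_mul]; exact congrArg N h9
    rw [h10, Nat.cast_mul]
  have hNpos : (0 : ℝ) < N (Pmin (prodF s)) := by
    exact_mod_cast N_pos (h2 _ h6).1.ne_zero
  constructor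
  · rintro ⟨i, hi, h10, h11, h12, h13⟩
    have h14 : i = Pmin (prodF s) := key_injective ((h10 _ (hs h6)).antisymm (h7 i hi))
    rw [h14] at h10 h11 h13
    refine ⟨h10, hne, h11, h12, ?_⟩
    rw [h8, mul_comm]
    exact mul_le_mul_of_nonneg_right h13 hNpos.le
  · rintro ⟨h10, _, h11, h12, h13⟩
    refine ⟨_, h6, h10, h11, h12, ?_⟩
    rw [h8, mul_comm] at h13
    exact le_of_mul_le_mul_right h13 hNpos

open Classical in
theorem alO_term {z Y : ℝ} {cf : O → ℂ} {c : O} (hc : Primary c) {s : Finset O}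
    (hs : s ⊆ pdv c) :
    (if ∃ i ∈ s, (∀ j ∈ pdv c, key i ≤ key j) ∧ (N i : ℝ) < z ∧ Y < (N (prodF s) : ℝ) ∧
        (N (prodF (s.erase i)) : ℝ) ≤ Y then
        lamc (fun p => (N p : ℝ)) z (fun s => cf (prodF s)) s else 0) =
      if ∀ q ∈ pdv c, key (Pmin (prodF s)) ≤ key q then alO z Y cf (prodF s) else 0 := by
  have h2 := (ppset_pdv hc.ne_zero).subset hs
  rw [if_congr (stop_iff hc hs) rfl rfl, alO, ← lamO_prodF h2]
  by_cases h10 : ∀ q ∈ pdv c, key (Pmin (prodF s)) ≤ key q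
  · by_cases h11 : Stop z Y (prodF s)
    · rw [if_pos ⟨h10, h11⟩, if_pos h10, if_pos ⟨h2.primary, h2.squarefree, h11⟩]
    · rw [if_neg (fun h => h11 h.2), if_pos h10, if_neg (fun h => h11 h.2.2)]
  · rw [if_neg (fun h => h10 h.1), if_neg h10]

open Classical in
theorem buchstab_O (z Y : ℝ) (cf : O → ℂ) (hcf : ∀ q, Y < N q → cf q = 0) {c : O}
    (hc : Primary c) (hs : Squarefree c) :
    (if Rough z c then ∑ q ∈ dvs c, cf q else 0) =
      ∑ m ∈ (dvs c).filter (fun m => (N m : ℝ) ≤ Y), lamO z cf m +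
      ∑ a ∈ (dvs c).filter (fun a => ∀ q ∈ pdv c, key (Pmin a) ≤ key q), alO z Y cf a := by
  have h0 := ppset_pdv hc.ne_zero
  have a1 : ∀ i j : O, key i ≤ key j → (fun p : O => (N p : ℝ)) i ≤ (fun p : O => (N p : ℝ)) j := by
    intro i j h
    have := N_le_of_key_le h
    show (N i : ℝ) ≤ N j
    exact_mod_cast this
  have a2 : ∀ q ⊆ pdv c, Y < (fun s : Finset O => (N (prodF s) : ℝ)) q →
      (fun s : Finset O => cf (prodF s)) q = 0 := fun q _ hq => hcf _ hq
  have a3 : ∀ s ⊆ pdv c, ∀ i ∈ pdv c, i ∉ s →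
      (fun s : Finset O => (N (prodF s) : ℝ)) s ≤
        (fun s : Finset O => (N (prodF s) : ℝ)) (insert i s) := by
    intro s _ i hi his
    show (N (prodF s) : ℝ) ≤ N (prodF (insert i s))
    rw [prodF_insert his, N_mul, Nat.cast_mul]
    exact le_mul_of_one_le_left (by positivity) (h0 i hi).1.one_le_N'
  have key1 := buchstab key key_injective (fun p : O => (N p : ℝ)) a1 z Y
    (fun s : Finset O => (N (prodF s) : ℝ)) (fun s : Finset O => cf (prodF s)) (pdv c) a2 a3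
  have e1 : (if Rough z c then ∑ q ∈ dvs c, cf q else 0) =
      (if ∀ i ∈ pdv c, z ≤ (N i : ℝ) then ∑ q ∈ (pdv c).powerset, cf (prodF q) else 0) := by
    rw [if_congr (rough_iff hc) rfl rfl, sum_dvs_eq hc hs]
  rw [e1]
  refine key1.trans ?_
  clear key1 e1 a1 a2 a3
  congr 1
  · rw [sum_filter, sum_filter, sum_dvs_eq hc hs]
    apply sum_congr rfl
    intro s hs'
    rw [lamO_prodF (h0.subset (mem_powerset.1 hs'))]
  · rw [sum_filter, sum_filter, sum_dvs_eq hc hs]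
    apply sum_congr rfl
    intro s hs'
    exact alO_term hc (mem_powerset.1 hs')

end Vale.Agent.P006.SV
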