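import Mathlib.Algebra.BigOperators.Ring.Finset
import Mathlib.Algebra.Order.BigOperators.Ring.Finset
import Mathlib.Data.Complex.Basic
import Mathlib.Data.Finset.Max
import Mathlib.Tactic

/-!
P006, block SV (20b), combinatorial identity (Buchstab with a threshold), for finite sets of
primes (elements of a type `ι` with a key in a linear order and a size function `ν`).
-/

namespace Vale.Agent.P006.SV

open Finset

variable {ι κ : Type*} [DecidableEq ι] [LinearOrder κ]

/-- the coefficient `c(rough part) * μ(smooth part)` -/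
noncomputable def lamc (ν : ι → ℝ) (z : ℝ) (cf : Finset ι → ℂ) (m : Finset ι) : ℂ :=
  cf (m.filter (fun i => z ≤ ν i)) * (-1) ^ (m.filter (fun i => ν i < z)).card

theorem lamc_insert {ν : ι → ℝ} {z : ℝ} {cf : Finset ι → ℂ} {m : Finset ι} {i : ι}
    (hi : i ∉ m) (hz : ν i < z) : lamc ν z cf (insert i m) = - lamc ν z cf m := by
  have h1 : (insert i m).filter (fun i => z ≤ ν i) = m.filter (fun i => z ≤ ν i) := by
    rw [filter_insert, if_neg (not_le.2 hz)]
  have h2 : (insert i m).filter (fun i => ν i < z) = insert i (m.filter (fun i => ν i < z)) := by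
    rw [filter_insert, if_pos hz]
  have h3 : i ∉ m.filter (fun i => ν i < z) := fun h => hi (mem_of_mem_filter _ h)
  rw [lamc, lamc, h1, h2, card_insert_of_notMem h3, pow_succ]
  ring

open Classical in
/-- **Buchstab identity with threshold, pointwise form.** -/
theorem buchstab (k : ι → κ) (hk : Function.Injective k) (ν : ι → ℝ)
    (hν : ∀ i j, k i ≤ k j → ν i ≤ ν j) (z Y : ℝ) (P : Finset ι → ℝ)
    (cf : Finset ι → ℂ) (c : Finset ι) (hcf : ∀ q ⊆ c, Y < P q → cf q = 0)
    (hP : ∀ s ⊆ c, ∀ i ∈ c, i ∉ s → P s ≤ P (insert i s)) :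
    (if ∀ i ∈ c, z ≤ ν i then ∑ q ∈ c.powerset, cf q else 0) =
      ∑ m ∈ c.powerset.filter (fun m => P m ≤ Y), lamc ν z cf m +
      ∑ a ∈ c.powerset.filter (fun a => ∃ i ∈ a, (∀ j ∈ c, k i ≤ k j) ∧ ν i < z ∧ Y < P a ∧
        P (a.erase i) ≤ Y), lamc ν z cf a := by
  by_cases hsp : ∀ i ∈ c, z ≤ ν i
  · rw [if_pos hsp]
    have h1 : ∀ i ∈ c, ¬ ν i < z := fun i hi => not_lt.2 (hsp i hi)
    have h2 : c.powerset.filter (fun a => ∃ i ∈ a, (∀ j ∈ c, k i ≤ k j) ∧ ν i < z ∧ Y < P a ∧
        P (a.erase i) ≤ Y) = ∅ := by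
      rw [filter_eq_empty_iff]
      rintro a ha ⟨i, hi, -, h3, -⟩
      exact h1 i (mem_powerset.1 ha hi) h3
    rw [h2, sum_empty, add_zero]
    have h3 : ∀ m ∈ c.powerset, lamc ν z cf m = cf m := by
      intro m hm
      have hm' := mem_powerset.1 hm
      have h4 : m.filter (fun i => z ≤ ν i) = m := by
        rw [filter_eq_self]
        intro i hi
        exact not_lt.1 (h1 i (hm' hi))
      have h5 : m.filter (fun i => ν i < z) = ∅ := by
        rw [filter_eq_empty_iff]
        intro i hi
        exact h1 i (hm' hi)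
      rw [lamc, h4, h5]; simp
    rw [sum_filter]
    apply sum_congr rfl
    intro m hm
    split_ifs with h
    · rw [h3 m hm]
    · exact hcf m (mem_powerset.1 hm) (not_le.1 h)
  · rw [if_neg hsp]
    push Not at hsp
    obtain ⟨i0, hi0, hi0z⟩ := hsp
    obtain ⟨i, hic, hmin⟩ := exists_min_image c k ⟨i0, hi0⟩
    have hiz : ν i < z := (hν _ _ (hmin i0 hi0)).trans_lt hi0z
    set c' := c.erase i with hc'
    have hic' : i ∉ c' := by simp [hc']
    have hcc : insert i c' = c := insert_erase hic
    -- the second sum, as a sum over `m ⊆ c'`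
    have h2 : ∀ a ∈ c.powerset, ((∃ j ∈ a, (∀ l ∈ c, k j ≤ k l) ∧ ν j < z ∧ Y < P a ∧
        P (a.erase j) ≤ Y) ↔ (i ∈ a ∧ Y < P a ∧ P (a.erase i) ≤ Y)) := by
      intro a ha
      have ha' := mem_powerset.1 ha
      constructor
      · rintro ⟨j, hj, h3, h4, h5, h6⟩
        have h7 : j = i := hk (le_antisymm (h3 i hic) (hmin j (ha' hj)))
        subst h7
        exact ⟨hj, h5, h6⟩
      · rintro ⟨h3, h4, h5⟩
        exact ⟨i, h3, hmin, hiz, h4, h5⟩
    rw [filter_congr h2]
    clear h2
    rw [← hcc, sum_filter, sum_filter, sum_powerset_insert hic',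
      sum_powerset_insert hic', ← sum_add_distrib, ← sum_add_distrib, ← sum_add_distrib]
    symm
    apply sum_eq_zero
    intro m hm
    have hm' : m ⊆ c' := mem_powerset.1 hm
    have him : i ∉ m := fun h => hic' (hm' h)
    have h3 : (insert i m).erase i = m := erase_insert him
    have h4 := hP m (hm'.trans (erase_subset _ _)) i hic him
    rw [lamc_insert him hiz, h3]
    simp only [him, false_and, if_false, mem_insert_self, true_and]
    by_cases h5 : P m ≤ Y
    · by_cases h6 : P (insert i m) ≤ Y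
      · simp [h5, h6, not_lt.2 h6]
      · simp [h5, h6, not_le.1 h6]
    · have h6 : ¬ P (insert i m) ≤ Y := fun h => h5 (h4.trans h)
      simp [h5, h6]

end Vale.Agent.P006.SV
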