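import Vale.Agent.P006.SV.EdgeSum

/-!
P006, block 20c (helper577): the edge estimate `EdgeHyp` from `DNHyp`.
-/

namespace Vale.Agent.P006.SV

open Finset Vale.Agent.P006

theorem natLog_le {X : ℝ} (hX : 3 ≤ X) {n : ℕ} (hn : (n : ℝ) ≤ 4 * X) :
    ((Nat.log 2 n + 1 : ℕ) : ℝ) ≤ 5 * Real.log X := by
  have hlog : 1 ≤ Real.log X := one_le_log hX
  have hl2 : 0.6931471803 < Real.log 2 := Real.log_two_gt_d9
  have hl2' : Real.log 2 < 0.6931471808 := Real.log_two_lt_d9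
  push_cast
  by_cases h0 : n = 0
  · rw [h0]; simp; linarith
  have h1 : ((Nat.log 2 n : ℕ) : ℝ) ≤ Real.logb 2 n := by
    have := Real.natLog_le_logb n 2
    exact_mod_cast this
  have h3 : Real.logb 2 n ≤ Real.log (4 * X) / Real.log 2 := by
    rw [Real.logb]
    apply div_le_div_of_nonneg_right _ (by linarith)
    apply Real.log_le_log _ hn
    exact_mod_cast Nat.pos_of_ne_zero h0
  have h4 : Real.log (4 * X) = 2 * Real.log 2 + Real.log X := by
    rw [Real.log_mul (by norm_num) (by linarith), show (4 : ℝ) = 2 ^ 2 by norm_num, Real.log_pow]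
    push_cast; ring
  have h5 : Real.log (4 * X) / Real.log 2 ≤ 4 * Real.log X := by
    rw [h4, div_le_iff₀ (by linarith)]
    nlinarith
  linarith

theorem ar_main {C₁ D L Z Lv : ℝ} (hC₁ : 0 ≤ C₁) (hD0 : 0 < D) (hD1 : D ≤ 1) (hL : 1 ≤ L)
    (hLD : 1 / L ≤ D) (hZ : 0 ≤ Z) (hLv : Lv ≤ 5 * L) :
    25 * Real.sqrt (2 * C₁ * (D + 1 / L) * Z) +
      Lv * Real.sqrt (6 * C₁ * Z * (L ^ 8) ^ (-(1 / 2) : ℝ)) ≤
    (25 * Real.sqrt (4 * C₁) + 5 * Real.sqrt (6 * C₁)) * (Real.sqrt D * Real.sqrt Z) := by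
  have hL0 : 0 < L := by linarith
  have h1 : Real.sqrt (2 * C₁ * (D + 1 / L) * Z) ≤
      Real.sqrt (4 * C₁) * (Real.sqrt D * Real.sqrt Z) := by
    rw [← Real.sqrt_mul hD0.le, ← Real.sqrt_mul (by positivity)]
    apply Real.sqrt_le_sqrt
    have : 2 * C₁ * (D + 1 / L) * Z ≤ 2 * C₁ * (D + D) * Z := by
      apply mul_le_mul_of_nonneg_right _ hZ
      apply mul_le_mul_of_nonneg_left _ (by positivity)
      linarith
    refine this.trans (le_of_eq ?_)
    ring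
  have h2 : (L ^ 8) ^ (-(1 / 2) : ℝ) = (1 / L ^ 2) ^ 2 := by
    rw [← Real.rpow_natCast L 8, ← Real.rpow_mul hL0.le, div_pow, one_pow, ← pow_mul,
      show ((8 : ℕ) : ℝ) * (-(1 / 2)) = -((4 : ℕ) : ℝ) by norm_num, Real.rpow_neg hL0.le,
      Real.rpow_natCast]
    norm_num
  have h3 : Lv * Real.sqrt (6 * C₁ * Z * (L ^ 8) ^ (-(1 / 2) : ℝ)) ≤
      5 * Real.sqrt (6 * C₁) * (Real.sqrt D * Real.sqrt Z) := by
    rw [h2, Real.sqrt_mul (by positivity), Real.sqrt_mul (by positivity),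
      Real.sqrt_sq (by positivity)]
    have h4 : Lv * (1 / L ^ 2) ≤ 5 * Real.sqrt D := by
      calc Lv * (1 / L ^ 2) ≤ 5 * L * (1 / L ^ 2) :=
            mul_le_mul_of_nonneg_right hLv (by positivity)
        _ = 5 * (1 / L) := by field_simp
        _ ≤ 5 * D := by linarith
        _ ≤ 5 * Real.sqrt D := by
            apply mul_le_mul_of_nonneg_left _ (by norm_num)
            apply Real.le_sqrt_of_sq_le
            nlinarith
    calc Lv * (Real.sqrt (6 * C₁) * Real.sqrt Z * (1 / L ^ 2)) =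
          (Lv * (1 / L ^ 2)) * (Real.sqrt (6 * C₁) * Real.sqrt Z) := by ring
      _ ≤ (5 * Real.sqrt D) * (Real.sqrt (6 * C₁) * Real.sqrt Z) :=
          mul_le_mul_of_nonneg_right h4 (by positivity)
      _ = _ := by ring
  calc _ ≤ 25 * (Real.sqrt (4 * C₁) * (Real.sqrt D * Real.sqrt Z)) +
        5 * Real.sqrt (6 * C₁) * (Real.sqrt D * Real.sqrt Z) :=
        add_le_add (mul_le_mul_of_nonneg_left h1 (by norm_num)) h3
    _ = _ := by ring

theorem ar_err {C A₀ X L Lv P E : ℝ} {A : ℕ} (hC : 0 ≤ C) (hA : 0 < A₀) (hX : 0 < X) (hL : 1 ≤ L)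
    (hLv : Lv ≤ 5 * L) (hP0 : 0 ≤ P) (hP : P ≤ 4 * L ^ 4 * (X / A₀))
    (hE : E = C * (2 * L ^ 2) ^ 2 * A₀ ^ (5 / 3 : ℝ) * (X / A₀) ^ (2 / 3 : ℝ) / L ^ (2 * A + 30)) :
    4 * Lv * L ^ 10 * (Real.sqrt P * Real.sqrt E) ≤
      80 * Real.sqrt C * X ^ (5 / 6 : ℝ) / L ^ A := by
  have hL0 : 0 < L := by linarith
  have hE0 : 0 ≤ E := by rw [hE]; positivity
  have hZ : 0 < X / A₀ := by positivity
  have h1 : P * E ≤ C * (4 * X ^ (5 / 6 : ℝ) / L ^ (A + 11)) ^ 2 := by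
    have e1 : X / A₀ * (A₀ ^ (5 / 3 : ℝ) * (X / A₀) ^ (2 / 3 : ℝ)) = (X ^ (5 / 6 : ℝ)) ^ 2 := by
      have e2 : X / A₀ * (X / A₀) ^ (2 / 3 : ℝ) = (X / A₀) ^ (5 / 3 : ℝ) := by
        conv_lhs => rw [← Real.rpow_one (X / A₀), ← Real.rpow_mul hZ.le, one_mul,
          ← Real.rpow_add hZ]
        norm_num
      calc X / A₀ * (A₀ ^ (5 / 3 : ℝ) * (X / A₀) ^ (2 / 3 : ℝ)) =
            (X / A₀ * (X / A₀) ^ (2 / 3 : ℝ)) * A₀ ^ (5 / 3 : ℝ) := by ring
        _ = (X / A₀) ^ (5 / 3 : ℝ) * A₀ ^ (5 / 3 : ℝ) := by rw [e2]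
        _ = X ^ (5 / 3 : ℝ) := by
            rw [← Real.mul_rpow hZ.le hA.le, div_mul_cancel₀ _ hA.ne']
        _ = (X ^ (5 / 6 : ℝ)) ^ 2 := by
            rw [← Real.rpow_natCast, ← Real.rpow_mul hX.le]; norm_num
    calc P * E ≤ (4 * L ^ 4 * (X / A₀)) * E := mul_le_mul_of_nonneg_right hP hE0
      _ = 16 * C * L ^ 8 / L ^ (2 * A + 30) *
          (X / A₀ * (A₀ ^ (5 / 3 : ℝ) * (X / A₀) ^ (2 / 3 : ℝ))) := by
          rw [hE]; ring
      _ = 16 * C * L ^ 8 / L ^ (2 * A + 30) * (X ^ (5 / 6 : ℝ)) ^ 2 := by rw [e1]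
      _ = C * (4 * X ^ (5 / 6 : ℝ) / L ^ (A + 11)) ^ 2 := by
          have e3 : L ^ (2 * A + 30) = L ^ 8 * (L ^ (A + 11)) ^ 2 := by
            rw [← pow_mul, ← pow_add]; congr 1; ring
          rw [e3]
          field_simp
          ring
  have h2 : Real.sqrt P * Real.sqrt E ≤ Real.sqrt C * (4 * X ^ (5 / 6 : ℝ) / L ^ (A + 11)) := by
    rw [← Real.sqrt_mul hP0]
    refine (Real.sqrt_le_sqrt h1).trans (le_of_eq ?_)
    rw [Real.sqrt_mul hC, Real.sqrt_sq (by positivity)]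
  calc 4 * Lv * L ^ 10 * (Real.sqrt P * Real.sqrt E) ≤
        4 * (5 * L) * L ^ 10 * (Real.sqrt C * (4 * X ^ (5 / 6 : ℝ) / L ^ (A + 11))) := by
        apply mul_le_mul _ h2 (by positivity) (by positivity)
        apply mul_le_mul_of_nonneg_right _ (by positivity)
        linarith
    _ = 80 * Real.sqrt C * X ^ (5 / 6 : ℝ) / L ^ A := by
        have e3 : L ^ (A + 11) = L ^ A * L ^ 11 := pow_add _ _ _
        rw [e3]
        field_simp
        ring

/-- the bilinear form as a sum over `b` with the coupling `N a < Yb b` -/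
theorem Bil_Yb {w α β : O → ℂ} {X A₀ x : ℝ} (hA : 1 ≤ A₀) (hAX : 2 * A₀ ≤ X) (hx0 : 0 ≤ x)
    (hx : x ≤ X) (hα : ∀ a, α a ≠ 0 → Primary a ∧ Squarefree a ∧ (N a : ℝ) ≤ 2 * A₀)
    (hβ : ∀ b, β b ≠ 0 → Primary b ∧ Squarefree b ∧ (N b : ℝ) ≤ X / A₀) :
    Bil w α β x = ∑ b ∈ SPB (X / A₀), β b *
      ∑ a ∈ (SPB (2 * A₀)).filter (fun a => N a < Yb x b), α a * w (a * b) := by
  classical
  have hX0 : 0 ≤ X := hx0.trans hx
  set F : O → O → ℂ := fun a b => if (N (a * b) : ℝ) ≤ x then α a * (β b * w (a * b)) else 0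
    with hF
  have e1 : Bil w α β x = ∑ a ∈ PB X, ∑ b ∈ PB X, F a b := by
    rw [Bil_eq, bsum]
    have h1 : ∀ a ∈ PB x, ∑ b ∈ (PB x).filter (fun b => (N (a * b) : ℝ) ≤ x),
        α a * (β b * w (a * b)) = ∑ b ∈ PB X, F a b := by
      intro a ha
      rw [mem_PB] at ha
      simp only [hF]
      rw [← sum_filter]
      apply sum_congr _ (fun _ _ => rfl)
      ext b
      rw [mem_filter, mem_filter, mem_PB, mem_PB]
      constructor
      · rintro ⟨⟨h1, h2⟩, h3⟩; exact ⟨⟨h1, h2.trans hx⟩, h3⟩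
      · rintro ⟨⟨h1, _⟩, h3⟩
        refine ⟨⟨h1, le_trans ?_ h3⟩, h3⟩
        rw [N_mul, Nat.cast_mul]
        exact le_mul_of_one_le_left (by positivity) ha.1.one_le_N'
    rw [sum_congr rfl h1]
    apply sum_subset (PB_mono hx)
    intro a ha ha'
    rw [mem_PB] at ha ha'
    apply sum_eq_zero
    intro b hb
    rw [mem_PB] at hb
    simp only [hF]
    rw [if_neg]
    intro h2
    apply ha'
    refine ⟨ha.1, le_trans ?_ h2⟩
    rw [N_mul, Nat.cast_mul]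
    exact le_mul_of_one_le_right (by positivity) hb.1.one_le_N'
  rw [e1, sum_comm]
  have hsub : SPB (X / A₀) ⊆ PB X := by
    intro b hb
    rw [mem_SPB] at hb
    rw [mem_PB]
    exact ⟨hb.1.1, hb.1.2.trans (div_le_self hX0 hA)⟩
  rw [← sum_subset hsub]
  · apply sum_congr rfl
    intro b hb
    rw [mem_SPB] at hb
    have hNb : (0 : ℝ) < N b := by exact_mod_cast N_pos hb.1.1.ne_zero
    have hiff : ∀ a : O, (N (a * b) : ℝ) ≤ x ↔ N a < Yb x b := by
      intro a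
      rw [Yb, Nat.lt_succ_iff, Nat.le_floor_iff (by positivity), le_div_iff₀ hNb, N_mul,
        Nat.cast_mul]
    have hsub2 : (SPB (2 * A₀)).filter (fun a => N a < Yb x b) ⊆ PB X := by
      intro a ha
      rw [mem_filter, mem_SPB] at ha
      rw [mem_PB]
      exact ⟨ha.1.1.1, ha.1.1.2.trans hAX⟩
    rw [mul_sum, ← sum_subset hsub2]
    · apply sum_congr rfl
      intro a ha
      rw [mem_filter] at ha
      simp only [hF]
      rw [if_pos ((hiff a).2 ha.2)]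
      ring
    · intro a _ ha'
      simp only [hF]
      by_cases h1 : N a < Yb x b
      · by_cases h2 : α a = 0
        · rw [h2]; simp
        · exfalso
          have h3 := hα a h2
          exact ha' (mem_filter.2 ⟨mem_SPB.2 ⟨⟨h3.1, h3.2.2⟩, h3.2.1⟩, h1⟩)
      · rw [if_neg (fun h => h1 ((hiff a).1 h))]
  · intro b _ hb'
    apply sum_eq_zero
    intro a _
    by_cases h2 : β b = 0
    · simp [hF, h2]
    · exfalso
      have h3 := hβ b h2
      exact hb' (mem_SPB.2 ⟨⟨h3.1, h3.2.2⟩, h3.2.1⟩)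

/-- trivial bound -/
theorem Bil_trivial {w α β : O → ℂ} {X x M : ℝ} (hX : 1 ≤ X) (hx : x ≤ X) (hM : 0 ≤ M)
    (hw : ∀ c, ‖w c‖ ≤ 2) (hα : ∀ a, ‖α a‖ ≤ M) (hβ : ∀ a, ‖β a‖ ≤ M) :
    ‖Bil w α β x‖ ≤ 32 * M ^ 2 * X ^ 2 := by
  rw [Bil]
  have hcard : ∀ y : ℝ, y ≤ X → ((PB y).card : ℝ) ≤ 4 * X := by
    intro y hy
    have h1 : ((PB y).card : ℝ) ≤ (PB X).card := by exact_mod_cast card_le_card (PB_mono hy)
    exact h1.trans (card_PB_le (by linarith))
  have h1 : ∀ a ∈ PB x, ‖α a * ∑ b ∈ PB (x / N a), β b * w (a * b)‖ ≤ M * (4 * X * (M * 2)) := by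
    intro a ha
    rw [mem_PB] at ha
    rw [norm_mul]
    apply mul_le_mul (hα a) _ (norm_nonneg _) hM
    refine (norm_sum_le _ _).trans ?_
    have h2 : ∀ b ∈ PB (x / N a), ‖β b * w (a * b)‖ ≤ M * 2 := by
      intro b _
      rw [norm_mul]
      exact mul_le_mul (hβ b) (hw _) (norm_nonneg _) hM
    refine (sum_le_sum h2).trans ?_
    rw [sum_const, nsmul_eq_mul]
    apply mul_le_mul_of_nonneg_right _ (by positivity)
    apply hcard
    rcases le_or_gt 0 x with h | h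
    · exact (div_le_self h ha.1.one_le_N').trans hx
    · have : x / N a ≤ 0 := div_nonpos_of_nonpos_of_nonneg h.le (by positivity)
      linarith
  refine (norm_sum_le _ _).trans ((sum_le_sum h1).trans ?_)
  rw [sum_const, nsmul_eq_mul]
  calc ((PB x).card : ℝ) * (M * (4 * X * (M * 2))) ≤ (4 * X) * (M * (4 * X * (M * 2))) :=
        mul_le_mul_of_nonneg_right (hcard x hx) (by positivity)
    _ = 32 * M ^ 2 * X ^ 2 := by ring

/-- the range of small `b` -/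
theorem small_b {w α β : O → ℂ} {A₀ x M y : ℝ} (hA : 1 ≤ A₀) (hM : 0 ≤ M) (hy : 0 ≤ y)
    (hw : ∀ c, ‖w c‖ ≤ 2) (hα : ∀ a, ‖α a‖ ≤ M) (hβ : ∀ a, ‖β a‖ ≤ M) (T : Finset O)
    (hT : T ⊆ PB y) :
    ‖∑ b ∈ T, β b * ∑ a ∈ (SPB (2 * A₀)).filter (fun a => N a < Yb x b), α a * w (a * b)‖ ≤
      64 * M ^ 2 * A₀ * y := by
  classical
  have h1 : ∀ b ∈ T, ‖β b * ∑ a ∈ (SPB (2 * A₀)).filter (fun a => N a < Yb x b),
      α a * w (a * b)‖ ≤ M * (4 * (2 * A₀) * (M * 2)) := by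
    intro b _
    rw [norm_mul]
    apply mul_le_mul (hβ b) _ (norm_nonneg _) hM
    refine (norm_sum_le _ _).trans ?_
    have h2 : ∀ a ∈ (SPB (2 * A₀)).filter (fun a => N a < Yb x b), ‖α a * w (a * b)‖ ≤ M * 2 := by
      intro a _
      rw [norm_mul]
      exact mul_le_mul (hα a) (hw _) (norm_nonneg _) hM
    refine (sum_le_sum h2).trans ?_
    rw [sum_const, nsmul_eq_mul]
    apply mul_le_mul_of_nonneg_right _ (by positivity)
    have h3 : (((SPB (2 * A₀)).filter (fun a => N a < Yb x b)).card : ℝ) ≤ (PB (2 * A₀)).card := by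
      exact_mod_cast card_le_card ((filter_subset _ _).trans SPB_subset_PB)
    exact h3.trans (card_PB_le (by linarith))
  refine (norm_sum_le _ _).trans ((sum_le_sum h1).trans ?_)
  rw [sum_const, nsmul_eq_mul]
  have h4 : (T.card : ℝ) ≤ 4 * y := by
    have : (T.card : ℝ) ≤ (PB y).card := by exact_mod_cast card_le_card hT
    exact this.trans (card_PB_le hy)
  calc (T.card : ℝ) * (M * (4 * (2 * A₀) * (M * 2))) ≤
        (4 * y) * (M * (4 * (2 * A₀) * (M * 2))) :=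
        mul_le_mul_of_nonneg_right h4 (by positivity)
    _ = 64 * M ^ 2 * A₀ * y := by ring

end Vale.Agent.P006.SV
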