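import Vale.Agent.P006.SV.EdgeEM

/-!
P006, block 20c (helper577): the block estimate at the edge, from `DNHyp`.
-/

namespace Vale.Agent.P006.SV

open Finset Vale.Agent.P006

/-- restriction of a coefficient to a norm block -/
def blk (lo hi : ℕ) (α : O → ℂ) (a : O) : ℂ := if lo ≤ N a ∧ N a < hi then α a else 0

theorem blk_ne_zero {lo hi : ℕ} {α : O → ℂ} {a : O} (h : blk lo hi α a ≠ 0) :
    lo ≤ N a ∧ N a < hi ∧ α a ≠ 0 := by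
  rw [blk] at h
  split_ifs at h with h1
  · exact ⟨h1.1, h1.2, h⟩
  · exact absurd rfl h

theorem norm_blk_le {lo hi : ℕ} {α : O → ℂ} {a : O} : ‖blk lo hi α a‖ ≤ ‖α a‖ := by
  rw [blk]; split_ifs <;> simp

theorem classG_blk {α : O → ℂ} {X G : ℝ} (h : ClassG α X G) (lo hi : ℕ) :
    ClassG (blk lo hi α) X (2 * G) := by
  have hG : 0 ≤ G := (norm_nonneg _).trans (h.bound 1)
  constructor
  · intro a ha
    exact h.supp a (blk_ne_zero ha).2.2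
  · intro a
    exact (norm_blk_le.trans (h.bound a)).trans (by linarith)
  · intro m hm
    obtain ⟨v, hv, hv2⟩ := h.str m hm
    have hN : (0 : ℝ) < N m := by exact_mod_cast N_pos hm.ne_zero
    have h1 := ((show BV G v from hv).cut_ge (lo / N m)).cut_above ⌈(hi : ℝ) / N m⌉₊
    refine ⟨_, h1, ?_⟩
    intro p hp hpp hlt
    rw [blk, hv2 p hp hpp hlt]
    have e1 : (lo / N m ≤ (N p : ℝ)) ↔ lo ≤ N (m * p) := by
      rw [div_le_iff₀ hN, N_mul, mul_comm]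
      constructor
      · intro h; exact_mod_cast h
      · intro h; exact_mod_cast h
    have e2 : N p < ⌈(hi : ℝ) / N m⌉₊ ↔ N (m * p) < hi := by
      rw [Nat.lt_ceil, lt_div_iff₀ hN, N_mul, mul_comm]
      constructor
      · intro h; exact_mod_cast h
      · intro h; exact_mod_cast h
    simp only [e1, e2]
    by_cases c1 : lo ≤ N (m * p)
    · by_cases c2 : N (m * p) < hi
      · rw [if_pos ⟨c1, c2⟩, if_pos c2, if_pos c1]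
      · rw [if_neg (fun h => c2 h.2), if_neg c2]
    · rw [if_neg (fun h => c1 h.1), if_neg c1]
      simp

open Classical in
theorem FamS_nonneg (w α : O → ℂ) (W : O) (A y₁ y₂ : ℝ) (l : ℕ) : 0 ≤ FamS w α W A y₁ y₂ l :=
  sum_nonneg fun _ _ => sum_nonneg fun _ _ => by positivity

open Classical in
theorem FamS_split (w α : O → ℂ) (W : O) (A y₁ y₂ y₃ y₄ : ℝ) (h : y₃ ≤ y₄) (l : ℕ) :
    FamS w α W A y₁ y₃ l ≤ FamS w α W A y₁ y₂ l + FamS w α W A y₂ y₄ l := by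
  rw [FamS, FamS, FamS, ← sum_add_distrib]
  apply sum_le_sum
  intro s _
  have hsub : (SPB y₃).filter (fun b => IsCoprime b W ∧ y₁ < (N b : ℝ)) ⊆
      (SPB y₂).filter (fun b => IsCoprime b W ∧ y₁ < (N b : ℝ)) ∪
      (SPB y₄).filter (fun b => IsCoprime b W ∧ y₂ < (N b : ℝ)) := by
    intro b hb
    rw [mem_filter, mem_SPB] at hb
    rw [mem_union, mem_filter, mem_filter, mem_SPB, mem_SPB]
    by_cases hc : (N b : ℝ) ≤ y₂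
    · exact Or.inl ⟨⟨⟨hb.1.1.1, hc⟩, hb.1.2⟩, hb.2⟩
    · exact Or.inr ⟨⟨⟨hb.1.1.1, hb.1.1.2.trans h⟩, hb.1.2⟩, hb.2.1, not_le.1 hc⟩
  refine (sum_le_sum_of_subset_of_nonneg hsub fun _ _ _ => by positivity).trans ?_
  have h2 := sum_union_inter (s₁ := (SPB y₂).filter (fun b => IsCoprime b W ∧ y₁ < (N b : ℝ)))
    (s₂ := (SPB y₄).filter (fun b => IsCoprime b W ∧ y₂ < (N b : ℝ)))
    (f := fun b => ‖∑ a ∈ (SPB (2 * A)).filter (fun a => N a / 2 ^ l = s), α a * w (a * b)‖ ^ 2)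
  rw [← h2]
  apply le_add_of_nonneg_right
  exact sum_nonneg fun _ _ => by positivity

theorem dens_pos {W : O} (hW : Primary W) : 0 < dens W := by
  rw [dens]
  apply prod_pos
  intro p hp
  rw [mem_pdv hW.ne_zero] at hp
  have h1 : 1 < N p := by
    have h2 := hp.1.one_le_N
    rcases h2.lt_or_eq with h3 | h3
    · exact h3
    · exact absurd (isUnit_iff_N.2 h3.symm) hp.2.1.not_isUnit
  have h2 : (1 : ℝ) < N p := by exact_mod_cast h1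
  have : 1 / (N p : ℝ) < 1 := by rw [div_lt_one (by linarith)]; exact h2
  linarith

theorem dens_le_one {W : O} (hW : Primary W) : dens W ≤ 1 := by
  rw [dens]
  apply prod_le_one
  · intro p hp
    rw [mem_pdv hW.ne_zero] at hp
    have h1 := hp.1.one_le_N'
    have : 1 / (N p : ℝ) ≤ 1 := by rw [div_le_one (by linarith)]; exact h1
    linarith
  · intro p _
    have : 0 ≤ 1 / (N p : ℝ) := by positivity
    linarith

theorem ar1 {F C₀ K D ξ y S E Er L : ℝ} (hC₀ : 0 ≤ C₀) (hK : 0 < K) (hD : 0 < D) (hξ0 : 0 < ξ)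
    (hy : 0 < y) (hS : 0 ≤ S) (hL : 0 < L) (hEr : 0 ≤ Er) (hE : E ≤ K * ξ / L * S)
    (h : F ≤ C₀ * D * ξ * y * S + C₀ * ξ ^ (-(1 / 2) : ℝ) * y * E + Er) :
    F ≤ (2 * C₀ + 4 * C₀ * K) * (D * ξ + ξ ^ (1 / 2 : ℝ) / L) * y * S + (Er + Er) := by
  have hsq : ξ ^ (1 / 2 : ℝ) * ξ ^ (1 / 2 : ℝ) = ξ := by
    rw [← Real.rpow_add hξ0]; norm_num
  have h2 : C₀ * ξ ^ (-(1 / 2) : ℝ) * y * E ≤ C₀ * K * (ξ ^ (1 / 2 : ℝ) / L * y * S) := by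
    calc C₀ * ξ ^ (-(1 / 2) : ℝ) * y * E ≤
          C₀ * ξ ^ (-(1 / 2) : ℝ) * y * (K * ξ / L * S) :=
          mul_le_mul_of_nonneg_left hE (by positivity)
      _ = C₀ * K * ((ξ ^ (-(1 / 2) : ℝ) * ξ ^ (1 / 2 : ℝ)) * ξ ^ (1 / 2 : ℝ) / L) * y * S := by
          rw [mul_assoc (ξ ^ (-(1 / 2) : ℝ)), hsq]; ring
      _ = C₀ * K * (ξ ^ (1 / 2 : ℝ) / L * y * S) := by
          rw [← Real.rpow_add hξ0, neg_add_cancel, Real.rpow_zero, one_mul]; ring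
  have h5 : (0 : ℝ) ≤ C₀ * (D * ξ * y * S) := by positivity
  have h6 : (0 : ℝ) ≤ C₀ * K * (D * ξ * y * S) := by positivity
  have h7 : (0 : ℝ) ≤ C₀ * (ξ ^ (1 / 2 : ℝ) / L * y * S) := by positivity
  have h8 : (0 : ℝ) ≤ C₀ * K * (ξ ^ (1 / 2 : ℝ) / L * y * S) := by positivity
  have e : (2 * C₀ + 4 * C₀ * K) * (D * ξ + ξ ^ (1 / 2 : ℝ) / L) * y * S =
    2 * (C₀ * (D * ξ * y * S)) + 4 * (C₀ * K * (D * ξ * y * S)) +
    2 * (C₀ * (ξ ^ (1 / 2 : ℝ) / L * y * S)) +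
    4 * (C₀ * K * (ξ ^ (1 / 2 : ℝ) / L * y * S)) := by ring
  rw [e]
  have e2 : C₀ * D * ξ * y * S = C₀ * (D * ξ * y * S) := by ring
  rw [e2] at h
  linarith

theorem ar2 {F F1 F2 C₀ K D ξ y S E Er L : ℝ} (hC₀ : 0 ≤ C₀) (hK : 0 < K) (hD : 0 < D)
    (hξ : 1 < ξ) (hξ2 : ξ ≤ 2) (hy : 0 < y) (hS : 0 ≤ S) (hL : 0 < L)
    (hE : E ≤ K * ξ / L * S) (h : F ≤ F1 + F2) (h1 : F1 ≤ C₀ * D * y * S + C₀ * y * E + Er)
    (h2 : F2 ≤ C₀ * D * y * S + C₀ * y * E + Er) :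
    F ≤ (2 * C₀ + 4 * C₀ * K) * (D * ξ + ξ ^ (1 / 2 : ℝ) / L) * y * S + (Er + Er) := by
  have hξ0 : 0 < ξ := by linarith
  have hξs : 1 ≤ ξ ^ (1 / 2 : ℝ) := Real.one_le_rpow hξ.le (by norm_num)
  have hsq : ξ ^ (1 / 2 : ℝ) * ξ ^ (1 / 2 : ℝ) = ξ := by
    rw [← Real.rpow_add hξ0]; norm_num
  have hξ3 : ξ ≤ 2 * ξ ^ (1 / 2 : ℝ) := by
    have : ξ ^ (1 / 2 : ℝ) ≤ 2 := by
      by_contra hc
      push Not at hc
      nlinarith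
    nlinarith
  have h4 : C₀ * y * E ≤ 2 * (C₀ * K * (ξ ^ (1 / 2 : ℝ) / L * y * S)) := by
    calc C₀ * y * E ≤ C₀ * y * (K * ξ / L * S) :=
          mul_le_mul_of_nonneg_left hE (by positivity)
      _ ≤ C₀ * y * (K * (2 * ξ ^ (1 / 2 : ℝ)) / L * S) := by
          apply mul_le_mul_of_nonneg_left _ (by positivity)
          apply mul_le_mul_of_nonneg_right _ hS
          apply div_le_div_of_nonneg_right _ (by linarith)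
          exact mul_le_mul_of_nonneg_left hξ3 hK.le
      _ = 2 * (C₀ * K * (ξ ^ (1 / 2 : ℝ) / L * y * S)) := by ring
  have h5 : C₀ * D * y * S ≤ C₀ * (D * ξ * y * S) := by
    have : 0 ≤ C₀ * D * y * S := by positivity
    calc C₀ * D * y * S = C₀ * D * y * S * 1 := by ring
      _ ≤ C₀ * D * y * S * ξ := mul_le_mul_of_nonneg_left hξ.le this
      _ = C₀ * (D * ξ * y * S) := by ring
  have h6 : (0 : ℝ) ≤ C₀ * K * (D * ξ * y * S) := by positivity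
  have h7 : (0 : ℝ) ≤ C₀ * (ξ ^ (1 / 2 : ℝ) / L * y * S) := by positivity
  have e : (2 * C₀ + 4 * C₀ * K) * (D * ξ + ξ ^ (1 / 2 : ℝ) / L) * y * S =
          2 * (C₀ * (D * ξ * y * S)) + 4 * (C₀ * K * (D * ξ * y * S)) +
          2 * (C₀ * (ξ ^ (1 / 2 : ℝ) / L * y * S)) +
          4 * (C₀ * K * (ξ ^ (1 / 2 : ℝ) / L * y * S)) := by ring
  rw [e]
  linarith

/-- **block estimate.** -/
theorem block_le {w : O → ℂ} {δ η : ℝ} (hDN : DNHyp w δ) (hη : 0 < η) :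
    ∃ C₁ : ℝ, 0 ≤ C₁ ∧ ∀ C' : ℕ, ∃ X1 : ℝ, 3 ≤ X1 ∧ ∀ W : O, Primary W → Squarefree W →
      ∀ A' : ℕ, ∃ C : ℝ, 0 ≤ C ∧
      ∀ X A₀ : ℝ, X1 ≤ X → X ^ δ ≤ A₀ → 1 ≤ A₀ → 2 * A₀ ≤ X →
      ∀ y : ℝ, A₀ ^ (1 + δ) ≤ y → y ≤ 100 * A₀ ^ 2 → A₀ * y ≤ X →
      ∀ ξ : ℝ, (Real.log X ^ C')⁻¹ ≤ ξ → ξ ≤ 2 →
      ∀ t h : ℝ, 0 ≤ t → 0 ≤ h → h ≤ 3 * ξ * A₀ → t + h ≤ 4 * A₀ →
      ∀ G : ℝ, 1 ≤ G → ∀ α : O → ℂ, ClassG α X G →
      (∀ a, α a ≠ 0 → IsCoprime a W ∧ InE (X ^ η) A₀ t h a) → ∀ l : ℕ,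
      FamS w α W A₀ y ((1 + ξ) * y) l ≤
        C₁ * (dens W * ξ + ξ ^ (1 / 2 : ℝ) / Real.log X) * y * ∑ a ∈ SPB (2 * A₀), ‖α a‖ ^ 2
        + C * G ^ 2 * A₀ ^ (5 / 3 : ℝ) * y ^ (2 / 3 : ℝ) / Real.log X ^ A' := by
  obtain ⟨C₀, hC₀, hDN⟩ := hDN
  obtain ⟨K, hK, hEM⟩ := EMf_le hη
  refine ⟨2 * C₀ + 4 * C₀ * K, by positivity, fun C' => ?_⟩
  obtain ⟨X1, hX1, hEM⟩ := hEM C'
  refine ⟨X1, hX1, fun W hW hWs A' => ?_⟩
  obtain ⟨C, hC, hDN⟩ := hDN W hW hWs A' C'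
  refine ⟨2 * C, by positivity, ?_⟩
  intro X A₀ hX hA1 hA2 hA3 y hy1 hy2 hy3 ξ hξ1 hξ2 t h ht hh hhξ hth G hG α hα hsupp l
  have hX3 : 3 ≤ X := hX1.trans hX
  have hL : 1 ≤ Real.log X := one_le_log hX3
  set L := Real.log X with hLdef
  have hξ0 : 0 < ξ := lt_of_lt_of_le (by positivity) hξ1
  have hLC : (L ^ C')⁻¹ ≤ 1 := inv_le_one_of_one_le₀ (one_le_pow₀ hL)
  have hy0 : 0 < y := lt_of_lt_of_le (by positivity) hy1
  have hem := hEM X hX ξ hξ1 A₀ t h hA2 hA3 ht hh hhξ hth α (fun a ha => (hsupp a ha).2) l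
  have hsupp' : ∀ a, α a ≠ 0 → IsCoprime a W ∧ A₀ < (N a : ℝ) ∧ (N a : ℝ) ≤ 2 * A₀ :=
    fun a ha => ⟨(hsupp a ha).1, (hsupp a ha).2.2.2.2.1, (hsupp a ha).2.2.2.2.2.1⟩
  have hS0 : 0 ≤ ∑ a ∈ SPB (2 * A₀), ‖α a‖ ^ 2 := sum_nonneg fun _ _ => by positivity
  have hEr0 : 0 ≤ C * G ^ 2 * A₀ ^ (5 / 3 : ℝ) * y ^ (2 / 3 : ℝ) / L ^ A' := by positivity
  have hEr2 : 2 * C * G ^ 2 * A₀ ^ (5 / 3 : ℝ) * y ^ (2 / 3 : ℝ) / L ^ A' =
    C * G ^ 2 * A₀ ^ (5 / 3 : ℝ) * y ^ (2 / 3 : ℝ) / L ^ A' +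
    C * G ^ 2 * A₀ ^ (5 / 3 : ℝ) * y ^ (2 / 3 : ℝ) / L ^ A' := by ring
  rw [hEr2]
  rcases le_or_gt ξ 1 with hξ | hξ
  · have h1 := hDN X A₀ y hX3 hA1 hy1 hy2 hy3 ξ 1 hξ1 hξ le_rfl (by norm_num) l G hG α hα hsupp'
    rw [one_mul] at h1
    exact ar1 hC₀ hK (dens_pos hW) hξ0 hy0 hS0 (by linarith) hEr0 hem h1
  · have h1 := hDN X A₀ y hX3 hA1 hy1 hy2 hy3 1 1 hLC le_rfl le_rfl (by norm_num) l G hG α hα
      hsupp'
    have h2 := hDN X A₀ y hX3 hA1 hy1 hy2 hy3 1 2 hLC le_rfl (by norm_num) le_rfl l G hG α hα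
      hsupp'
    have h3 := FamS_split w α W A₀ (1 * y) (2 * y) ((1 + ξ) * y) ((2 + 1) * y)
      (by nlinarith) l
    rw [one_mul] at h1 h3
    rw [show ((1 : ℝ) + 1) = 2 by norm_num] at h1
    rw [Real.one_rpow, mul_one, mul_one] at h1 h2
    exact ar2 hC₀ hK (dens_pos hW) hξ hξ2 hy0 hS0 (by linarith) hem h3 h1 h2

end Vale.Agent.P006.SV
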