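import Vale.Agent.P006.SV.EdgeBlock
import Vale.Agent.P006.H611.Chain

/-!
P006, block 20c (helper577): cells of the binary-digit chain at the edge.
-/

namespace Vale.Agent.P006.SV

open Finset Vale.Agent.P006

/-- the cut-off for the norm of `a` -/
noncomputable def Yb (x : ℝ) (b : O) : ℕ := ⌊x / N b⌋₊ + 1

/-- lower end of the `b`-cell -/
noncomputable def ylo (x : ℝ) (i m : ℕ) : ℝ := x / (2 ^ i * (m + 1) - 1)

theorem two_le_pow {i : ℕ} (hi : 1 ≤ i) : (2 : ℝ) ≤ 2 ^ i := by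
  calc (2 : ℝ) = 2 ^ 1 := by norm_num
    _ ≤ 2 ^ i := pow_le_pow_right₀ (by norm_num) hi

theorem Yb_cell {x : ℝ} (hx : 0 ≤ x) {b : O} (hb : Primary b) {i m : ℕ} (hi : 1 ≤ i)
    (hm : 1 ≤ m) (h : Yb x b / 2 ^ i = m) :
    ylo x i m < N b ∧ (N b : ℝ) ≤ (1 + 2 / m) * ylo x i m := by
  have hN : (0 : ℝ) < N b := by exact_mod_cast N_pos hb.ne_zero
  have h2i := two_le_pow hi
  have hm' : (1 : ℝ) ≤ m := by exact_mod_cast hm
  have h1 : 2 ^ i * m ≤ Yb x b ∧ Yb x b < 2 ^ i * (m + 1) := by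
    have hpos : 0 < 2 ^ i := by positivity
    constructor
    · rw [← h]; exact Nat.mul_div_le _ _
    · rw [← h]
      exact Nat.lt_mul_div_succ _ hpos
  rw [Yb] at h1
  have hxN : 0 ≤ x / N b := by positivity
  have e1 : (2 : ℝ) ^ i * m - 1 ≤ x / N b := by
    have h3 := Nat.floor_le hxN
    have h4 : ((2 ^ i * m : ℕ) : ℝ) ≤ ((⌊x / N b⌋₊ + 1 : ℕ) : ℝ) := by exact_mod_cast h1.1
    push_cast at h4
    linarith
  have e2 : x / N b < 2 ^ i * (m + 1) - 1 := by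
    have h3 := Nat.lt_floor_add_one (x / (N b : ℝ))
    have h4 : ((⌊x / N b⌋₊ + 1 + 1 : ℕ) : ℝ) ≤ ((2 ^ i * (m + 1) : ℕ) : ℝ) := by
      exact_mod_cast h1.2
    push_cast at h4
    linarith
  have hden : (0 : ℝ) < 2 ^ i * (m + 1) - 1 := by nlinarith
  have hden2 : (0 : ℝ) < 2 ^ i * m - 1 := by nlinarith
  constructor
  · rw [ylo, div_lt_iff₀ hden]
    rw [div_lt_iff₀ hN] at e2
    linarith
  · rw [ylo, mul_div_assoc', le_div_iff₀ hden]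
    rw [le_div_iff₀ hN] at e1
    have e3 : (2 : ℝ) ^ i * (m + 1) - 1 ≤ (1 + 2 / m) * (2 ^ i * m - 1) := by
      have e4 : (1 + 2 / (m : ℝ)) * (2 ^ i * m - 1) = 2 ^ i * m - 1 + 2 * 2 ^ i - 2 / m := by
        field_simp; ring
      rw [e4]
      have e5 : 2 / (m : ℝ) ≤ 2 := by
        rw [div_le_iff₀ (by linarith)]; linarith
      linarith
    calc (N b : ℝ) * (2 ^ i * (m + 1) - 1) ≤ N b * ((1 + 2 / m) * (2 ^ i * m - 1)) :=
          mul_le_mul_of_nonneg_left e3 hN.le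
      _ = (1 + 2 / m) * ((2 ^ i * m - 1) * N b) := by ring
      _ ≤ (1 + 2 / m) * x := mul_le_mul_of_nonneg_left e1 (by positivity)

/-- Cauchy-Schwarz for a cell, single block -/
theorem cell_cs (w α β : O → ℂ) (W : O) {A₀ y₁ y₂ : ℝ} (T : Finset O)
    (hT : ∀ b ∈ T, Primary b ∧ Squarefree b ∧ IsCoprime b W ∧ y₁ < N b ∧ (N b : ℝ) ≤ y₂)
    (l s : ℕ) :
    ‖∑ b ∈ T, β b * ∑ a ∈ (SPB (2 * A₀)).filter (fun a => N a / 2 ^ l = s), α a * w (a * b)‖ ≤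
      Real.sqrt (∑ b ∈ T, ‖β b‖ ^ 2) * Real.sqrt (FamS w α W A₀ y₁ y₂ l) := by
  classical
  have h1 : ‖∑ b ∈ T, β b * ∑ a ∈ (SPB (2 * A₀)).filter (fun a => N a / 2 ^ l = s),
      α a * w (a * b)‖ ≤ Real.sqrt (∑ b ∈ T, ‖β b‖ ^ 2) *
      Real.sqrt (∑ b ∈ T, ‖∑ a ∈ (SPB (2 * A₀)).filter (fun a => N a / 2 ^ l = s),
        α a * w (a * b)‖ ^ 2) := by
    refine (norm_sum_le _ _).trans ?_
    simp only [norm_mul]
    have h2 := Finset.sum_mul_sq_le_sq_mul_sq T (fun b => ‖β b‖)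
      (fun b => ‖∑ a ∈ (SPB (2 * A₀)).filter (fun a => N a / 2 ^ l = s), α a * w (a * b)‖)
    rw [← Real.sqrt_mul (sum_nonneg fun _ _ => by positivity)]
    exact Real.le_sqrt_of_sq_le h2
  refine h1.trans (mul_le_mul_of_nonneg_left (Real.sqrt_le_sqrt ?_) (Real.sqrt_nonneg _))
  by_cases hs : s ∈ range (⌊2 * A₀⌋₊ + 1)
  · rw [FamS]
    have h2 := single_le_sum (s := range (⌊2 * A₀⌋₊ + 1))
      (f := fun s => ∑ b ∈ (SPB y₂).filter (fun b => IsCoprime b W ∧ y₁ < (N b : ℝ)),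
        ‖∑ a ∈ (SPB (2 * A₀)).filter (fun a => N a / 2 ^ l = s), α a * w (a * b)‖ ^ 2)
      (fun s _ => sum_nonneg fun _ _ => by positivity) hs
    refine le_trans ?_ h2
    apply sum_le_sum_of_subset_of_nonneg
    · intro b hb
      have := hT b hb
      rw [mem_filter, mem_SPB]
      exact ⟨⟨⟨this.1, this.2.2.2.2⟩, this.2.1⟩, this.2.2.1, this.2.2.2.1⟩
    · intro _ _ _; positivity
  · have h3 : (SPB (2 * A₀)).filter (fun a => N a / 2 ^ l = s) = ∅ := by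
      rw [eq_empty_iff_forall_notMem]
      intro a ha
      rw [mem_filter, mem_SPB] at ha
      apply hs
      rw [mem_range, Nat.lt_succ_iff, ← ha.2]
      exact (Nat.div_le_self _ _).trans (Nat.le_floor ha.1.1.2)
    rw [h3]
    simp only [sum_empty, norm_zero]
    rw [sum_eq_zero (fun _ _ => by norm_num)]
    exact FamS_nonneg _ _ _ _ _ _ _

/-- Cauchy-Schwarz for a cell with the coupling inside the cell -/
theorem cell_chain (w α β : O → ℂ) (W : O) {A₀ y₁ y₂ x : ℝ} (T : Finset O)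
    (hT : ∀ b ∈ T, Primary b ∧ Squarefree b ∧ IsCoprime b W ∧ y₁ < N b ∧ (N b : ℝ) ≤ y₂)
    {Lv : ℕ} (hL : ∀ b ∈ T, Yb x b < 2 ^ Lv) :
    ‖∑ b ∈ T, β b * ∑ a ∈ (SPB (2 * A₀)).filter (fun a => N a < Yb x b), α a * w (a * b)‖ ≤
      ∑ l ∈ range Lv, Real.sqrt (∑ b ∈ T, ‖β b‖ ^ 2) * Real.sqrt (FamS w α W A₀ y₁ y₂ l) := by
  classical
  have hT' : T ⊆ (SPB y₂).filter (fun b => IsCoprime b W ∧ y₁ < (N b : ℝ)) := by
    intro b hb
    have := hT b hb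
    rw [mem_filter, mem_SPB]
    exact ⟨⟨⟨this.1, this.2.2.2.2⟩, this.2.1⟩, this.2.2.1, this.2.2.2.1⟩
  have h1 := H611.chain_cs (SPB (2 * A₀)) T _ hT' (fun a => N a) (fun b => Yb x b) β (fun _ => 1)
    (fun _ _ => zero_le_one) (fun _ _ => le_rfl) (fun a b => α a * w (a * b)) hL
  refine h1.trans (sum_le_sum fun l _ => ?_)
  refine mul_le_mul_of_nonneg_left (Real.sqrt_le_sqrt ?_) (Real.sqrt_nonneg _)
  rw [FamS]
  simp only [one_mul]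
  -- blocks with `s > 2 A₀` are empty
  have h2 : ∀ s, s ∉ range (⌊2 * A₀⌋₊ + 1) →
      ∑ b ∈ (SPB y₂).filter (fun b => IsCoprime b W ∧ y₁ < (N b : ℝ)),
        ‖∑ a ∈ (SPB (2 * A₀)).filter (fun a => N a / 2 ^ l = s), α a * w (a * b)‖ ^ 2 = 0 := by
    intro s hs
    have h3 : (SPB (2 * A₀)).filter (fun a => N a / 2 ^ l = s) = ∅ := by
      rw [eq_empty_iff_forall_notMem]
      intro a ha
      rw [mem_filter, mem_SPB] at ha
      apply hs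
      rw [mem_range, Nat.lt_succ_iff, ← ha.2]
      exact (Nat.div_le_self _ _).trans (Nat.le_floor ha.1.1.2)
    rw [h3]
    simp
  rw [← sum_filter_add_sum_filter_not (range (2 ^ Lv)) (fun s => s ∈ range (⌊2 * A₀⌋₊ + 1))]
  rw [sum_eq_zero (s := (range (2 ^ Lv)).filter (fun s => ¬ s ∈ range (⌊2 * A₀⌋₊ + 1)))
    (fun s hs => h2 s (mem_filter.1 hs).2), add_zero]
  apply sum_le_sum_of_subset_of_nonneg
  · intro s hs; exact (mem_filter.1 hs).2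
  · intro _ _ _
    exact sum_nonneg fun _ _ => by positivity

/-- the data at the edge -/
structure Ctx (w : O → ℂ) (W : O) (α : O → ℂ) (T : Finset O)
    (X A₀ x η δ L D C₁ E LL : ℝ) : Prop where
  hA : 1 ≤ A₀
  hx0 : 0 ≤ x
  hx : x ≤ X
  hL : 1 ≤ L
  hLL : 1 ≤ LL
  hD : 0 ≤ D
  hC₁ : 0 ≤ C₁
  hE : 0 ≤ E
  hα : ∀ a, α a ≠ 0 → Primary a ∧ Squarefree a ∧ A₀ < N a ∧ (N a : ℝ) ≤ 2 * A₀
  hT : ∀ b ∈ T, Primary b ∧ Squarefree b ∧ IsCoprime b W ∧ 3 * A₀ ^ (1 + δ) ≤ N b ∧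
    (N b : ℝ) ≤ X / A₀
  hblk : ∀ y ξ t h : ℝ, A₀ ^ (1 + δ) ≤ y → y ≤ X / A₀ → LL⁻¹ ≤ ξ → ξ ≤ 2 → 0 ≤ t → 0 ≤ h →
    h ≤ 3 * ξ * A₀ → t + h ≤ 4 * A₀ → ∀ lo hi : ℕ,
    (∀ a, blk lo hi α a ≠ 0 → t < N a ∧ (N a : ℝ) ≤ t + h) → ∀ l : ℕ,
    FamS w (blk lo hi α) W A₀ y ((1 + ξ) * y) l ≤
      C₁ * (D * ξ + ξ ^ (1 / 2 : ℝ) / L) * y * ∑ a ∈ SPB (2 * A₀), ‖blk lo hi α a‖ ^ 2 + E

theorem coarse_ar {D ξ L y r Z : ℝ} (hD : 0 ≤ D) (hL : 1 ≤ L) (hr0 : 0 < r) (hr1 : r ≤ 1)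
    (hZ : 0 ≤ Z) (h1 : ξ * y ≤ 2 * r * Z) (h2 : ξ ^ (1 / 2 : ℝ) * y ≤ 2 * r ^ (1 / 2 : ℝ) * Z) :
    (D * ξ + ξ ^ (1 / 2 : ℝ) / L) * y ≤ 2 * (D + 1 / L) * Z * r ^ (1 / 2 : ℝ) := by
  have h3 : r ≤ r ^ (1 / 2 : ℝ) := by
    conv_lhs => rw [← Real.rpow_one r]
    exact Real.rpow_le_rpow_of_exponent_ge hr0 hr1 (by norm_num)
  have hL0 : 0 < L := by linarith
  calc (D * ξ + ξ ^ (1 / 2 : ℝ) / L) * y = D * (ξ * y) + (1 / L) * (ξ ^ (1 / 2 : ℝ) * y) := by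
        field_simp
    _ ≤ D * (2 * r * Z) + (1 / L) * (2 * r ^ (1 / 2 : ℝ) * Z) :=
        add_le_add (mul_le_mul_of_nonneg_left h1 hD)
          (mul_le_mul_of_nonneg_left h2 (by positivity))
    _ ≤ D * (2 * r ^ (1 / 2 : ℝ) * Z) + (1 / L) * (2 * r ^ (1 / 2 : ℝ) * Z) := by
        apply add_le_add_left
        apply mul_le_mul_of_nonneg_left _ hD
        apply mul_le_mul_of_nonneg_right _ hZ
        linarith
    _ = _ := by ring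

theorem sqrt_add_le' {a b : ℝ} (ha : 0 ≤ a) (hb : 0 ≤ b) :
    Real.sqrt (a + b) ≤ Real.sqrt a + Real.sqrt b := by
  rw [Real.sqrt_le_left (by positivity)]
  have h1 := Real.sq_sqrt ha
  have h2 := Real.sq_sqrt hb
  nlinarith [Real.sqrt_nonneg a, Real.sqrt_nonneg b, mul_nonneg (Real.sqrt_nonneg a)
    (Real.sqrt_nonneg b)]

theorem blk_cell {α : O → ℂ} {a : O} {i s : ℕ} (h : N a / 2 ^ i = s) :
    blk (2 ^ i * s) (2 ^ i * (s + 1)) α a = α a := by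
  have hpos : 0 < 2 ^ i := by positivity
  rw [blk, if_pos]
  rw [← h]
  exact ⟨Nat.mul_div_le _ _, Nat.lt_mul_div_succ _ hpos⟩

/-- the parameter `r_i` measuring the distance of the level `i` from the size of `a` -/
noncomputable def rr (A₀ : ℝ) (i : ℕ) : ℝ := min (2 ^ i / A₀) (A₀ / 2 ^ i)

theorem rr_pos {A₀ : ℝ} (h : 0 < A₀) (i : ℕ) : 0 < rr A₀ i := by
  rw [rr]; positivity

theorem rr_le_one {A₀ : ℝ} (h : 0 < A₀) (i : ℕ) : rr A₀ i ≤ 1 := by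
  rw [rr]
  rcases le_total ((2 : ℝ) ^ i) A₀ with h1 | h1
  · exact (min_le_left _ _).trans (by rw [div_le_one h]; exact h1)
  · exact (min_le_right _ _).trans (by rw [div_le_one (by positivity)]; exact h1)

theorem coarse_geom {A₀ x X : ℝ} (hA : 1 ≤ A₀) (hx0 : 0 ≤ x) (hx : x ≤ X) {i s : ℕ} (hi : 1 ≤ i)
    {n : ℕ} (h1 : 2 ^ i * s ≤ n) (h2 : n < 2 ^ i * (s + 1)) (h3 : A₀ < n) (h4 : (n : ℝ) ≤ 2 * A₀)
    (hy : ylo x i (s + 1) ≤ X / A₀) :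
    (2 / ((s + 1 : ℕ) : ℝ)) * ylo x i (s + 1) ≤ 2 * rr A₀ i * (X / A₀) ∧
    (2 / ((s + 1 : ℕ) : ℝ)) ^ (1 / 2 : ℝ) * ylo x i (s + 1) ≤
      2 * (rr A₀ i) ^ (1 / 2 : ℝ) * (X / A₀) ∧
    ∃ t h : ℝ, 0 ≤ t ∧ 0 ≤ h ∧ h ≤ 3 * (2 / ((s + 1 : ℕ) : ℝ)) * A₀ ∧ t + h ≤ 4 * A₀ ∧
      ∀ n : ℕ, 2 ^ i * s ≤ n → n < 2 ^ i * (s + 1) → A₀ < n → (n : ℝ) ≤ 2 * A₀ →
        t < n ∧ (n : ℝ) ≤ t + h := by
  have h2i := two_le_pow hi
  have hA0 : 0 < A₀ := by linarith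
  have hX0 : 0 ≤ X := hx0.trans hx
  have hZ : 0 ≤ X / A₀ := by positivity
  have hr0 := rr_pos hA0 i
  have hr1 := rr_le_one hA0 i
  have h1' : (2 : ℝ) ^ i * s ≤ n := by exact_mod_cast h1
  have h2' : (n : ℝ) < 2 ^ i * (s + 1) := by exact_mod_cast h2
  have hden : (0 : ℝ) < 2 ^ i * (((s + 1 : ℕ) : ℝ) + 1) - 1 := by
    push_cast
    have : (0 : ℝ) ≤ s := Nat.cast_nonneg s
    nlinarith
  have hy0 : 0 ≤ ylo x i (s + 1) := by rw [ylo]; positivity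
  have hrs : rr A₀ i ≤ (rr A₀ i) ^ (1 / 2 : ℝ) := by
    conv_lhs => rw [← Real.rpow_one (rr A₀ i)]
    exact Real.rpow_le_rpow_of_exponent_ge hr0 hr1 (by norm_num)
  have hroot2 : (2 : ℝ) ^ (1 / 2 : ℝ) ≤ 2 := by
    conv_rhs => rw [← Real.rpow_one (2 : ℝ)]
    exact Real.rpow_le_rpow_of_exponent_le (by norm_num) (by norm_num)
  rcases Nat.eq_zero_or_pos s with hs | hs
  · subst hs
    simp only [Nat.cast_zero, mul_zero, zero_add, mul_one, Nat.cast_one, div_one] at *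
    have h5 : A₀ < 2 ^ i := by linarith
    have hrr : rr A₀ i = A₀ / 2 ^ i := by
      rw [rr, min_eq_right]
      rw [div_le_div_iff₀ (by positivity) hA0]
      nlinarith
    have hyr : ylo x i 1 ≤ rr A₀ i * (X / A₀) := by
      rw [hrr, ylo, Nat.cast_one]
      have e1 : A₀ / 2 ^ i * (X / A₀) = X / 2 ^ i := by field_simp
      rw [e1]
      exact div_le_div₀ hX0 hx (by positivity) (by linarith)
    refine ⟨?_, ?_, A₀, A₀, hA0.le, hA0.le, by linarith, by linarith, ?_⟩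
    · linarith
    · calc (2 : ℝ) ^ (1 / 2 : ℝ) * ylo x i 1 ≤ 2 * (rr A₀ i * (X / A₀)) :=
            mul_le_mul hroot2 hyr hy0 (by norm_num)
        _ ≤ 2 * ((rr A₀ i) ^ (1 / 2 : ℝ) * (X / A₀)) := by
            apply mul_le_mul_of_nonneg_left _ (by norm_num)
            exact mul_le_mul_of_nonneg_right hrs hZ
        _ = _ := by ring
    · intro n _ _ h7 h8
      exact ⟨h7, by linarith⟩
  · have hs1 : (1 : ℝ) ≤ s := by exact_mod_cast hs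
    have hss : (0 : ℝ) < ((s + 1 : ℕ) : ℝ) := by positivity
    have h5 : (2 : ℝ) ^ i * s ≤ 2 * A₀ := h1'.trans h4
    have h6 : A₀ < 2 ^ i * (s + 1) := h3.trans h2'
    have hξr : 2 / ((s + 1 : ℕ) : ℝ) ≤ 2 * rr A₀ i := by
      rw [div_le_iff₀ hss]
      push_cast
      rw [rr]
      rcases le_total (2 ^ i / A₀) (A₀ / 2 ^ i) with h7 | h7
      · rw [min_eq_left h7]
        have e : 2 * (2 ^ i / A₀) * ((s : ℝ) + 1) = 2 * (2 ^ i * (s + 1)) / A₀ := by ring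
        rw [e, le_div_iff₀ hA0]
        linarith
      · rw [min_eq_right h7]
        have h8 : (2 : ℝ) ^ i ≤ 2 * A₀ := by nlinarith
        have h9 : (1 : ℝ) / 2 ≤ A₀ / 2 ^ i := by
          rw [div_le_div_iff₀ (by norm_num) (by positivity)]
          linarith
        nlinarith
    refine ⟨?_, ?_, 2 ^ i * s - 1, 2 ^ i, by nlinarith, by positivity, ?_, ?_, ?_⟩
    · calc 2 / ((s + 1 : ℕ) : ℝ) * ylo x i (s + 1) ≤ 2 * rr A₀ i * (X / A₀) :=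
            mul_le_mul hξr hy hy0 (by positivity)
        _ = _ := rfl
    · have e1 : (2 / ((s + 1 : ℕ) : ℝ)) ^ (1 / 2 : ℝ) ≤ 2 * (rr A₀ i) ^ (1 / 2 : ℝ) := by
        calc (2 / ((s + 1 : ℕ) : ℝ)) ^ (1 / 2 : ℝ) ≤ (2 * rr A₀ i) ^ (1 / 2 : ℝ) :=
              Real.rpow_le_rpow (by positivity) hξr (by norm_num)
          _ = 2 ^ (1 / 2 : ℝ) * (rr A₀ i) ^ (1 / 2 : ℝ) := Real.mul_rpow (by norm_num) hr0.le
          _ ≤ 2 * (rr A₀ i) ^ (1 / 2 : ℝ) := mul_le_mul_of_nonneg_right hroot2 (by positivity)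
      exact mul_le_mul e1 hy hy0 (by positivity)
    · have e : 3 * (2 / ((s + 1 : ℕ) : ℝ)) * A₀ = 6 * A₀ / ((s : ℝ) + 1) := by push_cast; ring
      rw [e, le_div_iff₀ (by linarith)]
      nlinarith
    · have : (2 : ℝ) ^ i ≤ 2 * A₀ := by nlinarith
      linarith
    · intro n h7 h8 _ _
      have h7' : (2 : ℝ) ^ i * s ≤ n := by exact_mod_cast h7
      have h8' : (n : ℝ) + 1 ≤ 2 ^ i * (s + 1) := by exact_mod_cast h8
      constructor <;> linarith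

end Vale.Agent.P006.SV
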