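import Vale.Agent.P006.SV.EdgeCell

/-!
P006, block 20c (helper577): estimates for the coarse and fine cells.
-/

namespace Vale.Agent.P006.SV

open Finset Vale.Agent.P006

variable {w : O → ℂ} {W : O} {α : O → ℂ} {T : Finset O} {X A₀ x η δ L D C₁ E LL : ℝ}

/-- facts about a nonempty `b`-cell -/
theorem Ctx.bcell (c : Ctx w W α T X A₀ x η δ L D C₁ E LL) {b : O} (hb : b ∈ T) {i m : ℕ}
    (hi : 1 ≤ i) (hm : 1 ≤ m) (h : Yb x b / 2 ^ i = m) :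
    A₀ ^ (1 + δ) ≤ ylo x i m ∧ ylo x i m ≤ X / A₀ := by
  have hb' := c.hT b hb
  have h1 := Yb_cell c.hx0 hb'.1 hi hm h
  have hm' : (1 : ℝ) ≤ m := by exact_mod_cast hm
  have h2 : (2 : ℝ) / m ≤ 2 := by
    rw [div_le_iff₀ (by linarith)]; linarith
  have hpos : 0 < A₀ ^ (1 + δ) := Real.rpow_pos_of_pos (by linarith [c.hA]) _
  constructor
  · by_contra hc
    push Not at hc
    have h3 : (N b : ℝ) < 3 * A₀ ^ (1 + δ) := by
      rcases le_or_gt 0 (ylo x i m) with h4 | h4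
      · calc (N b : ℝ) ≤ (1 + 2 / m) * ylo x i m := h1.2
          _ ≤ 3 * ylo x i m := mul_le_mul_of_nonneg_right (by linarith) h4
          _ < 3 * A₀ ^ (1 + δ) := by linarith
      · have h5 : (1 + 2 / (m : ℝ)) * ylo x i m ≤ 0 :=
          mul_nonpos_of_nonneg_of_nonpos (by positivity) h4.le
        linarith [h1.2]
    linarith [hb'.2.2.2.1]
  · linarith [h1.1, hb'.2.2.2.2]

theorem Ctx.coarse_cell (c : Ctx w W α T X A₀ x η δ L D C₁ E LL) (β : O → ℂ) {i s : ℕ}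
    (hi : 1 ≤ i) (hbig : ((s + 1 : ℕ) : ℝ) ≤ 2 * LL) :
    ‖∑ b ∈ T.filter (fun b => Yb x b / 2 ^ i = s + 1), β b *
      ∑ a ∈ (SPB (2 * A₀)).filter (fun a => N a / 2 ^ i = s), α a * w (a * b)‖ ≤
    Real.sqrt (∑ b ∈ T.filter (fun b => Yb x b / 2 ^ i = s + 1), ‖β b‖ ^ 2) *
      (Real.sqrt (2 * C₁ * (D + 1 / L) * (X / A₀) * (rr A₀ i) ^ (1 / 2 : ℝ)) *
        Real.sqrt (∑ a ∈ SPB (2 * A₀), ‖blk (2 ^ i * s) (2 ^ i * (s + 1)) α a‖ ^ 2) +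
        Real.sqrt E) := by
  classical
  have hA0 : 0 < A₀ := by linarith [c.hA]
  have hX0 : 0 ≤ X := c.hx0.trans c.hx
  have hD := c.hD
  have hC₁ := c.hC₁
  have hL := c.hL
  have hE := c.hE
  have hLL := c.hLL
  have hZ : 0 ≤ X / A₀ := by positivity
  have hr0 := rr_pos hA0 i
  have hRHS : 0 ≤ Real.sqrt (∑ b ∈ T.filter (fun b => Yb x b / 2 ^ i = s + 1), ‖β b‖ ^ 2) *
      (Real.sqrt (2 * C₁ * (D + 1 / L) * (X / A₀) * (rr A₀ i) ^ (1 / 2 : ℝ)) *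
        Real.sqrt (∑ a ∈ SPB (2 * A₀), ‖blk (2 ^ i * s) (2 ^ i * (s + 1)) α a‖ ^ 2) +
        Real.sqrt E) := by positivity
  -- replace `α` by its block
  have e1 : ∀ b, ∑ a ∈ (SPB (2 * A₀)).filter (fun a => N a / 2 ^ i = s), α a * w (a * b) =
      ∑ a ∈ (SPB (2 * A₀)).filter (fun a => N a / 2 ^ i = s),
        blk (2 ^ i * s) (2 ^ i * (s + 1)) α a * w (a * b) := by
    intro b
    apply sum_congr rfl
    intro a ha
    rw [blk_cell (mem_filter.1 ha).2]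
  simp only [e1]
  rcases (T.filter (fun b => Yb x b / 2 ^ i = s + 1)).eq_empty_or_nonempty with hTe | ⟨b0, hb0⟩
  · rw [hTe] at hRHS ⊢
    rw [sum_empty, norm_zero]
    exact hRHS
  by_cases hz : ∀ a, blk (2 ^ i * s) (2 ^ i * (s + 1)) α a = 0
  · simp only [hz, zero_mul, sum_const_zero, mul_zero, norm_zero] at hRHS ⊢
    exact hRHS
  push Not at hz
  obtain ⟨a0, ha0⟩ := hz
  rw [mem_filter] at hb0
  have hy := c.bcell hb0.1 hi (Nat.succ_le_succ (Nat.zero_le s)) hb0.2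
  have hbk := blk_ne_zero ha0
  have hα0 := c.hα a0 hbk.2.2
  obtain ⟨g1, g2, t, h, ht, hh, g3, g4, g5⟩ := coarse_geom c.hA c.hx0 c.hx hi hbk.1 hbk.2.1
    hα0.2.2.1 hα0.2.2.2 hy.2
  have hss : (0 : ℝ) < ((s + 1 : ℕ) : ℝ) := by positivity
  have hF := c.hblk (ylo x i (s + 1)) (2 / ((s + 1 : ℕ) : ℝ)) t h hy.1 hy.2
    (by
      rw [inv_le_comm₀ (by linarith) (by positivity), inv_div, div_le_iff₀ (by norm_num)]
      linarith)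
    (by
      rw [div_le_iff₀ hss]
      have : (1 : ℝ) ≤ ((s + 1 : ℕ) : ℝ) := by push_cast; linarith [Nat.cast_nonneg (α := ℝ) s]
      linarith)
    ht hh g3 g4 (2 ^ i * s) (2 ^ i * (s + 1))
    (by
      intro a ha
      have h1 := blk_ne_zero ha
      have h2 := c.hα a h1.2.2
      exact g5 (N a) h1.1 h1.2.1 h2.2.2.1 h2.2.2.2) i
  have hcs := cell_cs w (blk (2 ^ i * s) (2 ^ i * (s + 1)) α) β W (A₀ := A₀)
    (T.filter (fun b => Yb x b / 2 ^ i = s + 1)) (y₁ := ylo x i (s + 1))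
    (y₂ := (1 + 2 / ((s + 1 : ℕ) : ℝ)) * ylo x i (s + 1)) (by
      intro b hb
      rw [mem_filter] at hb
      have h1 := c.hT b hb.1
      have h2 := Yb_cell c.hx0 h1.1 hi (Nat.succ_le_succ (Nat.zero_le s)) hb.2
      exact ⟨h1.1, h1.2.1, h1.2.2.1, h2.1, h2.2⟩) i s
  refine hcs.trans (mul_le_mul_of_nonneg_left ?_ (Real.sqrt_nonneg _))
  have har := coarse_ar hD hL hr0 (rr_le_one hA0 i) hZ g1 g2
  have hS0 : 0 ≤ ∑ a ∈ SPB (2 * A₀), ‖blk (2 ^ i * s) (2 ^ i * (s + 1)) α a‖ ^ 2 :=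
    sum_nonneg fun _ _ => by positivity
  have h3 : FamS w (blk (2 ^ i * s) (2 ^ i * (s + 1)) α) W A₀ (ylo x i (s + 1))
      ((1 + 2 / ((s + 1 : ℕ) : ℝ)) * ylo x i (s + 1)) i ≤
      (2 * C₁ * (D + 1 / L) * (X / A₀) * (rr A₀ i) ^ (1 / 2 : ℝ)) *
        (∑ a ∈ SPB (2 * A₀), ‖blk (2 ^ i * s) (2 ^ i * (s + 1)) α a‖ ^ 2) + E := by
    refine hF.trans (add_le_add_left ?_ _)
    apply mul_le_mul_of_nonneg_right _ hS0
    calc C₁ * (D * (2 / ((s + 1 : ℕ) : ℝ)) + (2 / ((s + 1 : ℕ) : ℝ)) ^ (1 / 2 : ℝ) / L) *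
          ylo x i (s + 1) = C₁ * ((D * (2 / ((s + 1 : ℕ) : ℝ)) +
          (2 / ((s + 1 : ℕ) : ℝ)) ^ (1 / 2 : ℝ) / L) * ylo x i (s + 1)) := by ring
      _ ≤ C₁ * (2 * (D + 1 / L) * (X / A₀) * (rr A₀ i) ^ (1 / 2 : ℝ)) :=
          mul_le_mul_of_nonneg_left har hC₁
      _ = _ := by ring
  refine (Real.sqrt_le_sqrt h3).trans ?_
  refine (sqrt_add_le' (by positivity) hE).trans (le_of_eq ?_)
  rw [Real.sqrt_mul (by positivity)]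

theorem blk_eq_zero {α : O → ℂ} {a : O} {i s : ℕ} (h : N a / 2 ^ i ≠ s) :
    blk (2 ^ i * s) (2 ^ i * (s + 1)) α a = 0 := by
  rw [blk, if_neg]
  rintro ⟨h1, h2⟩
  apply h
  apply Nat.div_eq_of_lt_le
  · rw [mul_comm]; exact h1
  · rw [mul_comm]; exact h2

theorem fine_ar {D L y ξ Q Z : ℝ} (hD : D ≤ 1) (hL : 1 ≤ L) (hQ : 2 ≤ Q)
    (hZ : 0 ≤ Z) (hy0 : 0 ≤ y) (hy : y ≤ Z) (hξ0 : 0 < ξ) (hξ2 : ξ ≤ 2) (hξ : ξ ≤ 4 / Q) :
    (D * ξ + ξ ^ (1 / 2 : ℝ) / L) * y ≤ 6 * Z * Q ^ (-(1 / 2) : ℝ) := by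
  have hsq : ξ ^ (1 / 2 : ℝ) * ξ ^ (1 / 2 : ℝ) = ξ := by
    rw [← Real.rpow_add hξ0]; norm_num
  have hs0 : 0 < ξ ^ (1 / 2 : ℝ) := by positivity
  have hs2 : ξ ^ (1 / 2 : ℝ) ≤ 2 := by
    by_contra hc
    push Not at hc
    nlinarith
  have h1 : D * ξ ≤ 2 * ξ ^ (1 / 2 : ℝ) := by nlinarith
  have h2 : ξ ^ (1 / 2 : ℝ) / L ≤ ξ ^ (1 / 2 : ℝ) := div_le_self hs0.le hL
  have h3 : ξ ^ (1 / 2 : ℝ) ≤ 2 * Q ^ (-(1 / 2) : ℝ) := by
    calc ξ ^ (1 / 2 : ℝ) ≤ (4 / Q) ^ (1 / 2 : ℝ) :=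
          Real.rpow_le_rpow hξ0.le hξ (by norm_num)
      _ = 2 * Q ^ (-(1 / 2) : ℝ) := by
          rw [Real.div_rpow (by norm_num) (by linarith), Real.rpow_neg (by linarith),
            show (4 : ℝ) = 2 ^ (2 : ℝ) by norm_num, ← Real.rpow_mul (by norm_num)]
          norm_num
          rfl
  calc (D * ξ + ξ ^ (1 / 2 : ℝ) / L) * y ≤ (3 * ξ ^ (1 / 2 : ℝ)) * y :=
        mul_le_mul_of_nonneg_right (by linarith) hy0
    _ ≤ (3 * ξ ^ (1 / 2 : ℝ)) * Z := mul_le_mul_of_nonneg_left hy (by positivity)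
    _ ≤ (3 * (2 * Q ^ (-(1 / 2) : ℝ))) * Z := by
        apply mul_le_mul_of_nonneg_right _ hZ
        linarith
    _ = _ := by ring

theorem fine_geom {A₀ Q : ℝ} (hA : 1 ≤ A₀) (hQ : 2 ≤ Q) {i m n0 : ℕ} (h2i : 2 ^ i * Q ≤ A₀)
    (h1 : 2 ^ i * m ≤ n0) (h2 : n0 < 2 ^ i * (m + 1)) (h3 : A₀ < n0) (h4 : (n0 : ℝ) ≤ 2 * A₀) :
    1 ≤ m ∧ (2 / (m : ℝ)) ≤ 4 / Q ∧
    ∃ t h : ℝ, 0 ≤ t ∧ 0 ≤ h ∧ h ≤ 3 * (2 / (m : ℝ)) * A₀ ∧ t + h ≤ 4 * A₀ ∧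
      ∀ n : ℕ, 2 ^ i * m ≤ n → n < 2 ^ i * (m + 1) → A₀ < n → (n : ℝ) ≤ 2 * A₀ →
        t < n ∧ (n : ℝ) ≤ t + h := by
  have hp : (1 : ℝ) ≤ 2 ^ i := one_le_pow₀ (by norm_num)
  have h1' : (2 : ℝ) ^ i * m ≤ n0 := by exact_mod_cast h1
  have h2' : (n0 : ℝ) < 2 ^ i * (m + 1) := by exact_mod_cast h2
  have h5 : Q < m + 1 := by
    have h6 : (2 : ℝ) ^ i * Q < 2 ^ i * (m + 1) := by linarith
    exact lt_of_mul_lt_mul_left h6 (by positivity)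
  have hm1 : 1 ≤ m := by
    by_contra hc
    have : m = 0 := by omega
    subst this
    simp at h5
    linarith
  have hm : (1 : ℝ) ≤ m := by exact_mod_cast hm1
  have h7 : (2 : ℝ) ^ i ≤ A₀ := by nlinarith
  refine ⟨hm1, ?_, 2 ^ i * m - 1, 2 ^ i, by nlinarith, by positivity, ?_, by nlinarith, ?_⟩
  · rw [div_le_div_iff₀ (by linarith) (by linarith)]
    nlinarith
  · have e : 3 * (2 / (m : ℝ)) * A₀ = 6 * A₀ / m := by ring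
    rw [e, le_div_iff₀ (by linarith)]
    linarith
  · intro n h7 h8 _ _
    have h7' : (2 : ℝ) ^ i * m ≤ n := by exact_mod_cast h7
    have h8' : (n : ℝ) + 1 ≤ 2 ^ i * (m + 1) := by exact_mod_cast h8
    constructor <;> linarith

theorem Ctx.fine_cell (c : Ctx w W α T X A₀ x η δ L D C₁ E LL) (hD1 : D ≤ 1) (β : O → ℂ)
    {i m Lv : ℕ} {Q : ℝ} (hi : 1 ≤ i) (hQ : 2 ≤ Q) (h2i : 2 ^ i * Q ≤ A₀)
    (hbig : (m : ℝ) ≤ 2 * LL) (hLv : ∀ b ∈ T, Yb x b < 2 ^ Lv) :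
    ‖∑ b ∈ T.filter (fun b => Yb x b / 2 ^ i = m), β b *
      ∑ a ∈ (SPB (2 * A₀)).filter (fun a => N a / 2 ^ i = m ∧ N a < Yb x b), α a * w (a * b)‖ ≤
    Real.sqrt (∑ b ∈ T.filter (fun b => Yb x b / 2 ^ i = m), ‖β b‖ ^ 2) *
      (Lv * (Real.sqrt (6 * C₁ * (X / A₀) * Q ^ (-(1 / 2) : ℝ)) *
        Real.sqrt (∑ a ∈ SPB (2 * A₀), ‖blk (2 ^ i * m) (2 ^ i * (m + 1)) α a‖ ^ 2) +
        Real.sqrt E)) := by
  classical
  have hA0 : 0 < A₀ := by linarith [c.hA]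
  have hX0 : 0 ≤ X := c.hx0.trans c.hx
  have hC₁ := c.hC₁
  have hE := c.hE
  have hLL := c.hLL
  have hZ : 0 ≤ X / A₀ := by positivity
  have hRHS : 0 ≤ Real.sqrt (∑ b ∈ T.filter (fun b => Yb x b / 2 ^ i = m), ‖β b‖ ^ 2) *
      (Lv * (Real.sqrt (6 * C₁ * (X / A₀) * Q ^ (-(1 / 2) : ℝ)) *
        Real.sqrt (∑ a ∈ SPB (2 * A₀), ‖blk (2 ^ i * m) (2 ^ i * (m + 1)) α a‖ ^ 2) +
        Real.sqrt E)) := by positivity
  have e1 : ∀ b, ∑ a ∈ (SPB (2 * A₀)).filter (fun a => N a / 2 ^ i = m ∧ N a < Yb x b),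
      α a * w (a * b) = ∑ a ∈ (SPB (2 * A₀)).filter (fun a => N a < Yb x b),
        blk (2 ^ i * m) (2 ^ i * (m + 1)) α a * w (a * b) := by
    intro b
    rw [sum_filter, sum_filter]
    apply sum_congr rfl
    intro a _
    by_cases h1 : N a / 2 ^ i = m
    · rw [blk_cell h1]
      simp only [h1, true_and]
    · rw [if_neg (fun h => h1 h.1), blk_eq_zero h1, zero_mul, ite_self]
  simp only [e1]
  rcases (T.filter (fun b => Yb x b / 2 ^ i = m)).eq_empty_or_nonempty with hTe | ⟨b0, hb0⟩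
  · rw [hTe] at hRHS ⊢
    rw [sum_empty, norm_zero]
    exact hRHS
  by_cases hz : ∀ a, blk (2 ^ i * m) (2 ^ i * (m + 1)) α a = 0
  · simp only [hz, zero_mul, sum_const_zero, mul_zero, norm_zero] at hRHS ⊢
    exact hRHS
  push Not at hz
  obtain ⟨a0, ha0⟩ := hz
  rw [mem_filter] at hb0
  have hbk := blk_ne_zero ha0
  have hα0 := c.hα a0 hbk.2.2
  obtain ⟨hm1, hξQ, t, h, ht, hh, g3, g4, g5⟩ := fine_geom c.hA hQ h2i hbk.1 hbk.2.1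
    hα0.2.2.1 hα0.2.2.2
  have hy := c.bcell hb0.1 hi hm1 hb0.2
  have hm : (1 : ℝ) ≤ m := by exact_mod_cast hm1
  have hξ2 : 2 / (m : ℝ) ≤ 2 := by rw [div_le_iff₀ (by linarith)]; linarith
  have hξ0 : 0 < 2 / (m : ℝ) := by positivity
  have hξL : LL⁻¹ ≤ 2 / (m : ℝ) := by
    rw [inv_le_comm₀ (by linarith) (by positivity), inv_div, div_le_iff₀ (by norm_num)]
    linarith
  have hS0 : 0 ≤ ∑ a ∈ SPB (2 * A₀), ‖blk (2 ^ i * m) (2 ^ i * (m + 1)) α a‖ ^ 2 :=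
    sum_nonneg fun _ _ => by positivity
  have hyp : 0 ≤ ylo x i m := le_trans (by positivity) hy.1
  have har := fine_ar hD1 c.hL hQ hZ hyp hy.2 hξ0 hξ2 hξQ
  have hF : ∀ l, FamS w (blk (2 ^ i * m) (2 ^ i * (m + 1)) α) W A₀ (ylo x i m)
      ((1 + 2 / (m : ℝ)) * ylo x i m) l ≤
      (6 * C₁ * (X / A₀) * Q ^ (-(1 / 2) : ℝ)) *
        (∑ a ∈ SPB (2 * A₀), ‖blk (2 ^ i * m) (2 ^ i * (m + 1)) α a‖ ^ 2) + E := by
    intro l
    have h1 := c.hblk (ylo x i m) (2 / (m : ℝ)) t h hy.1 hy.2 hξL hξ2 ht hh g3 g4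
      (2 ^ i * m) (2 ^ i * (m + 1)) (by
        intro a ha
        have h1 := blk_ne_zero ha
        have h2 := c.hα a h1.2.2
        exact g5 (N a) h1.1 h1.2.1 h2.2.2.1 h2.2.2.2) l
    refine h1.trans (add_le_add_left ?_ _)
    apply mul_le_mul_of_nonneg_right _ hS0
    calc C₁ * (D * (2 / (m : ℝ)) + (2 / (m : ℝ)) ^ (1 / 2 : ℝ) / L) * ylo x i m =
          C₁ * ((D * (2 / (m : ℝ)) + (2 / (m : ℝ)) ^ (1 / 2 : ℝ) / L) * ylo x i m) := by ring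
      _ ≤ C₁ * (6 * (X / A₀) * Q ^ (-(1 / 2) : ℝ)) := mul_le_mul_of_nonneg_left har hC₁
      _ = _ := by ring
  have hch := cell_chain w (blk (2 ^ i * m) (2 ^ i * (m + 1)) α) β W (A₀ := A₀) (x := x)
    (T.filter (fun b => Yb x b / 2 ^ i = m)) (y₁ := ylo x i m)
    (y₂ := (1 + 2 / (m : ℝ)) * ylo x i m) (by
      intro b hb
      rw [mem_filter] at hb
      have h1 := c.hT b hb.1
      have h2 := Yb_cell c.hx0 h1.1 hi hm1 hb.2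
      exact ⟨h1.1, h1.2.1, h1.2.2.1, h2.1, h2.2⟩) (Lv := Lv)
      (fun b hb => hLv b (mem_filter.1 hb).1)
  refine hch.trans ?_
  rw [← mul_sum]
  apply mul_le_mul_of_nonneg_left _ (Real.sqrt_nonneg _)
  have h5 : ∀ l ∈ range Lv, Real.sqrt (FamS w (blk (2 ^ i * m) (2 ^ i * (m + 1)) α) W A₀
      (ylo x i m) ((1 + 2 / (m : ℝ)) * ylo x i m) l) ≤
      Real.sqrt (6 * C₁ * (X / A₀) * Q ^ (-(1 / 2) : ℝ)) *
        Real.sqrt (∑ a ∈ SPB (2 * A₀), ‖blk (2 ^ i * m) (2 ^ i * (m + 1)) α a‖ ^ 2) +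
        Real.sqrt E := by
    intro l _
    refine (Real.sqrt_le_sqrt (hF l)).trans ?_
    refine (sqrt_add_le' (by positivity) hE).trans (le_of_eq ?_)
    rw [Real.sqrt_mul (by positivity)]
  refine (sum_le_sum h5).trans (le_of_eq ?_)
  rw [sum_const, card_range, nsmul_eq_mul]

end Vale.Agent.P006.SV
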