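import Vale.Agent.P006.SV.TR
import Vale.Agent.P006.DN.Defs
import Vale.Agent.P006.H845.Req
import Vale.Agent.P006.H103.Mem

/-!
P006, block 20c (helper577): the off-diagonal error `EMf` for rough coefficients supported in a
short norm interval.
-/

namespace Vale.Agent.P006.SV

open Finset Vale.Agent.P006

/-- `K (log X)^k ≤ X^δ` for large `X` -/
theorem exists_log_le (k : ℕ) (K : ℝ) {δ : ℝ} (hδ : 0 < δ) :
    ∃ X1 : ℝ, 3 ≤ X1 ∧ ∀ X : ℝ, X1 ≤ X → K * Real.log X ^ k ≤ X ^ δ := by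
  obtain ⟨C, hC, h⟩ := log_pow_le_rpow k (show 0 < δ / 2 by linarith)
  set M : ℝ := max 1 (|K| * C) with hM
  have hM1 : 1 ≤ M := le_max_left _ _
  refine ⟨max 3 (M ^ (2 / δ)), le_max_left _ _, ?_⟩
  intro X hX
  have hX3 : 3 ≤ X := (le_max_left _ _).trans hX
  have hX2 : M ^ (2 / δ) ≤ X := (le_max_right _ _).trans hX
  have h1 : M ≤ X ^ (δ / 2) := by
    have h2 := Real.rpow_le_rpow (by positivity) hX2 (show 0 ≤ δ / 2 by linarith)
    rw [← Real.rpow_mul (by linarith), show 2 / δ * (δ / 2) = 1 by field_simp, Real.rpow_one] at h2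
    exact h2
  have hl : 0 ≤ Real.log X ^ k := pow_nonneg (Real.log_nonneg (by linarith)) _
  calc K * Real.log X ^ k ≤ |K| * Real.log X ^ k := mul_le_mul_of_nonneg_right (le_abs_self K) hl
    _ ≤ |K| * (C * X ^ (δ / 2)) := mul_le_mul_of_nonneg_left (h X (by linarith)) (abs_nonneg K)
    _ = (|K| * C) * X ^ (δ / 2) := by ring
    _ ≤ X ^ (δ / 2) * X ^ (δ / 2) :=
        mul_le_mul_of_nonneg_right ((le_max_right _ _).trans h1) (by positivity)
    _ = X ^ δ := by rw [← Real.rpow_add (by linarith)]; congr 1; ring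

theorem one_le_log {X : ℝ} (hX : 3 ≤ X) : 1 ≤ Real.log X := by
  rw [Real.le_log_iff_exp_le (by linarith)]
  linarith [Real.exp_one_lt_d9]

open Classical in
/-- rough elements in a short interval -/
theorem rough_short {η : ℝ} (hη : 0 < η) :
    ∃ K : ℝ, 0 < K ∧ ∀ C' : ℕ, ∃ X1 : ℝ, 3 ≤ X1 ∧ ∀ X : ℝ, X1 ≤ X →
      ∀ ξ : ℝ, (Real.log X ^ C')⁻¹ ≤ ξ →
      ∀ U t h : ℝ, X ^ η ≤ 2 * U → 0 ≤ t → 0 ≤ h → h ≤ 3 * ξ * U → t + h ≤ 4 * U →
      (((PB (t + h)).filter (fun a => t < N a ∧ Rough (X ^ η) a)).card : ℝ) ≤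
        K * ξ * U / Real.log X := by
  refine ⟨2400 / η + 1, by positivity, fun C' => ?_⟩
  obtain ⟨X1, hX1, h1⟩ := exists_log_le (C' + 1) 600 (show 0 < η / 4 by linarith)
  obtain ⟨X2, hX2, h2⟩ := exists_log_le 0 2 (show 0 < η / 8 by linarith)
  refine ⟨max X1 X2, hX1.trans (le_max_left _ _), ?_⟩
  intro X hX ξ hξ U t h hU ht hh hhξ hth
  have hXa : X1 ≤ X := (le_max_left _ _).trans hX
  have hXb : X2 ≤ X := (le_max_right _ _).trans hX
  have hX3 : 3 ≤ X := hX1.trans hXa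
  have hX0 : 0 < X := by linarith
  have hL : 1 ≤ Real.log X := one_le_log hX3
  set L := Real.log X with hLdef
  have hξ0 : 0 < ξ := lt_of_lt_of_le (by positivity) hξ
  have hz2 : 2 ≤ X ^ (η / 8) := by
    have := h2 X hXb
    rwa [pow_zero, mul_one] at this
  have hzη : X ^ (η / 8) ≤ X ^ η :=
    Real.rpow_le_rpow_of_exponent_le (by linarith) (by linarith)
  have h3 := card_rough_block_le ht hh hz2
  have h4 : (((PB (t + h)).filter (fun a => t < N a ∧ Rough (X ^ η) a)).card : ℝ) ≤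
      ((PB (t + h)).filter (fun a => t < N a ∧ Rough (X ^ (η / 8)) a)).card := by
    norm_cast
    apply card_le_card
    intro a ha
    rw [mem_filter] at *
    exact ⟨ha.1, ha.2.1, ha.2.2.mono hzη⟩
  refine h4.trans (h3.trans ?_)
  have h5 : Real.log (X ^ (η / 8)) = η / 8 * L := Real.log_rpow hX0 _
  rw [h5]
  have hXη1 : 1 ≤ X ^ η := Real.one_le_rpow (by linarith) hη.le
  have hU0 : 0 < U := by linarith
  have e1 : 100 * h / (η / 8 * L) ≤ 2400 / η * ξ * U / L := by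
    rw [div_le_div_iff₀ (by positivity) (by positivity)]
    have : 2400 / η * ξ * U * (η / 8 * L) = 300 * ξ * U * L := by field_simp; ring
    rw [this]
    nlinarith
  have hsq : Real.sqrt (t + h) ≤ 2 * Real.sqrt U := by
    rw [show 2 * Real.sqrt U = Real.sqrt (4 * U) by
      rw [Real.sqrt_mul (by norm_num), show (4 : ℝ) = 2 ^ 2 by norm_num,
        Real.sqrt_sq (by norm_num)]]
    exact Real.sqrt_le_sqrt hth
  -- `√U` is large
  have hsU : 600 * L ^ (C' + 1) * X ^ (η / 4) ≤ 2 * Real.sqrt U := by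
    have e2 : X ^ (η / 2) ≤ 2 * Real.sqrt U := by
      have e3 : X ^ (η / 2) = Real.sqrt (X ^ η) := by
        rw [Real.sqrt_eq_rpow, ← Real.rpow_mul hX0.le]; congr 1; ring
      rw [e3, show 2 * Real.sqrt U = Real.sqrt (4 * U) by
        rw [Real.sqrt_mul (by norm_num), show (4 : ℝ) = 2 ^ 2 by norm_num,
          Real.sqrt_sq (by norm_num)]]
      exact Real.sqrt_le_sqrt (by linarith)
    refine le_trans ?_ e2
    calc 600 * L ^ (C' + 1) * X ^ (η / 4) ≤ X ^ (η / 4) * X ^ (η / 4) :=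
          mul_le_mul_of_nonneg_right (h1 X hXa) (by positivity)
      _ = X ^ (η / 2) := by rw [← Real.rpow_add hX0]; congr 1; ring
  have hz' : (X ^ (η / 8)) ^ 2 = X ^ (η / 4) := by
    rw [← Real.rpow_natCast, ← Real.rpow_mul hX0.le]; congr 1; push_cast; ring
  have hs1 : 1 ≤ 2 * Real.sqrt U := by
    refine le_trans ?_ hsU
    have e3 : 1 ≤ X ^ (η / 4) := Real.one_le_rpow (by linarith) (by linarith)
    have e4 : 1 ≤ L ^ (C' + 1) := one_le_pow₀ hL
    nlinarith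
  have e5 : 64 * (X ^ (η / 8)) ^ 2 * (Real.sqrt (t + h) + 1) ≤ ξ * U / L := by
    rw [hz']
    have e6 : Real.sqrt (t + h) + 1 ≤ 4 * Real.sqrt U := by linarith
    have e7 : ξ * U / L ≥ U / L ^ (C' + 1) := by
      rw [ge_iff_le, div_le_div_iff₀ (by positivity) (by positivity)]
      have e8 : 1 ≤ ξ * L ^ C' := by
        rw [inv_le_iff_one_le_mul₀ (by positivity)] at hξ
        linarith
      rw [pow_succ]
      nlinarith [mul_le_mul_of_nonneg_left e8 (show 0 ≤ U * L by positivity)]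
    refine le_trans ?_ e7
    rw [le_div_iff₀ (by positivity)]
    have e9 : Real.sqrt U * Real.sqrt U = U := Real.mul_self_sqrt hU0.le
    calc 64 * X ^ (η / 4) * (Real.sqrt (t + h) + 1) * L ^ (C' + 1) ≤
          64 * X ^ (η / 4) * (4 * Real.sqrt U) * L ^ (C' + 1) := by
          apply mul_le_mul_of_nonneg_right _ (by positivity)
          apply mul_le_mul_of_nonneg_left e6 (by positivity)
      _ = (256 * L ^ (C' + 1) * X ^ (η / 4)) * Real.sqrt U := by ring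
      _ ≤ (256 / 600 * (2 * Real.sqrt U)) * Real.sqrt U := by
          apply mul_le_mul_of_nonneg_right _ (Real.sqrt_nonneg _)
          nlinarith
      _ ≤ U := by nlinarith [hU0, e9]
  have e10 : (2400 / η + 1) * ξ * U / L = 2400 / η * ξ * U / L + ξ * U / L := by ring
  rw [e10]
  exact add_le_add e1 e5

/-- a symmetric form bound -/
theorem sum_sym_le {ι : Type*} (E : Finset ι) (f : ι → ℝ) (c : ι → ι → ℝ) (M : ℝ)
    (hc : ∀ x ∈ E, ∀ y ∈ E, 0 ≤ c x y) (hs : ∀ x ∈ E, ∀ y ∈ E, c x y = c y x)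
    (hM : ∀ x ∈ E, ∑ y ∈ E, c x y ≤ M) :
    ∑ x ∈ E, ∑ y ∈ E, f x * f y * c x y ≤ M * ∑ x ∈ E, f x ^ 2 := by
  have h1 : ∑ x ∈ E, ∑ y ∈ E, f x * f y * c x y ≤
      ∑ x ∈ E, ∑ y ∈ E, (f x ^ 2 / 2 * c x y + f y ^ 2 / 2 * c x y) := by
    apply sum_le_sum; intro x hx
    apply sum_le_sum; intro y hy
    have := hc x hx y hy
    nlinarith [sq_nonneg (f x - f y), mul_nonneg (sq_nonneg (f x - f y)) this]
  have h2 : ∑ x ∈ E, ∑ y ∈ E, f y ^ 2 / 2 * c x y = ∑ x ∈ E, ∑ y ∈ E, f x ^ 2 / 2 * c x y := by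
    rw [sum_comm]
    apply sum_congr rfl; intro x hx
    apply sum_congr rfl; intro y hy
    rw [hs x hx y hy]
  have h3 : ∑ x ∈ E, ∑ y ∈ E, f x ^ 2 / 2 * c x y ≤ ∑ x ∈ E, f x ^ 2 / 2 * M := by
    apply sum_le_sum; intro x hx
    rw [← mul_sum]
    exact mul_le_mul_of_nonneg_left (hM x hx) (by positivity)
  calc _ ≤ _ := h1
    _ = ∑ x ∈ E, ∑ y ∈ E, f x ^ 2 / 2 * c x y + ∑ x ∈ E, ∑ y ∈ E, f y ^ 2 / 2 * c x y := by
        rw [← sum_add_distrib]
        exact sum_congr rfl fun x _ => sum_add_distrib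
    _ ≤ ∑ x ∈ E, f x ^ 2 / 2 * M + ∑ x ∈ E, f x ^ 2 / 2 * M := by
        rw [h2]; exact add_le_add h3 h3
    _ = M * ∑ x ∈ E, f x ^ 2 := by
        rw [← sum_mul, ← sum_div]; ring

theorem rough_eq_one_of_lt {z : ℝ} {r : O} (hr : Primary r) (h : Rough z r) (hN : (N r : ℝ) < z) :
    r = 1 := by
  by_contra h1
  obtain ⟨p, hp⟩ := pdv_nonempty hr h1
  rw [mem_pdv hr.ne_zero] at hp
  have h2 := h p hp.2.1 hp.2.2
  have h3 : (N p : ℝ) ≤ N r := by
    exact_mod_cast Nat.le_of_dvd (N_pos hr.ne_zero) (N_dvd_N hp.2.2)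
  linarith

/-- support conditions: rough, squarefree, primary, in the dyadic interval `(A₀, 2A₀]` and in the
short interval `(t, t + h]` -/
def InE (z A₀ t h : ℝ) (a : O) : Prop :=
  Primary a ∧ Squarefree a ∧ Rough z a ∧ A₀ < N a ∧ (N a : ℝ) ≤ 2 * A₀ ∧ t < N a ∧ (N a : ℝ) ≤ t + h

theorem eq_of_large_divisor {z A₀ t h : ℝ} {x d : O} (hd : Primary d) (hx : InE z A₀ t h x)
    (hdx : d ∣ x) (hcase : 2 * A₀ < N d * z) : x = d := by
  obtain ⟨r, rfl⟩ := hdx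
  have hr : Primary r := hd.of_mul hx.1
  have hNd : 1 ≤ (N d : ℝ) := hd.one_le_N'
  have hr1 : r = 1 := by
    apply rough_eq_one_of_lt hr (hx.2.2.1.of_dvd (dvd_mul_left _ _))
    have hxN := hx.2.2.2.2.1
    rw [N_mul, Nat.cast_mul] at hxN
    have : (N d : ℝ) * N r < N d * z := by linarith
    exact lt_of_mul_lt_mul_left this (by linarith)
  rw [hr1, mul_one]

open Classical in
theorem col_count {η : ℝ} {K ξ A₀ t h X L : ℝ} (hK : 0 < K) (hL : 0 < L) (hξ0 : 0 < ξ)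
    (hA : 1 ≤ A₀) (ht : 0 ≤ t) (hh : 0 ≤ h) (hhξ : h ≤ 3 * ξ * A₀) (hth : t + h ≤ 4 * A₀)
    (hrs : ∀ U t h : ℝ, X ^ η ≤ 2 * U → 0 ≤ t → 0 ≤ h → h ≤ 3 * ξ * U → t + h ≤ 4 * U →
      (((PB (t + h)).filter (fun a => t < N a ∧ Rough (X ^ η) a)).card : ℝ) ≤
        K * ξ * U / L)
    (E : Finset O) (hE : ∀ b ∈ E, InE (X ^ η) A₀ t h b) {a d : O} (ha : InE (X ^ η) A₀ t h a)
    (hd : Primary d) (hda : d ∣ a) :
    (N d : ℝ) * (E.filter (fun b => a ≠ b ∧ d ∣ b)).card ≤ K * ξ * A₀ / L := by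
  have hNd : 1 ≤ (N d : ℝ) := hd.one_le_N'
  have hNd0 : (0 : ℝ) < N d := by linarith
  by_cases hcase : 2 * A₀ < N d * X ^ η
  · have e3 : E.filter (fun b => a ≠ b ∧ d ∣ b) = ∅ := by
      rw [eq_empty_iff_forall_notMem]
      intro b hb
      rw [mem_filter] at hb
      apply hb.2.1
      rw [eq_of_large_divisor hd ha hda hcase, eq_of_large_divisor hd (hE b hb.1) hb.2.2 hcase]
    rw [e3]
    simp only [card_empty, Nat.cast_zero, mul_zero]
    positivity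
  · push Not at hcase
    have e3 := hrs (A₀ / N d) (t / N d) (h / N d)
      (by rw [mul_div_assoc', le_div_iff₀ hNd0]; linarith)
      (by positivity) (by positivity)
      (by
        rw [mul_div_assoc']
        exact div_le_div_of_nonneg_right hhξ hNd0.le)
      (by
        rw [← add_div, mul_div_assoc']
        exact div_le_div_of_nonneg_right hth hNd0.le)
    have e4 : ((E.filter (fun b => a ≠ b ∧ d ∣ b)).card : ℝ) ≤
        ((PB (t / N d + h / N d)).filter (fun r => t / N d < N r ∧ Rough (X ^ η) r)).card := by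
      norm_cast
      apply card_le_card_of_surjOn (fun r => d * r)
      intro b hb
      rw [mem_coe, mem_filter] at hb
      have hb' := hE b hb.1
      obtain ⟨r, hr⟩ := hb.2.2
      have hrp : Primary r := hd.of_mul (hr ▸ hb'.1)
      refine ⟨r, ?_, hr.symm⟩
      have hNb : (N b : ℝ) = N d * N r := by rw [hr, N_mul, Nat.cast_mul]
      rw [mem_coe, mem_filter, mem_PB, ← add_div, le_div_iff₀ hNd0, div_lt_iff₀ hNd0,
        mul_comm (N r : ℝ), ← hNb]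
      exact ⟨⟨hrp, hb'.2.2.2.2.2.2⟩, hb'.2.2.2.2.2.1,
        hb'.2.2.1.of_dvd (hr ▸ dvd_mul_left _ _)⟩
    calc (N d : ℝ) * (E.filter (fun b => a ≠ b ∧ d ∣ b)).card ≤
          N d * (K * ξ * (A₀ / N d) / L) :=
          mul_le_mul_of_nonneg_left (e4.trans e3) hNd0.le
      _ = K * ξ * A₀ / L := by field_simp

/-- the kernel of the off-diagonal form -/
noncomputable def ker (a b : O) : ℝ := if a ≠ b then ∑ d ∈ dvs a ∩ dvs b, (N d : ℝ) else 0

theorem ker_nonneg (a b : O) : 0 ≤ ker a b := by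
  rw [ker]
  split_ifs
  · exact sum_nonneg fun _ _ => Nat.cast_nonneg _
  · exact le_rfl

theorem ker_comm (a b : O) : ker a b = ker b a := by
  rw [ker, ker, inter_comm]
  simp only [ne_comm]

open Classical in
theorem row_sum {η : ℝ} {K ξ A₀ t h X L T : ℝ} (hK : 0 < K) (hL : 0 < L) (hξ0 : 0 < ξ)
    (hA : 1 ≤ A₀) (ht : 0 ≤ t) (hh : 0 ≤ h) (hhξ : h ≤ 3 * ξ * A₀) (hth : t + h ≤ 4 * A₀)
    (hrs : ∀ U t h : ℝ, X ^ η ≤ 2 * U → 0 ≤ t → 0 ≤ h → h ≤ 3 * ξ * U → t + h ≤ 4 * U →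
      (((PB (t + h)).filter (fun a => t < N a ∧ Rough (X ^ η) a)).card : ℝ) ≤
        K * ξ * U / L)
    (hT : ∀ a, InE (X ^ η) A₀ t h a → (tau a : ℝ) ≤ T)
    (E : Finset O) (hE : ∀ b ∈ E, InE (X ^ η) A₀ t h b) {a : O} (ha : InE (X ^ η) A₀ t h a) :
    ∑ b ∈ E, ker a b ≤ T * (K * ξ * A₀ / L) := by
  have e1 : ∑ b ∈ E, ker a b = ∑ d ∈ dvs a, (N d : ℝ) *
      (E.filter (fun b => a ≠ b ∧ d ∣ b)).card := by
    have e2 : ∀ b ∈ E, ker a b = ∑ d ∈ dvs a, if a ≠ b ∧ d ∣ b then (N d : ℝ) else 0 := by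
      intro b hb
      have hb' := hE b hb
      rw [ker]
      by_cases hab : a ≠ b
      · rw [if_pos hab]
        have e3 : dvs a ∩ dvs b = (dvs a).filter (fun d => a ≠ b ∧ d ∣ b) := by
          ext d
          rw [mem_inter, mem_filter, mem_dvs ha.1.ne_zero, mem_dvs hb'.1.ne_zero]
          tauto
        rw [e3, sum_filter]
      · rw [if_neg hab]
        symm
        apply sum_eq_zero
        intro d _
        rw [if_neg (fun h => hab h.1)]
    rw [sum_congr rfl e2, sum_comm]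
    apply sum_congr rfl
    intro d _
    rw [← sum_filter, sum_const, nsmul_eq_mul, mul_comm]
  rw [e1]
  have e2 : ∀ d ∈ dvs a, (N d : ℝ) * (E.filter (fun b => a ≠ b ∧ d ∣ b)).card ≤
      K * ξ * A₀ / L := by
    intro d hd
    rw [mem_dvs ha.1.ne_zero] at hd
    exact col_count hK hL hξ0 hA ht hh hhξ hth hrs E hE ha hd.1 hd.2
  refine (sum_le_sum e2).trans ?_
  rw [sum_const, nsmul_eq_mul]
  exact mul_le_mul_of_nonneg_right (hT a ha) (by positivity)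

open Classical in
theorem EMf_le_ker {z A₀ t h T : ℝ} (hA : 1 ≤ A₀) (hT0 : 0 < T)
    (hT : ∀ a, InE z A₀ t h a → (tau a : ℝ) ≤ T) {α : O → ℂ}
    (hα : ∀ a, α a ≠ 0 → InE z A₀ t h a) (l : ℕ) :
    EMf α (2 * A₀) l ≤ T ^ 2 / A₀ * ∑ a ∈ (SPB (2 * A₀)).filter (fun a => α a ≠ 0),
      ∑ b ∈ (SPB (2 * A₀)).filter (fun a => α a ≠ 0), ‖α a‖ * ‖α b‖ * ker a b := by
  rw [EMf, mul_sum]
  have h2 : ∀ a ∈ SPB (2 * A₀), ∑ b ∈ SPB (2 * A₀),
      (if a ≠ b ∧ N a / 2 ^ l = N b / 2 ^ l then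
      ‖α a‖ * ‖α b‖ * (∑ d ∈ dvs a ∩ dvs b, (N d : ℝ)) / Real.sqrt (N a * N b) *
      (tau a * tau b) else 0) ≤
      if α a ≠ 0 then T ^ 2 / A₀ * ∑ b ∈ (SPB (2 * A₀)).filter (fun a => α a ≠ 0),
        ‖α a‖ * ‖α b‖ * ker a b else 0 := by
    intro a _
    by_cases ha : α a = 0
    · rw [if_neg (by simpa using ha)]
      apply le_of_eq
      apply sum_eq_zero
      intro b _
      rw [ha]; simp
    rw [if_pos ha, mul_sum, sum_filter]
    apply sum_le_sum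
    intro b _
    by_cases hb : α b = 0
    · rw [hb]; simp
    rw [if_pos hb]
    have ha2 := hα a ha
    have hb2 := hα b hb
    have hk := ker_nonneg a b
    by_cases hab : a ≠ b
    swap
    · rw [if_neg (fun h => hab h.1)]
      positivity
    have hcab : ker a b = ∑ d ∈ dvs a ∩ dvs b, (N d : ℝ) := by
      rw [ker, if_pos hab]
    have h3 : ‖α a‖ * ‖α b‖ * (∑ d ∈ dvs a ∩ dvs b, (N d : ℝ)) / Real.sqrt (N a * N b) *
        (tau a * tau b) ≤ T ^ 2 / A₀ * (‖α a‖ * ‖α b‖ * ker a b) := by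
      rw [← hcab]
      have h4 : A₀ ≤ Real.sqrt (N a * N b) := by
        apply Real.le_sqrt_of_sq_le
        rw [sq]
        exact mul_le_mul ha2.2.2.2.1.le hb2.2.2.2.1.le (by linarith) (by positivity)
      have h5 : (tau a : ℝ) ≤ T := hT a ha2
      have h6 : (tau b : ℝ) ≤ T := hT b hb2
      have h7 : 0 ≤ ‖α a‖ * ‖α b‖ * ker a b := by positivity
      calc ‖α a‖ * ‖α b‖ * ker a b / Real.sqrt (N a * N b) * (tau a * tau b) ≤
          ‖α a‖ * ‖α b‖ * ker a b / A₀ * (T * T) := by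
            apply mul_le_mul _ (mul_le_mul h5 h6 (by positivity) hT0.le) (by positivity)
              (by positivity)
            exact div_le_div_of_nonneg_left h7 (by linarith) h4
        _ = T ^ 2 / A₀ * (‖α a‖ * ‖α b‖ * ker a b) := by ring
    split_ifs
    · exact h3
    · positivity
  refine (sum_le_sum h2).trans (le_of_eq ?_)
  rw [← sum_filter]

/-- **the off-diagonal error for rough coefficients in a short interval** -/
theorem EMf_le {η : ℝ} (hη : 0 < η) :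
    ∃ K : ℝ, 0 < K ∧ ∀ C' : ℕ, ∃ X1 : ℝ, 3 ≤ X1 ∧ ∀ X : ℝ, X1 ≤ X →
      ∀ ξ : ℝ, (Real.log X ^ C')⁻¹ ≤ ξ →
      ∀ A₀ t h : ℝ, 1 ≤ A₀ → 2 * A₀ ≤ X → 0 ≤ t → 0 ≤ h → h ≤ 3 * ξ * A₀ → t + h ≤ 4 * A₀ →
      ∀ α : O → ℂ, (∀ a, α a ≠ 0 → InE (X ^ η) A₀ t h a) →
      ∀ l : ℕ, EMf α (2 * A₀) l ≤ K * ξ / Real.log X * ∑ a ∈ SPB (2 * A₀), ‖α a‖ ^ 2 := by
  classical
  obtain ⟨K, hK, hrs0⟩ := rough_short hη
  set T : ℝ := 2 ^ (1 / η) with hT
  have hT0 : 0 < T := by positivity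
  refine ⟨T ^ 3 * K, by positivity, fun C' => ?_⟩
  obtain ⟨X1, hX1, hrs⟩ := hrs0 C'
  refine ⟨X1, hX1, ?_⟩
  intro X hX ξ hξ A₀ t h hA hAX ht hh hhξ hth α hα l
  have hX3 : 3 ≤ X := hX1.trans hX
  have hL : 1 ≤ Real.log X := one_le_log hX3
  set L := Real.log X with hLdef
  have hξ0 : 0 < ξ := lt_of_lt_of_le (by positivity) hξ
  set E : Finset O := (SPB (2 * A₀)).filter (fun a => α a ≠ 0) with hE
  have hTT : ∀ a, InE (X ^ η) A₀ t h a → (tau a : ℝ) ≤ T := fun a ha =>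
    VR.tau_rough_le (by linarith) hη ha.1 ha.2.1 ha.2.2.1 (ha.2.2.2.2.1.trans hAX)
  have hEE : ∀ b ∈ E, InE (X ^ η) A₀ t h b := fun b hb => hα b (mem_filter.1 hb).2
  have h1 := EMf_le_ker hA hT0 hTT hα l
  have h3 := sum_sym_le E (fun a => ‖α a‖) ker (T * (K * ξ * A₀ / L))
    (fun x _ y _ => ker_nonneg x y) (fun x _ y _ => ker_comm x y)
    (fun x hx => row_sum hK (by linarith) hξ0 hA ht hh hhξ hth (hrs X hX ξ hξ) hTT E hEE (hEE x hx))
  refine h1.trans ?_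
  calc T ^ 2 / A₀ * ∑ a ∈ E, ∑ b ∈ E, ‖α a‖ * ‖α b‖ * ker a b ≤
        T ^ 2 / A₀ * (T * (K * ξ * A₀ / L) * ∑ a ∈ E, ‖α a‖ ^ 2) :=
        mul_le_mul_of_nonneg_left h3 (by positivity)
    _ = T ^ 3 * K * ξ / L * ∑ a ∈ E, ‖α a‖ ^ 2 := by field_simp
    _ ≤ T ^ 3 * K * ξ / L * ∑ a ∈ SPB (2 * A₀), ‖α a‖ ^ 2 := by
        apply mul_le_mul_of_nonneg_left _ (by positivity)
        apply sum_le_sum_of_subset_of_nonneg (filter_subset _ _)
        intro _ _ _; positivity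

end Vale.Agent.P006.SV
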