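import Vale.Agent.P006.SV.Edge

/-!
P006, block 20c (helper577): `EdgeHyp` from `DNHyp`.
-/

namespace Vale.Agent.P006.SV

open Finset Vale.Agent.P006

/-- choice of the level separating the coarse from the fine part -/
theorem exists_level {A₀ Q : ℝ} (hQ : 0 < Q) (h : 2 * Q ≤ A₀) :
    ∃ i : ℕ, 1 ≤ i ∧ 2 ^ i * Q ≤ A₀ ∧ A₀ < 2 * (2 ^ i * Q) := by
  have h1 : 2 ≤ A₀ / Q := by rw [le_div_iff₀ hQ]; exact h
  have h2 : 2 ≤ ⌊A₀ / Q⌋₊ := Nat.le_floor (by exact_mod_cast h1)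
  refine ⟨Nat.log 2 ⌊A₀ / Q⌋₊, Nat.log_pos (by norm_num) h2, ?_, ?_⟩
  · have h3 := Nat.pow_log_le_self 2 (show ⌊A₀ / Q⌋₊ ≠ 0 by omega)
    have h4 : ((2 : ℝ) ^ Nat.log 2 ⌊A₀ / Q⌋₊) ≤ A₀ / Q := by
      refine le_trans ?_ (Nat.floor_le (by linarith))
      exact_mod_cast h3
    rwa [le_div_iff₀ hQ] at h4
  · have h3 := Nat.lt_pow_succ_log_self (b := 2) (by norm_num) ⌊A₀ / Q⌋₊
    have h4 : A₀ / Q < 2 ^ (Nat.log 2 ⌊A₀ / Q⌋₊ + 1) := by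
      have h5 := Nat.lt_floor_add_one (A₀ / Q)
      have h6 : ((⌊A₀ / Q⌋₊ + 1 : ℕ) : ℝ) ≤ ((2 ^ (Nat.log 2 ⌊A₀ / Q⌋₊ + 1) : ℕ) : ℝ) := by
        exact_mod_cast h3
      push_cast at h6
      linarith
    rw [div_lt_iff₀ hQ, pow_succ] at h4
    linarith

/-- the block bound at a fixed `X`, `W` -/
def BlkAt (w : O → ℂ) (W : O) (δ η X C₁ C : ℝ) (A' C' : ℕ) : Prop :=
  ∀ A₀ : ℝ, X ^ δ ≤ A₀ → 1 ≤ A₀ → 2 * A₀ ≤ X →
      ∀ y : ℝ, A₀ ^ (1 + δ) ≤ y → y ≤ 100 * A₀ ^ 2 → A₀ * y ≤ X →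
      ∀ ξ : ℝ, (Real.log X ^ C')⁻¹ ≤ ξ → ξ ≤ 2 →
      ∀ t h : ℝ, 0 ≤ t → 0 ≤ h → h ≤ 3 * ξ * A₀ → t + h ≤ 4 * A₀ →
      ∀ G : ℝ, 1 ≤ G → ∀ α : O → ℂ, ClassG α X G →
      (∀ a, α a ≠ 0 → IsCoprime a W ∧ InE (X ^ η) A₀ t h a) → ∀ l : ℕ,
      FamS w α W A₀ y ((1 + ξ) * y) l ≤
        C₁ * (dens W * ξ + ξ ^ (1 / 2 : ℝ) / Real.log X) * y * ∑ a ∈ SPB (2 * A₀), ‖α a‖ ^ 2
        + C * G ^ 2 * A₀ ^ (5 / 3 : ℝ) * y ^ (2 / 3 : ℝ) / Real.log X ^ A'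

/-- construction of the context -/
theorem mkCtx {w : O → ℂ} {W : O} {δ η X C₁ C A₀ x : ℝ} {A : ℕ} (hC₁ : 0 ≤ C₁) (hC : 0 ≤ C)
    (hW : Primary W) (hB : BlkAt w W δ η X C₁ C (2 * A + 30) 10)
    (hL : 1 ≤ Real.log X) (hX0 : 0 < X) (hNW : (N W : ℝ) < X ^ η)
    (hA1 : 1 ≤ A₀) (hAδ : X ^ δ ≤ A₀) (hA2 : 2 * A₀ ≤ X) (hA3 : X ≤ 100 * A₀ ^ 3)
    (hx0 : 0 ≤ x) (hx : x ≤ X) {α β : O → ℂ} (hα : ClassG α X (Real.log X ^ 2))
    (hαs : ∀ a, α a ≠ 0 → Rough (X ^ η) a ∧ A₀ < (N a : ℝ) ∧ (N a : ℝ) ≤ 2 * A₀)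
    (hβs : ∀ b, β b ≠ 0 → Primary b ∧ Squarefree b ∧ Rough (X ^ η) b ∧ (N b : ℝ) ≤ X / A₀)
    (T : Finset O) (hT : ∀ b ∈ T, β b ≠ 0 ∧ 3 * A₀ ^ (1 + δ) ≤ N b) :
    Ctx w W α T X A₀ x η δ (Real.log X) (dens W) C₁
      (C * (2 * Real.log X ^ 2) ^ 2 * A₀ ^ (5 / 3 : ℝ) * (X / A₀) ^ (2 / 3 : ℝ) /
        Real.log X ^ (2 * A + 30)) (Real.log X ^ 10) := by
  have hA0 : 0 < A₀ := by linarith
  have hcop : ∀ a, Rough (X ^ η) a → IsCoprime a W := fun a ha =>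
    ha.isCoprime hW (smooth_of_N_lt hW.ne_zero hNW)
  refine ⟨hA1, hx0, hx, hL, one_le_pow₀ hL, (dens_pos hW).le, hC₁, by positivity, ?_, ?_, ?_⟩
  · intro a ha
    have h1 := hα.supp a ha
    have h2 := hαs a ha
    exact ⟨h1.1, h1.2.1, h2.2.1, h2.2.2⟩
  · intro b hb
    have h1 := hT b hb
    have h2 := hβs b h1.1
    exact ⟨h2.1, h2.2.1, hcop b h2.2.2.1, h1.2, h2.2.2.2⟩
  · intro y ξ t h hy1 hy2 hξ1 hξ2 ht hh h3 h4 lo hi hbk l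
    have hy0 : 0 < y := lt_of_lt_of_le (by positivity) hy1
    have hξ0 : 0 < ξ := lt_of_lt_of_le (by positivity) hξ1
    have e1 : y ≤ 100 * A₀ ^ 2 := by
      refine hy2.trans ?_
      rw [div_le_iff₀ hA0]
      calc X ≤ 100 * A₀ ^ 3 := hA3
        _ = 100 * A₀ ^ 2 * A₀ := by ring
    have e2 : A₀ * y ≤ X := by
      rw [le_div_iff₀ hA0] at hy2
      linarith
    have h5 := hB A₀ hAδ hA1 hA2 y hy1 e1 e2 ξ hξ1 hξ2 t h ht hh h3 h4 (2 * Real.log X ^ 2)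
      (by nlinarith [one_le_pow₀ (n := 2) hL]) (blk lo hi α) (classG_blk hα lo hi) (by
        intro a ha
        have h6 := blk_ne_zero ha
        have h7 := hα.supp a h6.2.2
        have h8 := hαs a h6.2.2
        have h9 := hbk a ha
        exact ⟨hcop a h8.1, h7.1, h7.2.1, h8.1, h8.2.1, h8.2.2, h9.1, h9.2⟩) l
    refine h5.trans ?_
    apply add_le_add_right
    apply div_le_div_of_nonneg_right _ (by positivity)
    apply mul_le_mul_of_nonneg_left _ (by positivity)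
    exact Real.rpow_le_rpow hy0.le hy2 (by norm_num)

theorem sum_sq_le {β : O → ℂ} {M y : ℝ} (hy : 0 ≤ y) (hβ : ∀ b, ‖β b‖ ≤ M)
    (T : Finset O) (hT : T ⊆ PB y) : ∑ b ∈ T, ‖β b‖ ^ 2 ≤ 4 * M ^ 2 * y := by
  have h1 : ∀ b ∈ T, ‖β b‖ ^ 2 ≤ M ^ 2 := fun b _ =>
    pow_le_pow_left₀ (norm_nonneg _) (hβ b) 2
  refine (sum_le_sum h1).trans ?_
  rw [sum_const, nsmul_eq_mul]
  have h2 : (T.card : ℝ) ≤ 4 * y := by
    have h3 : (T.card : ℝ) ≤ (PB y).card := by exact_mod_cast card_le_card hT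
    exact h3.trans (card_PB_le hy)
  calc (T.card : ℝ) * M ^ 2 ≤ 4 * y * M ^ 2 := mul_le_mul_of_nonneg_right h2 (by positivity)
    _ = _ := by ring

theorem ar_fin {M1 M2 D Z PT PB SA : ℝ} (hM2 : 0 ≤ M2) (hZ : 0 ≤ Z)
    (hSA : 0 ≤ SA) (hPT : PT ≤ PB) (h : M1 ≤ M2 * (Real.sqrt D * Real.sqrt Z)) :
    M1 * (Real.sqrt PT * Real.sqrt SA) ≤ M2 * Real.sqrt D * Real.sqrt (Z * SA * PB) := by
  have hsq : Real.sqrt (Z * SA * PB) = Real.sqrt Z * Real.sqrt SA * Real.sqrt PB := by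
    rw [Real.sqrt_mul (by positivity), Real.sqrt_mul hZ]
  rw [hsq]
  calc M1 * (Real.sqrt PT * Real.sqrt SA) ≤
        (M2 * (Real.sqrt D * Real.sqrt Z)) * (Real.sqrt PT * Real.sqrt SA) :=
        mul_le_mul_of_nonneg_right h (by positivity)
    _ ≤ (M2 * (Real.sqrt D * Real.sqrt Z)) * (Real.sqrt PB * Real.sqrt SA) := by
        apply mul_le_mul_of_nonneg_left _ (by positivity)
        exact mul_le_mul_of_nonneg_right (Real.sqrt_le_sqrt hPT) (Real.sqrt_nonneg _)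
    _ = _ := by ring

theorem Yb_lt {X x : ℝ} (hx0 : 0 ≤ x) (hx : x ≤ X) {b : O} (hb : Primary b) :
    Yb x b < 2 ^ (Nat.log 2 (⌊X⌋₊ + 1) + 1) := by
  have h1 : Yb x b ≤ ⌊X⌋₊ + 1 := by
    rw [Yb]
    apply Nat.succ_le_succ
    apply Nat.floor_le_floor
    exact (div_le_self hx0 hb.one_le_N').trans hx
  exact lt_of_le_of_lt h1 (Nat.lt_pow_succ_log_self (by norm_num) _)

/-- the main range of `b` -/
theorem edge_T {w : O → ℂ} {W : O} {δ η X C₁ C A₀ x : ℝ} {A : ℕ} (hC₁ : 0 ≤ C₁) (hC : 0 ≤ C)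
    (hW : Primary W) (hX3 : 3 ≤ X) (hL2 : 2 ≤ Real.log X) (hLD : 1 / Real.log X ≤ dens W)
    (hA8 : 2 * Real.log X ^ 8 ≤ A₀) {α β : O → ℂ} (hβ : ∀ b, ‖β b‖ ≤ Real.log X ^ 2)
    (T : Finset O) (hTs : T ⊆ SPB (X / A₀))
    (c : Ctx w W α T X A₀ x η δ (Real.log X) (dens W) C₁
      (C * (2 * Real.log X ^ 2) ^ 2 * A₀ ^ (5 / 3 : ℝ) * (X / A₀) ^ (2 / 3 : ℝ) /
        Real.log X ^ (2 * A + 30)) (Real.log X ^ 10)) :
    ‖∑ b ∈ T, β b * ∑ a ∈ (SPB (2 * A₀)).filter (fun a => N a < Yb x b), α a * w (a * b)‖ ≤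
      (25 * Real.sqrt (4 * C₁) + 5 * Real.sqrt (6 * C₁)) * Real.sqrt (dens W) *
        Real.sqrt ((X / A₀) * (∑ a ∈ SPB (2 * A₀), ‖α a‖ ^ 2) *
        (∑ b ∈ SPB (X / A₀), ‖β b‖ ^ 2)) +
      80 * Real.sqrt C * X ^ (5 / 6 : ℝ) / Real.log X ^ A := by
  classical
  have hX0 : 0 < X := by linarith
  have hL1 : 1 ≤ Real.log X := by linarith
  have hA1 := c.hA
  have hA0 : 0 < A₀ := by linarith
  have hZ : 0 ≤ X / A₀ := by positivity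
  have hD0 := dens_pos hW
  have hD1 := dens_le_one hW
  obtain ⟨i, hi, hi1, hi2⟩ := exists_level (A₀ := A₀) (Q := Real.log X ^ 8) (by positivity) hA8
  have hbig : 2 * A₀ < 2 ^ i * (2 * Real.log X ^ 10 - 1) := by
    have h1 : (0 : ℝ) < 2 ^ i := by positivity
    have h2 : 4 * Real.log X ^ 8 ≤ 2 * Real.log X ^ 10 - 1 := by
      have h3 : Real.log X ^ 10 = Real.log X ^ 8 * Real.log X ^ 2 := by ring
      have h4 : 1 ≤ Real.log X ^ 8 := one_le_pow₀ hL1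
      have h5 : 4 ≤ Real.log X ^ 2 := by nlinarith
      have h6 := mul_le_mul_of_nonneg_left h5 (show 0 ≤ Real.log X ^ 8 by positivity)
      rw [h3]
      linarith
    calc 2 * A₀ < 2 * (2 * (2 ^ i * Real.log X ^ 8)) := by linarith
      _ = 2 ^ i * (4 * Real.log X ^ 8) := by ring
      _ ≤ 2 ^ i * (2 * Real.log X ^ 10 - 1) := mul_le_mul_of_nonneg_left h2 h1.le
  have hLv5 : ((Nat.log 2 (⌊X⌋₊ + 1) + 1 : ℕ) : ℝ) ≤ 5 * Real.log X := by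
    apply natLog_le hX3
    push_cast
    have := Nat.floor_le hX0.le
    linarith
  have hYLv : ∀ b ∈ T, Yb x b < 2 ^ (Nat.log 2 (⌊X⌋₊ + 1) + 1) :=
    fun b hb => Yb_lt c.hx0 c.hx (c.hT b hb).1
  have hQ2 : 2 ≤ Real.log X ^ 8 := by
    calc (2 : ℝ) ≤ 2 ^ 8 := by norm_num
      _ ≤ Real.log X ^ 8 := pow_le_pow_left₀ (by norm_num) hL2 8
  have htot := c.total hD1 β (Q := Real.log X ^ 8) hi hQ2 hi1 hbig hYLv
  have hTP : T ⊆ PB (X / A₀) := hTs.trans SPB_subset_PB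
  have hP := sum_sq_le hZ hβ T hTP
  have hP0 : 0 ≤ ∑ b ∈ T, ‖β b‖ ^ 2 := sum_nonneg fun _ _ => by positivity
  have herr := ar_err (A := A) (C := C) (P := ∑ b ∈ T, ‖β b‖ ^ 2) hC hA0 hX0 hL1 hLv5 hP0
    (by
      refine hP.trans (le_of_eq ?_)
      ring) rfl
  have hmain := ar_main (Z := X / A₀) hC₁ hD0 hD1 hL1 hLD hZ hLv5
  have hBt : ∑ b ∈ T, ‖β b‖ ^ 2 ≤ ∑ b ∈ SPB (X / A₀), ‖β b‖ ^ 2 :=
    sum_le_sum_of_subset_of_nonneg hTs fun _ _ _ => by positivity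
  have hS0 : 0 ≤ ∑ a ∈ SPB (2 * A₀), ‖α a‖ ^ 2 := sum_nonneg fun _ _ => by positivity
  exact htot.trans (add_le_add (ar_fin (by positivity) hZ hS0 hBt hmain) herr)

open Classical in
/-- the estimate for large `X` -/
theorem edge_large {w : O → ℂ} {W : O} {δ η X C₁ C A₀ x : ℝ} {A : ℕ} (hC₁ : 0 ≤ C₁) (hC : 0 ≤ C)
    (hw2 : ∀ c, ‖w c‖ ≤ 2) (hW : Primary W) (hB : BlkAt w W δ η X C₁ C (2 * A + 30) 10)
    (hX3 : 3 ≤ X) (hL2 : 2 ≤ Real.log X) (hLD : 1 / Real.log X ≤ dens W)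
    (hNW : (N W : ℝ) < X ^ η) (hA8 : 2 * Real.log X ^ 8 ≤ A₀)
    (hA1 : 1 ≤ A₀) (hAδ : X ^ δ ≤ A₀) (hA2 : 2 * A₀ ≤ X) (hA3 : X ≤ 100 * A₀ ^ 3)
    (hx0 : 0 ≤ x) (hx : x ≤ X) {α β : O → ℂ} (hα : ClassG α X (Real.log X ^ 2))
    (hαs : ∀ a, α a ≠ 0 → Rough (X ^ η) a ∧ A₀ < (N a : ℝ) ∧ (N a : ℝ) ≤ 2 * A₀)
    (hβ : ∀ b, ‖β b‖ ≤ Real.log X ^ 2)
    (hβs : ∀ b, β b ≠ 0 → Primary b ∧ Squarefree b ∧ Rough (X ^ η) b ∧ (N b : ℝ) ≤ X / A₀) :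
    ‖Bil w α β x‖ ≤
      (25 * Real.sqrt (4 * C₁) + 5 * Real.sqrt (6 * C₁)) * Real.sqrt (dens W) *
        Real.sqrt ((X / A₀) * (∑ a ∈ SPB (2 * A₀), ‖α a‖ ^ 2) *
        (∑ b ∈ SPB (X / A₀), ‖β b‖ ^ 2)) +
      80 * Real.sqrt C * X ^ (5 / 6 : ℝ) / Real.log X ^ A +
        192 * Real.log X ^ 4 * (A₀ * A₀ ^ (1 + δ)) := by
  have hX0 : 0 < X := by linarith
  have hL1 : 1 ≤ Real.log X := by linarith
  rw [Bil_Yb hA1 hA2 hx0 hx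
    (fun a ha => ⟨(hα.supp a ha).1, (hα.supp a ha).2.1, (hαs a ha).2.2⟩)
    (fun b hb => ⟨(hβs b hb).1, (hβs b hb).2.1, (hβs b hb).2.2.2⟩)]
  have e1 : ∑ b ∈ SPB (X / A₀), β b *
      ∑ a ∈ (SPB (2 * A₀)).filter (fun a => N a < Yb x b), α a * w (a * b) =
      ∑ b ∈ (SPB (X / A₀)).filter (fun b => β b ≠ 0 ∧ 3 * A₀ ^ (1 + δ) ≤ N b),
        β b * ∑ a ∈ (SPB (2 * A₀)).filter (fun a => N a < Yb x b), α a * w (a * b) +
      ∑ b ∈ (SPB (X / A₀)).filter (fun b => β b ≠ 0 ∧ ¬ (3 * A₀ ^ (1 + δ) ≤ N b)),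
        β b * ∑ a ∈ (SPB (2 * A₀)).filter (fun a => N a < Yb x b), α a * w (a * b) := by
    rw [sum_filter, sum_filter, ← sum_add_distrib]
    apply sum_congr rfl
    intro b _
    by_cases h1 : β b = 0
    · simp [h1]
    · by_cases h2 : 3 * A₀ ^ (1 + δ) ≤ N b
      · rw [if_pos ⟨h1, h2⟩, if_neg (fun h => h.2 h2), add_zero]
      · rw [if_neg (fun h => h2 h.2), if_pos ⟨h1, h2⟩, zero_add]
  rw [e1]
  have c := mkCtx hC₁ hC hW hB hL1 hX0 hNW hA1 hAδ hA2 hA3 hx0 hx hα hαs hβs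
    ((SPB (X / A₀)).filter (fun b => β b ≠ 0 ∧ 3 * A₀ ^ (1 + δ) ≤ N b))
    (fun b hb => (mem_filter.1 hb).2)
  have h1 := edge_T hC₁ hC hW hX3 hL2 hLD hA8 hβ _ (filter_subset _ _) c
  have hsmall := small_b (w := w) (α := α) (β := β) (x := x) hA1
    (show 0 ≤ Real.log X ^ 2 by positivity) (show 0 ≤ 3 * A₀ ^ (1 + δ) by positivity) hw2
    hα.bound hβ ((SPB (X / A₀)).filter (fun b => β b ≠ 0 ∧ ¬ (3 * A₀ ^ (1 + δ) ≤ N b))) (by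
      intro b hb
      rw [mem_filter, mem_SPB] at hb
      rw [mem_PB]
      exact ⟨hb.1.1.1, (not_le.1 hb.2.2).le⟩)
  refine (norm_add_le _ _).trans ((add_le_add h1 hsmall).trans (le_of_eq ?_))
  ring

/-- the trivial range of `X` -/
theorem edge_small {w α β : O → ℂ} {X X1 x : ℝ} (A : ℕ) (hX3 : 3 ≤ X) (hX : X ≤ X1)
    (hw2 : ∀ c, ‖w c‖ ≤ 2) (hx : x ≤ X) (hα : ∀ a, ‖α a‖ ≤ Real.log X ^ 2)
    (hβ : ∀ b, ‖β b‖ ≤ Real.log X ^ 2) :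
    ‖Bil w α β x‖ ≤ 32 * X1 ^ (6 + A) * X ^ (5 / 6 : ℝ) / Real.log X ^ A := by
  have hL : 1 ≤ Real.log X := one_le_log hX3
  have hLX : Real.log X ≤ X1 := (Real.log_le_self (by linarith)).trans hX
  have h1 := Bil_trivial (w := w) (by linarith : 1 ≤ X) hx
    (show 0 ≤ Real.log X ^ 2 by positivity) hw2 hα hβ
  have h2 : 32 * (Real.log X ^ 2) ^ 2 * X ^ 2 ≤ 32 * X1 ^ 6 := by
    have h3 : (Real.log X ^ 2) ^ 2 ≤ X1 ^ 4 := by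
      rw [← pow_mul]; exact pow_le_pow_left₀ (by linarith) hLX 4
    have h4 : X ^ 2 ≤ X1 ^ 2 := pow_le_pow_left₀ (by linarith) hX 2
    calc 32 * (Real.log X ^ 2) ^ 2 * X ^ 2 ≤ 32 * X1 ^ 4 * X1 ^ 2 := by
          apply mul_le_mul _ h4 (by positivity) (by positivity)
          linarith
      _ = 32 * X1 ^ 6 := by ring
  refine h1.trans (h2.trans ?_)
  rw [le_div_iff₀ (by positivity)]
  have h5 : Real.log X ^ A ≤ X1 ^ A := pow_le_pow_left₀ (by linarith) hLX A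
  have h6 : 1 ≤ X ^ (5 / 6 : ℝ) := Real.one_le_rpow (by linarith) (by norm_num)
  have hX1 : 0 < X1 := by linarith
  calc 32 * X1 ^ 6 * Real.log X ^ A ≤ 32 * X1 ^ 6 * X1 ^ A :=
        mul_le_mul_of_nonneg_left h5 (by positivity)
    _ = 32 * X1 ^ (6 + A) * 1 := by rw [pow_add]; ring
    _ ≤ 32 * X1 ^ (6 + A) * X ^ (5 / 6 : ℝ) := mul_le_mul_of_nonneg_left h6 (by positivity)

/-- thresholds for `X` -/
theorem exists_threshold {W : O} (hW : Primary W) {δ d η : ℝ} (hδ3 : δ < 1 / 3) (hd : d < 1 / 12)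
    (hη : 0 < η) (X0 : ℝ) :
    ∃ X1 : ℝ, 3 ≤ X1 ∧ X0 ≤ X1 ∧ ∀ X : ℝ, X1 ≤ X → 2 ≤ Real.log X ∧
      1 / Real.log X ≤ dens W ∧ (N W : ℝ) < X ^ η ∧ 8 * Real.log X ^ 8 ≤ X ^ (1 / 3 : ℝ) ∧
      4 * X ^ δ ≤ X ^ (1 / 3 : ℝ) ∧ 2 * X ^ (1 / 3 + d) ≤ X := by
  obtain ⟨Xa, hXa, ha⟩ := exists_log_le 8 8 (show (0 : ℝ) < 1 / 3 by norm_num)
  obtain ⟨Xb, hXb, hb⟩ := exists_log_le 0 4 (show (0 : ℝ) < 1 / 3 - δ by linarith)
  obtain ⟨Xc, hXc, hc⟩ := exists_log_le 0 2 (show (0 : ℝ) < 2 / 3 - d by linarith)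
  obtain ⟨Xd, hXd, hd⟩ := exists_log_le 0 (N W + 1) hη
  refine ⟨max (max (max Xa Xb) (max Xc Xd)) (max X0 (Real.exp (max 2 (1 / dens W)))),
    ?_, ?_, ?_⟩
  · exact hXa.trans ((le_max_left _ _).trans ((le_max_left _ _).trans (le_max_left _ _)))
  · exact (le_max_left _ _).trans (le_max_right _ _)
  · intro X hX
    have h1 : Xa ≤ X := ((le_max_left _ _).trans ((le_max_left _ _).trans (le_max_left _ _))).trans hX
    have h2 : Xb ≤ X := ((le_max_right _ _).trans ((le_max_left _ _).trans (le_max_left _ _))).trans hX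
    have h3 : Xc ≤ X := ((le_max_left _ _).trans ((le_max_right _ _).trans (le_max_left _ _))).trans hX
    have h4 : Xd ≤ X := ((le_max_right _ _).trans ((le_max_right _ _).trans (le_max_left _ _))).trans hX
    have h5 : Real.exp (max 2 (1 / dens W)) ≤ X :=
      ((le_max_right _ _).trans (le_max_right _ _)).trans hX
    have hX0 : 0 < X := by linarith
    have h6 : max 2 (1 / dens W) ≤ Real.log X := (Real.le_log_iff_exp_le hX0).2 h5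
    have h7 : 2 ≤ Real.log X := (le_max_left _ _).trans h6
    have h8 : 1 / dens W ≤ Real.log X := (le_max_right _ _).trans h6
    have hb' := hb X h2
    have hc' := hc X h3
    have hd' := hd X h4
    rw [pow_zero, mul_one] at hb' hc' hd'
    refine ⟨h7, ?_, ?_, ha X h1, ?_, ?_⟩
    · rw [one_div_le (by linarith) (dens_pos hW)]
      exact h8
    · linarith
    · calc 4 * X ^ δ ≤ X ^ (1 / 3 - δ) * X ^ δ := mul_le_mul_of_nonneg_right hb' (by positivity)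
        _ = X ^ (1 / 3 : ℝ) := by rw [← Real.rpow_add hX0]; congr 1; ring
    · calc 2 * X ^ (1 / 3 + d) ≤ X ^ (2 / 3 - d) * X ^ (1 / 3 + d) :=
            mul_le_mul_of_nonneg_right hc' (by positivity)
        _ = X := by
            rw [← Real.rpow_add hX0, show 2 / 3 - d + (1 / 3 + d) = 1 by ring, Real.rpow_one]

/-- **block 20c (EDGE).** -/
theorem edge_of {w : O → ℂ} {d δ η : ℝ} (hδ : 0 < δ) (hδ3 : δ < 1 / 3) (hη : 0 < η)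
    (hd0 : 0 < d) (hexp : (1 / 3 + d) * (2 + δ) < 5 / 6) (hw2 : ∀ c, ‖w c‖ ≤ 2)
    (hDN : DNHyp w δ) : EdgeHyp w d η := by
  obtain ⟨C₁, hC₁, hblk⟩ := block_le hDN hη
  obtain ⟨X0, _, hblk⟩ := hblk 10
  refine ⟨25 * Real.sqrt (4 * C₁) + 5 * Real.sqrt (6 * C₁), by positivity, ?_⟩
  intro W hW hWs A
  obtain ⟨C, hC, hblk⟩ := hblk W hW hWs (2 * A + 30)
  have hd12 : d < 1 / 12 := by nlinarith
  obtain ⟨X1, hX13, hX01, hthr⟩ := exists_threshold hW hδ3 hd12 hη X0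
  obtain ⟨C5, hC5, hlogp⟩ := log_pow_le_rpow (A + 4)
    (show 0 < 5 / 6 - (1 / 3 + d) * (2 + δ) by linarith)
  refine ⟨80 * Real.sqrt C + 192 * C5 + 32 * X1 ^ (6 + A), by positivity, ?_⟩
  intro X hX A₀ hA1 hA2 α β hα hαs hβ hβs x hx
  have hL := one_le_log hX
  have hX0 : 0 < X := by linarith
  have hX1pos : 0 < X1 := by linarith
  have hmain0 : 0 ≤ (25 * Real.sqrt (4 * C₁) + 5 * Real.sqrt (6 * C₁)) * Real.sqrt (dens W) *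
        Real.sqrt ((X / A₀) * (∑ a ∈ SPB (2 * A₀), ‖α a‖ ^ 2) *
        (∑ b ∈ SPB (X / A₀), ‖β b‖ ^ 2)) := by positivity
  have hR0 : 0 ≤ X ^ (5 / 6 : ℝ) / Real.log X ^ A := by positivity
  have eR : (80 * Real.sqrt C + 192 * C5 + 32 * X1 ^ (6 + A)) * X ^ (5 / 6 : ℝ) / Real.log X ^ A =
      80 * Real.sqrt C * X ^ (5 / 6 : ℝ) / Real.log X ^ A +
      192 * C5 * (X ^ (5 / 6 : ℝ) / Real.log X ^ A) +
      32 * X1 ^ (6 + A) * X ^ (5 / 6 : ℝ) / Real.log X ^ A := by ring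
  rw [eR]
  rcases le_or_gt X X1 with hXX | hXX
  · have h1 := edge_small A hX hXX hw2 hx hα.bound hβ
    have h2 : 0 ≤ 80 * Real.sqrt C * X ^ (5 / 6 : ℝ) / Real.log X ^ A := by positivity
    have h3 : 0 ≤ 192 * C5 * (X ^ (5 / 6 : ℝ) / Real.log X ^ A) := by positivity
    linarith
  rcases lt_or_ge x 0 with hx0 | hx0
  · have h1 : Bil w α β x = 0 := by
      rw [Bil, PB_eq_empty (by linarith), sum_empty]
    rw [h1, norm_zero]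
    positivity
  obtain ⟨t1, t2, t3, t4, t5, t6⟩ := hthr X hXX.le
  have hAlow : X ^ (1 / 3 : ℝ) ≤ 4 * A₀ := by linarith
  have hA8 : 2 * Real.log X ^ 8 ≤ A₀ := by linarith
  have hAge : 1 ≤ A₀ := by
    have : 1 ≤ Real.log X ^ 8 := one_le_pow₀ hL
    linarith
  have hA0 : 0 < A₀ := by linarith
  have hA3 : X ≤ 100 * A₀ ^ 3 := by
    have h1 : (X ^ (1 / 3 : ℝ)) ^ 3 = X := by
      rw [← Real.rpow_natCast, ← Real.rpow_mul hX0.le]; norm_num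
    have h2 : (X ^ (1 / 3 : ℝ)) ^ 3 ≤ (4 * A₀) ^ 3 := pow_le_pow_left₀ (by positivity) hAlow 3
    rw [h1] at h2
    have h3 : 0 < A₀ ^ 3 := by positivity
    nlinarith
  have hB : BlkAt w W δ η X C₁ C (2 * A + 30) 10 := by
    intro A₀' b1 b2 b3 y b4 b5 b6 ξ b7 b8 t h b9 b10 b11 b12 G b13 α' b14 b15 l
    exact hblk X A₀' (hX01.trans hXX.le) b1 b2 b3 y b4 b5 b6 ξ b7 b8 t h b9 b10 b11 b12 G b13 α'
      b14 b15 l
  have h1 := edge_large hC₁ hC hw2 hW hB hX t1 t2 t3 hA8 hAge (by linarith) (by linarith)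
    hA3 hx0 hx hα hαs hβ hβs
  have h2 : 192 * Real.log X ^ 4 * (A₀ * A₀ ^ (1 + δ)) ≤
      192 * C5 * (X ^ (5 / 6 : ℝ) / Real.log X ^ A) := by
    have e1 : A₀ * A₀ ^ (1 + δ) = A₀ ^ (2 + δ) := by
      conv_lhs => rw [← Real.rpow_one A₀, ← Real.rpow_mul hA0.le, one_mul, ← Real.rpow_add hA0]
      congr 1; ring
    have e2 : A₀ ^ (2 + δ) ≤ X ^ ((1 / 3 + d) * (2 + δ)) := by
      rw [Real.rpow_mul hX0.le]
      exact Real.rpow_le_rpow hA0.le hA2 (by linarith)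
    have e3 := hlogp X (by linarith)
    rw [e1, mul_div_assoc', le_div_iff₀ (by positivity)]
    calc 192 * Real.log X ^ 4 * A₀ ^ (2 + δ) * Real.log X ^ A =
          192 * Real.log X ^ (A + 4) * A₀ ^ (2 + δ) := by rw [pow_add]; ring
      _ ≤ 192 * (C5 * X ^ (5 / 6 - (1 / 3 + d) * (2 + δ))) * X ^ ((1 / 3 + d) * (2 + δ)) := by
          apply mul_le_mul _ e2 (by positivity) (by positivity)
          linarith
      _ = 192 * C5 * (X ^ (5 / 6 - (1 / 3 + d) * (2 + δ)) * X ^ ((1 / 3 + d) * (2 + δ))) := by ring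
      _ = 192 * C5 * X ^ (5 / 6 : ℝ) := by rw [← Real.rpow_add hX0]; congr 2; ring
  have h3 : 0 ≤ 32 * X1 ^ (6 + A) * X ^ (5 / 6 : ℝ) / Real.log X ^ A := by positivity
  linarith

end Vale.Agent.P006.SV
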