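import Vale.Agent.P006.SV.EdgeCell2

/-!
P006, block 20c (helper577): summation over the cells of the chain.
-/

namespace Vale.Agent.P006.SV

open Finset Vale.Agent.P006

/-! ### the geometric sum over the levels -/

theorem q_bounds : (1.18 : ℝ) ≤ 2 ^ (1 / 4 : ℝ) ∧ (2 : ℝ) ^ (1 / 4 : ℝ) ≤ 1.2 := by
  constructor
  · have h1 : (1.18 : ℝ) = ((1.18 : ℝ) ^ (4 : ℕ)) ^ (1 / 4 : ℝ) := by
      rw [← Real.rpow_natCast, ← Real.rpow_mul (by norm_num)]; norm_num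
    rw [h1]
    exact Real.rpow_le_rpow (by norm_num) (by norm_num) (by norm_num)
  · have h1 : (1.2 : ℝ) = ((1.2 : ℝ) ^ (4 : ℕ)) ^ (1 / 4 : ℝ) := by
      rw [← Real.rpow_natCast, ← Real.rpow_mul (by norm_num)]; norm_num
    rw [h1]
    exact Real.rpow_le_rpow (by norm_num) (by norm_num) (by norm_num)

theorem tele {q t r : ℝ} (hq1 : 1.18 ≤ q) (hq2 : q ≤ 1.2) (ht : 0 < t) (h1 : r ≤ t)
    (h2 : r ≤ 1 / t) : r ≤ 25 * (q * t / (1 + q * t) - t / (1 + t)) := by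
  have e : q * t / (1 + q * t) - t / (1 + t) = (q - 1) * t / ((1 + t) * (1 + q * t)) := by
    field_simp; ring
  rw [e, mul_div_assoc', le_div_iff₀ (by positivity)]
  rcases le_total t 1 with h | h
  · have h3 : (1 + t) * (1 + q * t) ≤ 2 * 2.2 := by
      apply mul_le_mul (by linarith) _ (by positivity) (by norm_num)
      nlinarith
    calc r * ((1 + t) * (1 + q * t)) ≤ t * ((1 + t) * (1 + q * t)) :=
          mul_le_mul_of_nonneg_right h1 (by positivity)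
      _ ≤ t * (2 * 2.2) := mul_le_mul_of_nonneg_left h3 ht.le
      _ ≤ 25 * ((q - 1) * t) := by nlinarith
  · have h3 : (1 + t) * (1 + q * t) ≤ (2 * t) * (2.2 * t) := by
      apply mul_le_mul (by linarith) _ (by positivity) (by positivity)
      nlinarith
    calc r * ((1 + t) * (1 + q * t)) ≤ 1 / t * ((1 + t) * (1 + q * t)) :=
          mul_le_mul_of_nonneg_right h2 (by positivity)
      _ ≤ 1 / t * ((2 * t) * (2.2 * t)) := mul_le_mul_of_nonneg_left h3 (by positivity)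
      _ = 4.4 * t := by field_simp; norm_num
      _ ≤ 25 * ((q - 1) * t) := by nlinarith

theorem rr_quarter_le {A₀ : ℝ} (h : 0 < A₀) (i : ℕ) :
    (rr A₀ i) ^ (1 / 4 : ℝ) ≤ (2 ^ i / A₀) ^ (1 / 4 : ℝ) ∧
    (rr A₀ i) ^ (1 / 4 : ℝ) ≤ 1 / (2 ^ i / A₀) ^ (1 / 4 : ℝ) := by
  have hr := rr_pos h i
  constructor
  · exact Real.rpow_le_rpow hr.le (min_le_left _ _) (by norm_num)
  · rw [one_div ((2 ^ i / A₀) ^ (1 / 4 : ℝ)), ← Real.inv_rpow (by positivity), inv_div]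
    exact Real.rpow_le_rpow hr.le (min_le_right _ _) (by norm_num)

theorem sum_rr_le {A₀ : ℝ} (h : 0 < A₀) (i J : ℕ) :
    ∑ j ∈ range J, (rr A₀ (i + j)) ^ (1 / 4 : ℝ) ≤ 25 := by
  set q : ℝ := 2 ^ (1 / 4 : ℝ) with hq
  obtain ⟨hq1, hq2⟩ := q_bounds
  set t : ℕ → ℝ := fun j => (2 ^ (i + j) / A₀) ^ (1 / 4 : ℝ) with ht
  have ht0 : ∀ j, 0 < t j := fun j => by simp only [ht]; positivity
  have ht1 : ∀ j, t (j + 1) = q * t j := by
    intro j
    simp only [ht]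
    rw [hq, ← Real.mul_rpow (by norm_num) (by positivity)]
    congr 1
    rw [← add_assoc, pow_succ]
    ring
  set g : ℕ → ℝ := fun j => t j / (1 + t j) with hg
  have h1 : ∀ j ∈ range J, (rr A₀ (i + j)) ^ (1 / 4 : ℝ) ≤ 25 * (g (j + 1) - g j) := by
    intro j _
    have h2 := rr_quarter_le h (i + j)
    simp only [hg, ht1]
    exact tele hq1 hq2 (ht0 j) h2.1 h2.2
  refine (sum_le_sum h1).trans ?_
  rw [← mul_sum, sum_range_sub]
  have h2 : g J ≤ 1 := by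
    simp only [hg]
    rw [div_le_one (by linarith [ht0 J])]
    linarith
  have h3 : 0 ≤ g 0 := by
    simp only [hg]
    have := ht0 0
    positivity
  linarith

/-! ### summation over the blocks of one level -/

theorem sum_fiber_le {ι : Type*} (T : Finset ι) (f : ι → ℕ) (v : ι → ℝ) (hv : ∀ b ∈ T, 0 ≤ v b)
    (M : Finset ℕ) : ∑ m ∈ M, ∑ b ∈ T with f b = m, v b ≤ ∑ b ∈ T, v b := by
  classical
  have h1 : ∑ m ∈ M, ∑ b ∈ T with f b = m, v b = ∑ b ∈ T with f b ∈ M, v b := by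
    rw [← sum_fiberwise_of_maps_to (s := T.filter (fun b => f b ∈ M)) (t := M) (g := f)
      (fun b hb => (mem_filter.1 hb).2)]
    apply sum_congr rfl
    intro m hm
    rw [filter_filter]
    apply sum_congr _ (fun _ _ => rfl)
    ext b
    simp only [mem_filter]
    constructor
    · rintro ⟨h2, h3⟩; exact ⟨h2, h3 ▸ hm, h3⟩
    · rintro ⟨h2, _, h3⟩; exact ⟨h2, h3⟩
  rw [h1]
  exact sum_le_sum_of_subset_of_nonneg (filter_subset _ _) (fun b hb _ => hv b hb)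

theorem sum_blk_le (α : O → ℂ) (S : Finset O) (i n : ℕ) :
    ∑ m ∈ range n, ∑ a ∈ S, ‖blk (2 ^ i * m) (2 ^ i * (m + 1)) α a‖ ^ 2 ≤
      ∑ a ∈ S, ‖α a‖ ^ 2 := by
  rw [sum_comm]
  apply sum_le_sum
  intro a _
  have h1 : ∀ m ∈ range n, ‖blk (2 ^ i * m) (2 ^ i * (m + 1)) α a‖ ^ 2 ≤
      if m = N a / 2 ^ i then ‖α a‖ ^ 2 else 0 := by
    intro m _
    by_cases h : N a / 2 ^ i = m
    · rw [blk_cell h, if_pos h.symm]
    · rw [blk_eq_zero h, if_neg (fun h2 => h h2.symm)]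
      simp
  refine (sum_le_sum h1).trans ?_
  rw [sum_ite_eq']
  split_ifs
  · exact le_rfl
  · positivity

/-- summation of the cell bounds -/
theorem cells_le (p r : ℕ → ℝ) (n : ℕ) {c e P R : ℝ} (hc : 0 ≤ c) (he : 0 ≤ e)
    (hp : ∀ m, 0 ≤ p m) (hr : ∀ m, 0 ≤ r m)
    (hP : ∑ m ∈ range n, p m ≤ P) (hR : ∑ m ∈ range n, r m ≤ R) :
    ∑ m ∈ range n, Real.sqrt (p m) * (c * Real.sqrt (r m) + e) ≤
      c * (Real.sqrt P * Real.sqrt R) + n * (Real.sqrt P * e) := by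
  have hP0 : 0 ≤ P := (sum_nonneg fun m _ => hp m).trans hP
  have h1 : ∑ m ∈ range n, Real.sqrt (p m) * Real.sqrt (r m) ≤ Real.sqrt P * Real.sqrt R := by
    have h2 := Finset.sum_mul_sq_le_sq_mul_sq (range n) (fun m => Real.sqrt (p m))
      (fun m => Real.sqrt (r m))
    simp only [Real.sq_sqrt (hp _), Real.sq_sqrt (hr _)] at h2
    rw [← Real.sqrt_mul hP0]
    apply Real.le_sqrt_of_sq_le
    refine h2.trans ?_
    exact mul_le_mul hP hR (sum_nonneg fun m _ => hr m) hP0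
  have h3 : ∀ m ∈ range n, Real.sqrt (p m) * e ≤ Real.sqrt P * e := by
    intro m hm
    apply mul_le_mul_of_nonneg_right _ he
    apply Real.sqrt_le_sqrt
    exact (single_le_sum (fun m _ => hp m) hm).trans hP
  calc ∑ m ∈ range n, Real.sqrt (p m) * (c * Real.sqrt (r m) + e) =
        c * ∑ m ∈ range n, Real.sqrt (p m) * Real.sqrt (r m) +
          ∑ m ∈ range n, Real.sqrt (p m) * e := by
        rw [mul_sum, ← sum_add_distrib]
        exact sum_congr rfl fun m _ => by ring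
    _ ≤ c * (Real.sqrt P * Real.sqrt R) + ∑ m ∈ range n, Real.sqrt P * e :=
        add_le_add (mul_le_mul_of_nonneg_left h1 hc) (sum_le_sum h3)
    _ = _ := by rw [sum_const, card_range, nsmul_eq_mul]

variable {w : O → ℂ} {W : O} {α : O → ℂ} {T : Finset O} {X A₀ x η δ L D C₁ E LL : ℝ}

/-- empty `a`-blocks -/
theorem filter_empty_of_big {i s : ℕ} (h : 2 * A₀ < 2 ^ i * s) :
    (SPB (2 * A₀)).filter (fun a => N a / 2 ^ i = s) = ∅ := by
  classical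
  rw [eq_empty_iff_forall_notMem]
  intro a ha
  rw [mem_filter, mem_SPB] at ha
  have h1 : 2 ^ i * s ≤ N a := by rw [← ha.2]; exact Nat.mul_div_le _ _
  have h2 : (2 : ℝ) ^ i * s ≤ N a := by exact_mod_cast h1
  linarith [ha.1.1.2]

/-- one coarse level -/
theorem Ctx.coarse_level (c : Ctx w W α T X A₀ x η δ L D C₁ E LL) (β : O → ℂ) {i Lv : ℕ}
    (hi : 1 ≤ i) (hbig : 2 * A₀ < 2 ^ i * (2 * LL - 1)) :
    ‖∑ s ∈ (range (2 ^ Lv)).filter (fun s => s % 2 = 0),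
      ∑ b ∈ T.filter (fun b => Yb x b / 2 ^ i = s + 1), β b *
      ∑ a ∈ (SPB (2 * A₀)).filter (fun a => N a / 2 ^ i = s), α a * w (a * b)‖ ≤
    Real.sqrt (2 * C₁ * (D + 1 / L) * (X / A₀)) * (rr A₀ i) ^ (1 / 4 : ℝ) *
      (Real.sqrt (∑ b ∈ T, ‖β b‖ ^ 2) * Real.sqrt (∑ a ∈ SPB (2 * A₀), ‖α a‖ ^ 2)) +
      2 * LL * (Real.sqrt (∑ b ∈ T, ‖β b‖ ^ 2) * Real.sqrt E) := by
  classical
  have hA0 : 0 < A₀ := by linarith [c.hA]
  have hX0 : 0 ≤ X := c.hx0.trans c.hx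
  have hD := c.hD
  have hC₁ := c.hC₁
  have hL := c.hL
  have hE := c.hE
  have hLL := c.hLL
  have hZ : 0 ≤ X / A₀ := by positivity
  have hr0 := rr_pos hA0 i
  have h2i := two_le_pow hi
  refine (norm_sum_le _ _).trans ?_
  set n := ⌊2 * LL⌋₊ with hn
  have hnle : (n : ℝ) ≤ 2 * LL := Nat.floor_le (by linarith)
  have hnlt : 2 * LL < n + 1 := Nat.lt_floor_add_one _
  -- only `s < n` contributes
  have h1 : ∀ s ∈ (range (2 ^ Lv)).filter (fun s => s % 2 = 0), s ∉ range n →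
      ‖∑ b ∈ T.filter (fun b => Yb x b / 2 ^ i = s + 1), β b *
      ∑ a ∈ (SPB (2 * A₀)).filter (fun a => N a / 2 ^ i = s), α a * w (a * b)‖ = 0 := by
    intro s _ hs
    rw [mem_range, not_lt] at hs
    have h2 : 2 * A₀ < 2 ^ i * s := by
      have : (n : ℝ) ≤ s := by exact_mod_cast hs
      have h3 : 2 * LL - 1 ≤ s := by linarith
      calc 2 * A₀ < 2 ^ i * (2 * LL - 1) := hbig
        _ ≤ 2 ^ i * s := mul_le_mul_of_nonneg_left h3 (by positivity)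
    rw [filter_empty_of_big h2]
    simp
  have h2 : ∑ s ∈ (range (2 ^ Lv)).filter (fun s => s % 2 = 0),
      ‖∑ b ∈ T.filter (fun b => Yb x b / 2 ^ i = s + 1), β b *
      ∑ a ∈ (SPB (2 * A₀)).filter (fun a => N a / 2 ^ i = s), α a * w (a * b)‖ ≤
      ∑ s ∈ range n, ‖∑ b ∈ T.filter (fun b => Yb x b / 2 ^ i = s + 1), β b *
      ∑ a ∈ (SPB (2 * A₀)).filter (fun a => N a / 2 ^ i = s), α a * w (a * b)‖ := by
    rw [← sum_filter_add_sum_filter_not ((range (2 ^ Lv)).filter (fun s => s % 2 = 0))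
      (fun s => s ∈ range n)]
    rw [sum_eq_zero (s := ((range (2 ^ Lv)).filter (fun s => s % 2 = 0)).filter
      (fun s => ¬ s ∈ range n)) (fun s hs => h1 s (mem_filter.1 hs).1 (mem_filter.1 hs).2),
      add_zero]
    apply sum_le_sum_of_subset_of_nonneg
    · intro s hs; exact (mem_filter.1 hs).2
    · intro _ _ _; exact norm_nonneg _
  refine h2.trans ?_
  have h3 : ∀ s ∈ range n, ‖∑ b ∈ T.filter (fun b => Yb x b / 2 ^ i = s + 1), β b *
      ∑ a ∈ (SPB (2 * A₀)).filter (fun a => N a / 2 ^ i = s), α a * w (a * b)‖ ≤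
      Real.sqrt (∑ b ∈ T.filter (fun b => Yb x b / 2 ^ i = s + 1), ‖β b‖ ^ 2) *
      (Real.sqrt (2 * C₁ * (D + 1 / L) * (X / A₀) * (rr A₀ i) ^ (1 / 2 : ℝ)) *
        Real.sqrt (∑ a ∈ SPB (2 * A₀), ‖blk (2 ^ i * s) (2 ^ i * (s + 1)) α a‖ ^ 2) +
        Real.sqrt E) := by
    intro s hs
    rw [mem_range] at hs
    apply c.coarse_cell β hi
    have : ((s + 1 : ℕ) : ℝ) ≤ n := by exact_mod_cast hs
    linarith
  refine (sum_le_sum h3).trans ?_
  have hPs : ∑ s ∈ range n, ∑ b ∈ T.filter (fun b => Yb x b / 2 ^ i = s + 1), ‖β b‖ ^ 2 ≤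
      ∑ b ∈ T, ‖β b‖ ^ 2 := by
    have h5 := sum_fiber_le T (fun b => Yb x b / 2 ^ i) (fun b => ‖β b‖ ^ 2)
      (fun _ _ => by positivity) ((range n).image (fun s => s + 1))
    rw [sum_image (fun a _ b _ h => by simpa using h)] at h5
    exact h5
  have h4 := cells_le (fun s => ∑ b ∈ T.filter (fun b => Yb x b / 2 ^ i = s + 1), ‖β b‖ ^ 2)
    (fun s => ∑ a ∈ SPB (2 * A₀), ‖blk (2 ^ i * s) (2 ^ i * (s + 1)) α a‖ ^ 2) n
    (c := Real.sqrt (2 * C₁ * (D + 1 / L) * (X / A₀) * (rr A₀ i) ^ (1 / 2 : ℝ)))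
    (e := Real.sqrt E) (Real.sqrt_nonneg _) (Real.sqrt_nonneg _)
    (fun _ => sum_nonneg fun _ _ => by positivity) (fun _ => sum_nonneg fun _ _ => by positivity)
    hPs (sum_blk_le α _ i n)
  refine h4.trans ?_
  have e1 : Real.sqrt (2 * C₁ * (D + 1 / L) * (X / A₀) * (rr A₀ i) ^ (1 / 2 : ℝ)) =
      Real.sqrt (2 * C₁ * (D + 1 / L) * (X / A₀)) * (rr A₀ i) ^ (1 / 4 : ℝ) := by
    rw [Real.sqrt_mul (by positivity)]
    congr 1
    rw [Real.sqrt_eq_rpow, ← Real.rpow_mul hr0.le]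
    norm_num
  rw [e1]
  apply add_le_add_right
  apply mul_le_mul_of_nonneg_right hnle (by positivity)

/-- the fine part: pairs in the same block of level `i` -/
theorem Ctx.fine_level (c : Ctx w W α T X A₀ x η δ L D C₁ E LL) (hD1 : D ≤ 1) (β : O → ℂ)
    {i Lv : ℕ} {Q : ℝ} (hi : 1 ≤ i) (hQ : 2 ≤ Q) (h2i : 2 ^ i * Q ≤ A₀)
    (hbig : 2 * A₀ < 2 ^ i * (2 * LL - 1)) (hLv : ∀ b ∈ T, Yb x b < 2 ^ Lv) :
    ‖∑ b ∈ T, β b * ∑ a ∈ (SPB (2 * A₀)).filter (fun a => N a / 2 ^ i = Yb x b / 2 ^ i ∧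
      N a < Yb x b), α a * w (a * b)‖ ≤
    Lv * Real.sqrt (6 * C₁ * (X / A₀) * Q ^ (-(1 / 2) : ℝ)) *
      (Real.sqrt (∑ b ∈ T, ‖β b‖ ^ 2) * Real.sqrt (∑ a ∈ SPB (2 * A₀), ‖α a‖ ^ 2)) +
      2 * LL * (Real.sqrt (∑ b ∈ T, ‖β b‖ ^ 2) * (Lv * Real.sqrt E)) := by
  classical
  have hA0 : 0 < A₀ := by linarith [c.hA]
  have hX0 : 0 ≤ X := c.hx0.trans c.hx
  have hC₁ := c.hC₁
  have hE := c.hE
  have hLL := c.hLL
  have hZ : 0 ≤ X / A₀ := by positivity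
  have h2i' := two_le_pow hi
  set n := ⌊2 * LL⌋₊ with hn
  have hnle : (n : ℝ) ≤ 2 * LL := Nat.floor_le (by linarith)
  have hnlt : 2 * LL < n + 1 := Nat.lt_floor_add_one _
  -- split according to the block of `Yb`
  have e1 : ∑ b ∈ T, β b * ∑ a ∈ (SPB (2 * A₀)).filter (fun a => N a / 2 ^ i = Yb x b / 2 ^ i ∧
      N a < Yb x b), α a * w (a * b) =
      ∑ m ∈ range (2 ^ Lv), ∑ b ∈ T.filter (fun b => Yb x b / 2 ^ i = m), β b *
      ∑ a ∈ (SPB (2 * A₀)).filter (fun a => N a / 2 ^ i = m ∧ N a < Yb x b), α a * w (a * b) := by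
    rw [← sum_fiberwise_of_maps_to (s := T) (t := range (2 ^ Lv)) (g := fun b => Yb x b / 2 ^ i)]
    · apply sum_congr rfl
      intro m _
      apply sum_congr rfl
      intro b hb
      rw [(mem_filter.1 hb).2]
    · intro b hb
      rw [mem_range]
      exact lt_of_le_of_lt (Nat.div_le_self _ _) (hLv b hb)
  rw [e1]
  refine (norm_sum_le _ _).trans ?_
  have h1 : ∀ m ∈ range (2 ^ Lv), m ∉ range n →
      ‖∑ b ∈ T.filter (fun b => Yb x b / 2 ^ i = m), β b *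
      ∑ a ∈ (SPB (2 * A₀)).filter (fun a => N a / 2 ^ i = m ∧ N a < Yb x b), α a * w (a * b)‖
        = 0 := by
    intro m _ hm
    rw [mem_range, not_lt] at hm
    have h2 : 2 * A₀ < 2 ^ i * m := by
      have : (n : ℝ) ≤ m := by exact_mod_cast hm
      have h3 : 2 * LL - 1 ≤ m := by linarith
      calc 2 * A₀ < 2 ^ i * (2 * LL - 1) := hbig
        _ ≤ 2 ^ i * m := mul_le_mul_of_nonneg_left h3 (by positivity)
    have h3 : ∀ b, (SPB (2 * A₀)).filter (fun a => N a / 2 ^ i = m ∧ N a < Yb x b) = ∅ := by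
      intro b
      rw [eq_empty_iff_forall_notMem]
      intro a ha
      rw [mem_filter] at ha
      have h4 : a ∈ (SPB (2 * A₀)).filter (fun a => N a / 2 ^ i = m) :=
        mem_filter.2 ⟨ha.1, ha.2.1⟩
      rw [filter_empty_of_big h2] at h4
      simp at h4
    simp [h3]
  have h2 : ∑ m ∈ range (2 ^ Lv),
      ‖∑ b ∈ T.filter (fun b => Yb x b / 2 ^ i = m), β b *
      ∑ a ∈ (SPB (2 * A₀)).filter (fun a => N a / 2 ^ i = m ∧ N a < Yb x b), α a * w (a * b)‖ ≤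
      ∑ m ∈ range n, ‖∑ b ∈ T.filter (fun b => Yb x b / 2 ^ i = m), β b *
      ∑ a ∈ (SPB (2 * A₀)).filter (fun a => N a / 2 ^ i = m ∧ N a < Yb x b),
        α a * w (a * b)‖ := by
    rw [← sum_filter_add_sum_filter_not (range (2 ^ Lv)) (fun m => m ∈ range n)]
    rw [sum_eq_zero (s := (range (2 ^ Lv)).filter (fun m => ¬ m ∈ range n))
      (fun s hs => h1 s (mem_filter.1 hs).1 (mem_filter.1 hs).2), add_zero]
    apply sum_le_sum_of_subset_of_nonneg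
    · intro s hs; exact (mem_filter.1 hs).2
    · intro _ _ _; exact norm_nonneg _
  refine h2.trans ?_
  have h3 : ∀ m ∈ range n, ‖∑ b ∈ T.filter (fun b => Yb x b / 2 ^ i = m), β b *
      ∑ a ∈ (SPB (2 * A₀)).filter (fun a => N a / 2 ^ i = m ∧ N a < Yb x b),
        α a * w (a * b)‖ ≤
      Real.sqrt (∑ b ∈ T.filter (fun b => Yb x b / 2 ^ i = m), ‖β b‖ ^ 2) *
      ((Lv * Real.sqrt (6 * C₁ * (X / A₀) * Q ^ (-(1 / 2) : ℝ))) *
        Real.sqrt (∑ a ∈ SPB (2 * A₀), ‖blk (2 ^ i * m) (2 ^ i * (m + 1)) α a‖ ^ 2) +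
        Lv * Real.sqrt E) := by
    intro m hm
    rw [mem_range] at hm
    have h4 : (m : ℝ) ≤ 2 * LL := by
      have : (m : ℝ) ≤ n := by exact_mod_cast hm.le
      linarith
    refine (c.fine_cell hD1 β hi hQ h2i h4 hLv).trans (le_of_eq ?_)
    ring
  refine (sum_le_sum h3).trans ?_
  have h4 := cells_le (fun m => ∑ b ∈ T.filter (fun b => Yb x b / 2 ^ i = m), ‖β b‖ ^ 2)
    (fun s => ∑ a ∈ SPB (2 * A₀), ‖blk (2 ^ i * s) (2 ^ i * (s + 1)) α a‖ ^ 2) n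
    (c := Lv * Real.sqrt (6 * C₁ * (X / A₀) * Q ^ (-(1 / 2) : ℝ)))
    (e := Lv * Real.sqrt E) (by positivity) (by positivity)
    (fun _ => sum_nonneg fun _ _ => by positivity) (fun _ => sum_nonneg fun _ _ => by positivity)
    (sum_fiber_le T (fun b => Yb x b / 2 ^ i) (fun b => ‖β b‖ ^ 2)
      (fun _ _ => by positivity) (range n)) (sum_blk_le α _ i n)
  refine h4.trans ?_
  apply add_le_add_right
  apply mul_le_mul_of_nonneg_right hnle (by positivity)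

/-- the coarse part -/
theorem Ctx.coarse_part (c : Ctx w W α T X A₀ x η δ L D C₁ E LL) (β : O → ℂ) {i Lv : ℕ}
    (hi : 1 ≤ i) (hbig : 2 * A₀ < 2 ^ i * (2 * LL - 1)) (hLv : ∀ b ∈ T, Yb x b < 2 ^ Lv) :
    ‖∑ b ∈ T, ∑ a ∈ (SPB (2 * A₀)).filter (fun a => N a / 2 ^ i < Yb x b / 2 ^ i),
      β b * (α a * w (a * b))‖ ≤
    25 * Real.sqrt (2 * C₁ * (D + 1 / L) * (X / A₀)) *
      (Real.sqrt (∑ b ∈ T, ‖β b‖ ^ 2) * Real.sqrt (∑ a ∈ SPB (2 * A₀), ‖α a‖ ^ 2)) +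
      Lv * (2 * LL * (Real.sqrt (∑ b ∈ T, ‖β b‖ ^ 2) * Real.sqrt E)) := by
  classical
  have hA0 : 0 < A₀ := by linarith [c.hA]
  have hLL := c.hLL
  have e1 := H611.chain_blocks (SPB (2 * A₀)) T (fun a => N a / 2 ^ i) (fun b => Yb x b / 2 ^ i)
    (fun a b => β b * (α a * w (a * b))) (L := Lv)
    (fun b hb => lt_of_le_of_lt (Nat.div_le_self _ _) (hLv b hb))
  rw [e1]
  refine (norm_sum_le _ _).trans ?_
  have h1 : ∀ j ∈ range Lv, ‖∑ s ∈ (range (2 ^ Lv)).filter (fun s => s % 2 = 0),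
      ∑ b ∈ T.filter (fun b => Yb x b / 2 ^ i / 2 ^ j = s + 1),
      ∑ a ∈ (SPB (2 * A₀)).filter (fun a => N a / 2 ^ i / 2 ^ j = s),
        β b * (α a * w (a * b))‖ ≤
      Real.sqrt (2 * C₁ * (D + 1 / L) * (X / A₀)) * (rr A₀ (i + j)) ^ (1 / 4 : ℝ) *
      (Real.sqrt (∑ b ∈ T, ‖β b‖ ^ 2) * Real.sqrt (∑ a ∈ SPB (2 * A₀), ‖α a‖ ^ 2)) +
      2 * LL * (Real.sqrt (∑ b ∈ T, ‖β b‖ ^ 2) * Real.sqrt E) := by
    intro j _
    have h2 := c.coarse_level β (i := i + j) (Lv := Lv) (by omega) (by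
      have h3 : (2 : ℝ) ^ i ≤ 2 ^ (i + j) := pow_le_pow_right₀ (by norm_num) (by omega)
      have h4 : 0 ≤ 2 * LL - 1 := by linarith
      exact hbig.trans_le (mul_le_mul_of_nonneg_right h3 h4))
    refine le_trans (le_of_eq ?_) h2
    congr 1
    apply sum_congr rfl
    intro s _
    simp only [Nat.div_div_eq_div_mul, ← pow_add]
    apply sum_congr rfl
    intro b _
    rw [mul_sum]
  refine (sum_le_sum h1).trans ?_
  rw [sum_add_distrib, sum_const, card_range, nsmul_eq_mul, ← sum_mul, ← mul_sum]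
  apply add_le_add_left
  apply mul_le_mul_of_nonneg_right _ (by positivity)
  rw [mul_comm (25 : ℝ)]
  exact mul_le_mul_of_nonneg_left (sum_rr_le hA0 i Lv) (Real.sqrt_nonneg _)

/-- **the bilinear sum over `T` with the coupling `N a < Yb b`** -/
theorem Ctx.total (c : Ctx w W α T X A₀ x η δ L D C₁ E LL) (hD1 : D ≤ 1) (β : O → ℂ)
    {i Lv : ℕ} {Q : ℝ} (hi : 1 ≤ i) (hQ : 2 ≤ Q) (h2i : 2 ^ i * Q ≤ A₀)
    (hbig : 2 * A₀ < 2 ^ i * (2 * LL - 1)) (hLv : ∀ b ∈ T, Yb x b < 2 ^ Lv) :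
    ‖∑ b ∈ T, β b * ∑ a ∈ (SPB (2 * A₀)).filter (fun a => N a < Yb x b), α a * w (a * b)‖ ≤
    (25 * Real.sqrt (2 * C₁ * (D + 1 / L) * (X / A₀)) +
      Lv * Real.sqrt (6 * C₁ * (X / A₀) * Q ^ (-(1 / 2) : ℝ))) *
      (Real.sqrt (∑ b ∈ T, ‖β b‖ ^ 2) * Real.sqrt (∑ a ∈ SPB (2 * A₀), ‖α a‖ ^ 2)) +
      4 * Lv * LL * (Real.sqrt (∑ b ∈ T, ‖β b‖ ^ 2) * Real.sqrt E) := by
  classical
  have e1 : ∑ b ∈ T, β b * ∑ a ∈ (SPB (2 * A₀)).filter (fun a => N a < Yb x b), α a * w (a * b) =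
      ∑ b ∈ T, ∑ a ∈ (SPB (2 * A₀)).filter (fun a => N a / 2 ^ i < Yb x b / 2 ^ i),
        β b * (α a * w (a * b)) +
      ∑ b ∈ T, β b * ∑ a ∈ (SPB (2 * A₀)).filter (fun a => N a / 2 ^ i = Yb x b / 2 ^ i ∧
        N a < Yb x b), α a * w (a * b) := by
    rw [← sum_add_distrib]
    apply sum_congr rfl
    intro b _
    rw [← mul_sum, ← mul_add]
    congr 1
    rw [sum_filter, sum_filter, sum_filter, ← sum_add_distrib]
    apply sum_congr rfl
    intro a _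
    by_cases h1 : N a / 2 ^ i < Yb x b / 2 ^ i
    · have h2 : N a < Yb x b := by
        by_contra h3
        exact absurd (Nat.div_le_div_right (c := 2 ^ i) (not_lt.1 h3)) (not_le.2 h1)
      rw [if_pos h1, if_pos h2, if_neg (fun h => absurd h.1 h1.ne), add_zero]
    · by_cases h2 : N a < Yb x b
      · have h3 : N a / 2 ^ i = Yb x b / 2 ^ i :=
          le_antisymm (Nat.div_le_div_right h2.le) (not_lt.1 h1)
        rw [if_neg h1, if_pos h2, if_pos ⟨h3, h2⟩, zero_add]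
      · rw [if_neg h1, if_neg h2, if_neg (fun h => h2 h.2), zero_add]
  rw [e1]
  have h1 := c.coarse_part β hi hbig hLv
  have h2 := c.fine_level hD1 β hi hQ h2i hbig hLv
  refine (norm_add_le _ _).trans ((add_le_add h1 h2).trans (le_of_eq ?_))
  ring

end Vale.Agent.P006.SV
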