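import Vale.Agent.P006.H845.Order
import Vale.Agent.P006.SV.Comb

/-!
P006, block SV: squarefree primary elements as products over finite sets of primary primes,
reindexing of divisor sums.
-/

namespace Vale.Agent.P006.SV

open Finset Vale.Agent.P006

/-- the product of a finite set of elements of `O` -/
def prodF (s : Finset O) : O := ∏ p ∈ s, p

@[simp] theorem prodF_empty : prodF ∅ = 1 := by simp [prodF]

theorem prodF_insert {s : Finset O} {p : O} (h : p ∉ s) : prodF (insert p s) = p * prodF s := by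
  rw [prodF, prod_insert h]; rfl

/-- a finite set of primary primes -/
def PPset (s : Finset O) : Prop := ∀ p ∈ s, Primary p ∧ Prime p

theorem PPset.subset {s t : Finset O} (h : PPset t) (hst : s ⊆ t) : PPset s :=
  fun p hp => h p (hst hp)

theorem ppset_pdv {c : O} (hc : c ≠ 0) : PPset (pdv c) := by
  intro p hp
  rw [mem_pdv hc] at hp
  exact ⟨hp.1, hp.2.1⟩

theorem PPset.primary {s : Finset O} (h : PPset s) : Primary (prodF s) := by
  induction s using Finset.induction_on with
  | empty => rw [prodF_empty]; exact primary_one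
  | insert p s hp ih =>
    rw [prodF_insert hp]
    exact (h p (mem_insert_self _ _)).1.mul (ih (h.subset (subset_insert _ _)))

theorem PPset.pdv {s : Finset O} (h : PPset s) : Vale.Agent.P006.pdv (prodF s) = s := by
  induction s using Finset.induction_on with
  | empty => rw [prodF_empty, pdv_one]
  | insert p s hp ih =>
    have h1 := h p (mem_insert_self _ _)
    have h2 := h.subset (subset_insert p s)
    rw [prodF_insert hp, pdv_mul h1.1 h2.primary, pdv_prime h1.2 h1.1, ih h2]
    rfl

theorem PPset.squarefree {s : Finset O} (h : PPset s) : Squarefree (prodF s) := by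
  induction s using Finset.induction_on with
  | empty => rw [prodF_empty]; exact squarefree_one
  | insert p s hp ih =>
    have h1 := h p (mem_insert_self _ _)
    have h2 := h.subset (subset_insert p s)
    rw [prodF_insert hp]
    refine squarefree_prime_mul h1.2 (ih h2) ?_
    intro hd
    have h3 : p ∈ Vale.Agent.P006.pdv (prodF s) := (mem_pdv h2.primary.ne_zero).2 ⟨h1.1, h1.2, hd⟩
    rw [h2.pdv] at h3
    exact hp h3

theorem prodF_dvd {s t : Finset O} (h : s ⊆ t) : prodF s ∣ prodF t :=
  prod_dvd_prod_of_subset _ _ _ h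

/-- a squarefree primary element is the product of its primary prime divisors -/
theorem prodF_pdv {c : O} (hc : Primary c) (hs : Squarefree c) : prodF (pdv c) = c := by
  revert hs
  revert c
  refine fun {c} hc => Primary.induction (P := fun c => Squarefree c → prodF (pdv c) = c)
    ?_ ?_ c hc
  · intro _; rw [pdv_one, prodF_empty]
  · intro p b hp hpp hb ih hs
    have h1 : Squarefree b := hs.squarefree_of_dvd (dvd_mul_left _ _)
    have h2 : ¬ p ∣ b := by
      intro h
      exact hp.not_isUnit (hs p (mul_dvd_mul_left _ h))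
    have h3 : p ∉ pdv b := fun h => h2 ((mem_pdv hb.ne_zero).1 h).2.2
    rw [pdv_mul hpp hb, pdv_prime hp hpp]
    have h4 : ({p} : Finset O) ∪ pdv b = insert p (pdv b) := rfl
    rw [h4, prodF_insert h3, ih h1]

/-- divisor sums of squarefree elements are sums over subsets of the set of primes -/
theorem sum_dvs_eq {M : Type*} [AddCommMonoid M] {c : O} (hc : Primary c) (hs : Squarefree c)
    (F : O → M) : ∑ d ∈ dvs c, F d = ∑ s ∈ (pdv c).powerset, F (prodF s) := by
  symm
  refine sum_bij (fun s _ => prodF s) ?_ ?_ ?_ ?_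
  · intro s hsub
    rw [mem_powerset] at hsub
    rw [mem_dvs hc.ne_zero]
    refine ⟨((ppset_pdv hc.ne_zero).subset hsub).primary, ?_⟩
    conv_rhs => rw [← prodF_pdv hc hs]
    exact prodF_dvd hsub
  · intro s hs1 t ht h
    rw [mem_powerset] at hs1 ht
    have h1 := ((ppset_pdv hc.ne_zero).subset hs1).pdv
    have h2 := ((ppset_pdv hc.ne_zero).subset ht).pdv
    have h' : prodF s = prodF t := h
    rw [← h1, ← h2, h']
  · intro d hd
    rw [mem_dvs hc.ne_zero] at hd
    refine ⟨pdv d, ?_, prodF_pdv hd.1 (hs.squarefree_of_dvd hd.2)⟩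
    rw [mem_powerset]
    exact pdv_of_dvd hc.ne_zero hd.2
  · intro s _; rfl

/-- **Dirichlet reindexing.** -/
theorem sum_pairs {M : Type*} [AddCommMonoid M] (x : ℝ) (F : O → O → M) :
    ∑ a ∈ PB x, ∑ b ∈ (PB x).filter (fun b => (N (a * b) : ℝ) ≤ x), F (a * b) a =
      ∑ c ∈ PB x, ∑ a ∈ dvs c, F c a := by
  rw [sum_sigma', sum_sigma']
  refine sum_bij (fun p _ => (⟨p.1 * p.2, p.1⟩ : Σ _ : O, O)) ?_ ?_ ?_ ?_
  · rintro ⟨a, b⟩ h
    simp only [mem_sigma, mem_filter, mem_PB] at h
    obtain ⟨⟨h1, h2⟩, ⟨h3, h4⟩, h5⟩ := h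
    simp only [mem_sigma, mem_PB]
    exact ⟨⟨h1.mul h3, h5⟩, (mem_dvs (h1.mul h3).ne_zero).2 ⟨h1, dvd_mul_right _ _⟩⟩
  · rintro ⟨a, b⟩ h ⟨a', b'⟩ h' he
    simp only [mem_sigma, mem_filter, mem_PB] at h h'
    simp only [Sigma.mk.injEq, heq_eq_eq] at he
    obtain ⟨he1, rfl⟩ := he
    have := mul_left_cancel₀ h.1.1.ne_zero he1
    rw [this]
  · rintro ⟨c, a⟩ h
    simp only [mem_sigma, mem_PB] at h
    obtain ⟨⟨h1, h2⟩, h3⟩ := h
    rw [mem_dvs h1.ne_zero] at h3
    obtain ⟨h4, b, rfl⟩ := h3
    have h5 : Primary b := h4.of_mul h1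
    have h6 : (N a : ℝ) ≤ N (a * b) := by
      rw [N_mul, Nat.cast_mul]
      exact le_mul_of_one_le_right (by positivity) h5.one_le_N'
    have h7 : (N b : ℝ) ≤ N (a * b) := by
      rw [N_mul, Nat.cast_mul]
      exact le_mul_of_one_le_left (by positivity) h4.one_le_N'
    refine ⟨⟨a, b⟩, ?_, rfl⟩
    simp only [mem_sigma, mem_filter, mem_PB]
    exact ⟨⟨h4, h6.trans h2⟩, ⟨h5, h7.trans h2⟩, h2⟩
  · rintro ⟨a, b⟩ _; rfl

end Vale.Agent.P006.SV
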