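import Vale.Agent.P006.SV.AlClass
import Vale.Agent.P006.SV.Sep
import Vale.Agent.P006.H845.Sums

/-!
P006, block 20b (helper577): the rough Type I estimate from the sharp Type I estimate and the
interior Type II estimate.
-/

namespace Vale.Agent.P006.SV

open Finset Vale.Agent.P006

/-- sharp Type I estimate with level of distribution `1/3 + δ` -/
def T1SHyp (w : O → ℂ) (δ : ℝ) : Prop :=
  ∃ C : ℝ, 0 ≤ C ∧ ∀ X : ℝ, 1 ≤ X →
    ∑ m ∈ PB (X ^ (1 / 3 + δ)), ‖∑ c ∈ (PB X).filter (m ∣ ·), w c‖ ≤ C * X ^ (5 / 6 - δ)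

/-- interior Type II, no roughness condition -/
def TIIGen (w : O → ℂ) (d κ : ℝ) : Prop :=
  ∀ A : ℕ, ∃ C : ℝ, 0 ≤ C ∧ ∀ X : ℝ, 3 ≤ X → ∀ G : ℝ, 1 ≤ G → ∀ α β : O → ℂ, ClassG α X G →
    (∀ a, α a ≠ 0 → X ^ (1 / 3 + d) < (N a : ℝ) ∧ (N a : ℝ) ≤ X ^ (1 / 2 - κ)) →
    (∀ b, ‖β b‖ ≤ 1) → (∀ b, β b ≠ 0 → Primary b ∧ Squarefree b) →
    ∀ x : ℝ, X / 2 ≤ x → x ≤ X → ‖Bil w α β x‖ ≤ C * G * X ^ (5 / 6 : ℝ) / Real.log X ^ A

/-- rough Type I for coefficients in `ClassG` -/
def TRG (w : O → ℂ) (d η : ℝ) : Prop :=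
  ∀ A : ℕ, ∃ C : ℝ, 0 ≤ C ∧ ∀ X : ℝ, 3 ≤ X → ∀ G : ℝ, 1 ≤ G → ∀ c : O → ℂ, ClassG c X G →
    ∀ x : ℝ, X / 2 ≤ x → x ≤ X →
      ‖Bil w (cut (X ^ η) 0 (X ^ (1 / 3 + d)) c) (cut (X ^ η) 0 X 1) x‖
        ≤ C * G * X ^ (5 / 6 : ℝ) / Real.log X ^ A

theorem mem_PB_div {x : ℝ} {a b : O} (ha : Primary a) :
    b ∈ PB (x / N a) ↔ b ∈ (PB x).filter (fun b => (N (a * b) : ℝ) ≤ x) := by
  have hN : (0 : ℝ) < N a := by exact_mod_cast N_pos ha.ne_zero
  rw [mem_PB, mem_filter, mem_PB, le_div_iff₀ hN, N_mul, Nat.cast_mul, mul_comm (N a : ℝ)]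
  constructor
  · rintro ⟨h1, h2⟩
    refine ⟨⟨h1, ?_⟩, h2⟩
    exact (le_mul_of_one_le_right (by positivity) ha.one_le_N').trans h2
  · rintro ⟨⟨h1, _⟩, h2⟩
    exact ⟨h1, h2⟩

theorem Bil_eq (w α β : O → ℂ) (x : ℝ) :
    Bil w α β x = bsum x (fun a b => α a * (β b * w (a * b))) := by
  rw [Bil, bsum]
  apply sum_congr rfl
  intro a ha
  rw [mem_PB] at ha
  rw [mul_sum]
  apply sum_congr _ (fun _ _ => rfl)
  ext b
  exact mem_PB_div ha.1

/-- the rank of a prime among the primes of norm at most `x` -/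
noncomputable def rk (x : ℝ) (p : O) : ℕ := ((PP x).filter (fun q => key q < key p)).card

theorem rk_lt_card {x : ℝ} {p : O} (hp : p ∈ PP x) : rk x p < (PP x).card := by
  apply card_lt_card
  refine ⟨filter_subset _ _, fun h => ?_⟩
  have := h hp
  rw [mem_filter] at this
  exact lt_irrefl _ this.2

theorem rk_mono {x : ℝ} {p q : O} (h : key p ≤ key q) : rk x p ≤ rk x q := by
  apply card_le_card
  intro r hr
  rw [mem_filter] at *
  exact ⟨hr.1, hr.2.trans_le h⟩

theorem rk_lt_iff {x : ℝ} {p q : O} (hp : p ∈ PP x) : rk x p < rk x q ↔ key p < key q := by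
  constructor
  · intro h
    by_contra h1
    exact absurd (rk_mono (x := x) (not_lt.1 h1)) (not_le.2 h)
  · intro h
    apply card_lt_card
    refine ⟨?_, fun h2 => ?_⟩
    · intro r hr
      rw [mem_filter] at *
      exact ⟨hr.1, hr.2.trans h⟩
    · have := h2 (mem_filter.2 ⟨hp, h⟩)
      rw [mem_filter] at this
      exact lt_irrefl _ this.2

/-- the rank of the smallest prime factor of `b` (the number of primes for `b = 1`) -/
noncomputable def rkb (x : ℝ) (b : O) : ℕ := if b = 1 then (PP x).card else rk x (Pmin b)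

theorem Pmin_mem_PP {x : ℝ} {a : O} (ha : a ∈ PB x) (h1 : a ≠ 1) : Pmin a ∈ PP x := by
  rw [mem_PB] at ha
  rw [mem_PP]
  refine ⟨⟨Pmin_primary ha.1 h1, ?_⟩, Pmin_prime ha.1 h1⟩
  have h2 : N (Pmin a) ≤ N a :=
    Nat.le_of_dvd (N_pos ha.1.ne_zero) (N_dvd_N (Pmin_dvd ha.1 h1))
  exact le_trans (by exact_mod_cast h2) ha.2

theorem coupling_iff {x : ℝ} {a b : O} (ha : a ∈ PB x) (ha1 : a ≠ 1) (hb : b ∈ PB x) :
    (∀ q ∈ pdv b, key (Pmin a) < key q) ↔ rk x (Pmin a) < rkb x b := by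
  have h1 := Pmin_mem_PP ha ha1
  rw [rkb]
  split_ifs with hb1
  · rw [hb1, pdv_one]
    simp only [notMem_empty, false_implies, implies_true, true_iff]
    exact rk_lt_card h1
  · rw [rk_lt_iff h1]
    constructor
    · intro h
      exact h _ (Pmin_mem (mem_PB.1 hb).1 hb1)
    · intro h q hq
      exact h.trans_le (key_Pmin_le hq)

theorem one_le_X_rpow {X e : ℝ} (hX : 1 ≤ X) (he : 0 ≤ e) : 1 ≤ X ^ e :=
  Real.one_le_rpow hX he

/-- the unsifted Type I part -/
theorem typeI_part {w cf : O → ℂ} {z Y x G : ℝ} (hcf : ∀ a, ‖cf a‖ ≤ G) :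
    ‖bsum x (fun m n => (if (N m : ℝ) ≤ Y then lamO z cf m else 0) * w (m * n))‖ ≤
      G * ∑ m ∈ PB Y, ‖∑ c ∈ (PB x).filter (m ∣ ·), w c‖ := by
  have hG : 0 ≤ G := (norm_nonneg _).trans (hcf 1)
  rw [bsum]
  refine (norm_sum_le _ _).trans ?_
  have h1 : ∀ m ∈ PB x, ‖∑ n ∈ (PB x).filter (fun b => (N (m * b) : ℝ) ≤ x),
      (if (N m : ℝ) ≤ Y then lamO z cf m else 0) * w (m * n)‖ ≤
      if (N m : ℝ) ≤ Y then G * ‖∑ c ∈ (PB x).filter (m ∣ ·), w c‖ else 0 := by
    intro m hm
    rw [mem_PB] at hm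
    have h2 : (PB x).filter (fun b => (N (m * b) : ℝ) ≤ x) = PB (x / N m) := by
      ext b; exact (mem_PB_div hm.1).symm
    rw [h2, ← mul_sum, ← sum_multiples_PB x hm.1 w, norm_mul]
    split_ifs
    · exact mul_le_mul_of_nonneg_right (norm_lamO_le hcf m) (norm_nonneg _)
    · simp
  refine (sum_le_sum h1).trans ?_
  rw [← sum_filter, mul_sum]
  apply sum_le_sum_of_subset_of_nonneg
  · intro m hm
    rw [mem_filter, mem_PB] at hm
    rw [mem_PB]
    exact ⟨hm.1.1, hm.2⟩
  · intro m _ _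
    exact mul_nonneg hG (norm_nonneg _)

/-- the Type II part, separated -/
theorem typeII_part {w cf : O → ℂ} {z Y x T : ℝ} (L : ℕ) (hL : (PP x).card < 2 ^ L)
    (hw : ∀ c, ¬ Squarefree c → w c = 0)
    (hT : ∀ f : O → ℂ, ∀ β : O → ℂ, (∀ p, ‖f p‖ ≤ 1) → (∀ b, ‖β b‖ ≤ 1) →
      (∀ b, β b ≠ 0 → Primary b ∧ Squarefree b) →
      ‖Bil w (fun a => alO z Y cf a * f (Pmin a)) β x‖ ≤ T) :
    ‖bsum x (fun a b => alO z Y cf a *
        (if ∀ q ∈ pdv b, key (Pmin a) < key q then w (a * b) else 0))‖ ≤ L * T := by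
  classical
  have hrk : ∀ p, rk x p < 2 ^ L := fun p => lt_of_le_of_lt (card_le_card (filter_subset _ _)) hL
  have hrkb : ∀ b, rkb x b < 2 ^ L := by
    intro b
    rw [rkb]
    split_ifs
    · exact hL
    · exact hrk _
  have hsep := sep ((PB x).sigma (fun a => (PB x).filter (fun b => (N (a * b) : ℝ) ≤ x)))
    (fun s => alO z Y cf s.1 * w (s.1 * s.2)) T L (fun s => rk x (Pmin s.1)) (fun s => rkb x s.2)
    (fun s _ => ⟨hrk _, hrkb _⟩) ?_
  · have h1 : bsum x (fun a b => alO z Y cf a *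
        (if ∀ q ∈ pdv b, key (Pmin a) < key q then w (a * b) else 0)) =
        ∑ s ∈ (PB x).sigma (fun a => (PB x).filter (fun b => (N (a * b) : ℝ) ≤ x)),
          if rk x (Pmin s.1) < rkb x s.2 then alO z Y cf s.1 * w (s.1 * s.2) else 0 := by
      rw [bsum, sum_sigma']
      apply sum_congr rfl
      rintro ⟨a, b⟩ hs
      rw [mem_sigma, mem_filter] at hs
      show alO z Y cf a * (if ∀ q ∈ pdv b, key (Pmin a) < key q then w (a * b) else 0) =
        if rk x (Pmin a) < rkb x b then alO z Y cf a * w (a * b) else 0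
      by_cases h0 : alO z Y cf a = 0
      · rw [h0]; simp
      have h2 : a ≠ 1 := by
        rw [alO] at h0
        split_ifs at h0 with h3
        · exact h3.2.2.1
        · exact absurd rfl h0
      rw [if_congr (coupling_iff hs.1 h2 hs.2.1) rfl rfl]
      split_ifs <;> simp
    rw [h1]
    exact hsep
  · intro u v hu hv
    have h1 := hT (fun p => u (rk x p))
      (fun b => if Primary b ∧ Squarefree b then v (rkb x b) else 0) (fun p => hu _) ?_ ?_
    · refine le_of_eq_of_le ?_ h1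
      congr 1
      rw [Bil_eq, bsum, sum_sigma']
      apply sum_congr rfl
      rintro ⟨a, b⟩ hs
      rw [mem_sigma, mem_filter, mem_PB, mem_PB] at hs
      show alO z Y cf a * w (a * b) * (u (rk x (Pmin a)) * v (rkb x b)) =
        alO z Y cf a * u (rk x (Pmin a)) *
          ((if Primary b ∧ Squarefree b then v (rkb x b) else 0) * w (a * b))
      by_cases hb : Squarefree b
      · rw [if_pos ⟨hs.2.1.1, hb⟩]; ring
      · rw [hw (a * b) (fun h => hb (h.squarefree_of_dvd (dvd_mul_left _ _)))]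
        simp
    · intro b
      show ‖if Primary b ∧ Squarefree b then v (rkb x b) else 0‖ ≤ 1
      split_ifs
      · exact hv _
      · simp
    · intro b hb
      by_contra h
      exact hb (if_neg h)

theorem log_pow_le_rpow (A : ℕ) {δ : ℝ} (hδ : 0 < δ) :
    ∃ C : ℝ, 0 < C ∧ ∀ X : ℝ, 1 ≤ X → Real.log X ^ A ≤ C * X ^ δ := by
  set ε : ℝ := δ / (A + 1) with hε
  have hε0 : 0 < ε := by positivity
  refine ⟨(1 / ε) ^ A, by positivity, ?_⟩
  intro X hX
  have h1 : Real.log X ≤ X ^ ε / ε := Real.log_le_rpow_div (by linarith) hε0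
  have h2 : 0 ≤ Real.log X := Real.log_nonneg hX
  calc Real.log X ^ A ≤ (X ^ ε / ε) ^ A := pow_le_pow_left₀ h2 h1 A
    _ = (1 / ε) ^ A * (X ^ ε) ^ A := by rw [div_eq_mul_one_div, mul_pow, mul_comm]
    _ = (1 / ε) ^ A * X ^ (ε * A) := by rw [← Real.rpow_natCast (X ^ ε), ← Real.rpow_mul (by linarith)]
    _ ≤ (1 / ε) ^ A * X ^ δ := by
        apply mul_le_mul_of_nonneg_left _ (by positivity)
        apply Real.rpow_le_rpow_of_exponent_le hX
        rw [hε, div_mul_eq_mul_div, div_le_iff₀ (by positivity)]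
        nlinarith

open Classical in
theorem natLog_card_le {X x : ℝ} (hX : 3 ≤ X) (hx0 : 0 ≤ x) (hx : x ≤ X) :
    ((Nat.log 2 (PP x).card + 1 : ℕ) : ℝ) ≤ 5 * Real.log X := by
  have hlog : 1 ≤ Real.log X := by
    rw [Real.le_log_iff_exp_le (by linarith)]
    linarith [Real.exp_one_lt_d9]
  have hl2 : 0.6931471803 < Real.log 2 := Real.log_two_gt_d9
  have hl2' : Real.log 2 < 0.6931471808 := Real.log_two_lt_d9
  push_cast
  by_cases h0 : (PP x).card = 0
  · rw [h0]; simp; linarith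
  have h1 : ((Nat.log 2 (PP x).card : ℕ) : ℝ) ≤ Real.logb 2 (PP x).card := by
    have := Real.natLog_le_logb (PP x).card 2
    exact_mod_cast this
  have h2 : ((PP x).card : ℝ) ≤ 4 * X := by
    calc ((PP x).card : ℝ) ≤ (PB x).card := by
          exact_mod_cast card_le_card (filter_subset _ _)
      _ ≤ 4 * x := card_PB_le hx0
      _ ≤ 4 * X := by linarith
  have h3 : Real.logb 2 (PP x).card ≤ Real.log (4 * X) / Real.log 2 := by
    rw [Real.logb]
    apply div_le_div_of_nonneg_right _ (by linarith)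
    apply Real.log_le_log _ h2
    exact_mod_cast Nat.pos_of_ne_zero h0
  have h4 : Real.log (4 * X) = 2 * Real.log 2 + Real.log X := by
    rw [Real.log_mul (by norm_num) (by linarith), show (4 : ℝ) = 2 ^ 2 by norm_num, Real.log_pow]
    push_cast; ring
  have h5 : Real.log (4 * X) / Real.log 2 ≤ 4 * Real.log X := by
    rw [h4, div_le_iff₀ (by linarith)]
    nlinarith
  linarith

open Classical in
/-- **block 20b (TR)**: rough Type I from sharp Type I and interior Type II. -/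
theorem tr_of {w : O → ℂ} {d κ η δ : ℝ} (hd : 0 < d) (hdδ : d < δ) (hδ : δ ≤ 5 / 6) (hη : 0 < η)
    (hκ : 0 ≤ κ) (hsum : 1 / 3 + d + η ≤ 1 / 2 - κ) (hw2 : ∀ c, ‖w c‖ ≤ 2)
    (hw : ∀ c, ¬ Squarefree c → w c = 0) (h1 : T1SHyp w δ) (h2 : TIIGen w d κ) : TRG w d η := by
  intro A
  obtain ⟨C1, hC1, h1⟩ := h1
  obtain ⟨C2, hC2, h2⟩ := h2 (A + 1)
  obtain ⟨C3, hC3, hlogp⟩ := log_pow_le_rpow A (show 0 < δ by linarith)
  set X0 : ℝ := max 3 ((2 : ℝ) ^ ((1 / 3 + δ) / (δ - d))) with hX0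
  have hX03 : 3 ≤ X0 := le_max_left _ _
  refine ⟨4 * C1 * C3 + 128 * X0 ^ (2 + A) + 5 * C2 * 24, by positivity, ?_⟩
  intro X hX G hG c hc x hx1 hx2
  have hX1 : 1 ≤ X := by linarith
  have hXpos : 0 < X := by linarith
  have hlog : 1 ≤ Real.log X := by
    rw [Real.le_log_iff_exp_le (by linarith)]
    linarith [Real.exp_one_lt_d9]
  have hx0 : 1 ≤ x := by linarith
  set z := X ^ η with hz
  set Y := X ^ (1 / 3 + d) with hY
  set cf := cut z 0 Y c with hcf
  have hz1 : 1 ≤ z := Real.one_le_rpow hX1 hη.le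
  have hY1 : 1 ≤ Y := Real.one_le_rpow hX1 (by linarith)
  have hYX : Y ≤ X := by
    rw [hY]
    conv_rhs => rw [← Real.rpow_one X]
    exact Real.rpow_le_rpow_of_exponent_le hX1 (by linarith)
  have hcfG : ClassG cf X (4 * G) := classG_cut hc _ _ _
  -- the decomposition
  have e1 : Bil w cf (cut z 0 X 1) x =
      bsum x (fun q n => cf q * (if Rough z n then w (q * n) else 0)) := by
    rw [Bil_eq]
    apply bsum_congr
    intro a b ha hb hab
    by_cases hs : Squarefree b
    · have hbX : (N b : ℝ) ≤ X := by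
        refine le_trans ?_ (hab.trans hx2)
        rw [N_mul, Nat.cast_mul]
        exact le_mul_of_one_le_left (by positivity) ha.one_le_N'
      have hb0 : (0 : ℝ) < N b := by linarith [hb.one_le_N']
      rw [cut]
      by_cases hr : Rough z b
      · rw [if_pos ⟨hb, hs, hr, hb0, hbX⟩, if_pos hr]; simp
      · rw [if_neg (fun h => hr h.2.2.1), if_neg hr]; simp
    · rw [hw (a * b) (fun h => hs (h.squarefree_of_dvd (dvd_mul_left _ _)))]
      simp
  have e2 := decomp z Y x cf w (by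
      intro q hq
      rw [hcf, cut, if_neg]
      intro h
      linarith [h.2.2.2.2]) (by
      intro q hq
      rw [hcf, cut] at hq
      split_ifs at hq with h
      · exact h.2.2.1
      · exact absurd rfl hq) hw
  rw [e1, e2]
  set R : ℝ := X ^ (5 / 6 : ℝ) / Real.log X ^ A with hR
  have hR0 : 0 < R := by positivity
  -- Type I
  have hI : ‖bsum x (fun m n => (if (N m : ℝ) ≤ Y then lamO z cf m else 0) * w (m * n))‖ ≤
      (4 * C1 * C3 + 128 * X0 ^ (2 + A)) * G * R := by
    refine (typeI_part hcfG.bound).trans ?_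
    by_cases hXX : X ≤ X0
    · have h3 : ∑ m ∈ PB Y, ‖∑ c ∈ (PB x).filter (m ∣ ·), w c‖ ≤ 32 * X0 ^ 2 := by
        have h4 : ∀ m ∈ PB Y, ‖∑ c ∈ (PB x).filter (m ∣ ·), w c‖ ≤ 8 * X := by
          intro m _
          refine (norm_sum_le _ _).trans ?_
          calc ∑ c ∈ (PB x).filter (m ∣ ·), ‖w c‖ ≤ ∑ c ∈ (PB x).filter (m ∣ ·), (2 : ℝ) :=
                sum_le_sum fun c _ => hw2 c
            _ = ((PB x).filter (m ∣ ·)).card * 2 := by rw [sum_const, nsmul_eq_mul]
            _ ≤ (PB x).card * 2 := by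
                apply mul_le_mul_of_nonneg_right _ (by norm_num)
                exact_mod_cast card_le_card (filter_subset _ _)
            _ ≤ 4 * x * 2 := by
                apply mul_le_mul_of_nonneg_right (card_PB_le (by linarith)) (by norm_num)
            _ ≤ 8 * X := by linarith
        refine (sum_le_sum h4).trans ?_
        rw [sum_const, nsmul_eq_mul]
        calc ((PB Y).card : ℝ) * (8 * X) ≤ (4 * Y) * (8 * X) := by
              apply mul_le_mul_of_nonneg_right (card_PB_le (by linarith)) (by linarith)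
          _ ≤ (4 * X0) * (8 * X0) := by
              apply mul_le_mul (by linarith) (by linarith) (by linarith) (by linarith)
          _ = 32 * X0 ^ 2 := by ring
      have h5 : 1 ≤ X0 ^ A * R := by
        rw [hR, mul_div_assoc', le_div_iff₀ (by positivity), one_mul]
        have h6 : Real.log X ^ A ≤ X0 ^ A := by
          apply pow_le_pow_left₀ (by linarith)
          exact (Real.log_le_self (by linarith)).trans hXX
        have h7 : 1 ≤ X ^ (5 / 6 : ℝ) := Real.one_le_rpow hX1 (by norm_num)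
        have h8 : (0 : ℝ) ≤ X0 ^ A := by positivity
        nlinarith
      calc 4 * G * ∑ m ∈ PB Y, ‖∑ c ∈ (PB x).filter (m ∣ ·), w c‖ ≤ 4 * G * (32 * X0 ^ 2) :=
            mul_le_mul_of_nonneg_left h3 (by linarith)
        _ = 128 * X0 ^ 2 * G * 1 := by ring
        _ ≤ 128 * X0 ^ 2 * G * (X0 ^ A * R) := mul_le_mul_of_nonneg_left h5 (by positivity)
        _ = (128 * X0 ^ (2 + A)) * G * R := by rw [pow_add]; ring
        _ ≤ (4 * C1 * C3 + 128 * X0 ^ (2 + A)) * G * R := by
            apply mul_le_mul_of_nonneg_right _ hR0.le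
            apply mul_le_mul_of_nonneg_right _ (by linarith)
            have : 0 ≤ 4 * C1 * C3 := by positivity
            linarith
    · push Not at hXX
      have h3 : Y ≤ x ^ (1 / 3 + δ) := by
        have h4 : (2 : ℝ) ^ ((1 / 3 + δ) / (δ - d)) ≤ X := (le_max_right _ _).trans hXX.le
        have h5 : (2 : ℝ) ^ (1 / 3 + δ) ≤ X ^ (δ - d) := by
          have h6 := Real.rpow_le_rpow (by positivity) h4 (show 0 ≤ δ - d by linarith)
          rw [← Real.rpow_mul (by norm_num), div_mul_cancel₀ _ (by linarith : (δ - d) ≠ 0)] at h6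
          exact h6
        have h6 : (X / 2) ^ (1 / 3 + δ) ≤ x ^ (1 / 3 + δ) :=
          Real.rpow_le_rpow (by linarith) hx1 (by linarith)
        refine le_trans ?_ h6
        rw [Real.div_rpow hXpos.le (by norm_num), le_div_iff₀ (by positivity), hY]
        calc X ^ (1 / 3 + d) * 2 ^ (1 / 3 + δ) ≤ X ^ (1 / 3 + d) * X ^ (δ - d) :=
              mul_le_mul_of_nonneg_left h5 (by positivity)
          _ = X ^ (1 / 3 + δ) := by rw [← Real.rpow_add hXpos]; congr 1; ring
      have h4 : ∑ m ∈ PB Y, ‖∑ c ∈ (PB x).filter (m ∣ ·), w c‖ ≤ C1 * X ^ (5 / 6 - δ) := by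
        refine le_trans ?_ ((h1 x hx0).trans ?_)
        · apply sum_le_sum_of_subset_of_nonneg (PB_mono h3)
          intro _ _ _; exact norm_nonneg _
        · apply mul_le_mul_of_nonneg_left _ hC1
          exact Real.rpow_le_rpow (by linarith) hx2 (by linarith)
      have h5 : X ^ (5 / 6 - δ) ≤ C3 * R := by
        rw [hR, mul_div_assoc', le_div_iff₀ (by positivity), Real.rpow_sub hXpos]
        calc X ^ (5 / 6 : ℝ) / X ^ δ * Real.log X ^ A ≤ X ^ (5 / 6 : ℝ) / X ^ δ * (C3 * X ^ δ) :=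
              mul_le_mul_of_nonneg_left (hlogp X hX1) (by positivity)
          _ = C3 * X ^ (5 / 6 : ℝ) := by field_simp
      calc 4 * G * ∑ m ∈ PB Y, ‖∑ c ∈ (PB x).filter (m ∣ ·), w c‖ ≤
            4 * G * (C1 * (C3 * R)) :=
            mul_le_mul_of_nonneg_left (h4.trans (mul_le_mul_of_nonneg_left h5 hC1)) (by linarith)
        _ = (4 * C1 * C3) * G * R := by ring
        _ ≤ (4 * C1 * C3 + 128 * X0 ^ (2 + A)) * G * R := by
            apply mul_le_mul_of_nonneg_right _ hR0.le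
            apply mul_le_mul_of_nonneg_right _ (by linarith)
            have : (0 : ℝ) ≤ 128 * X0 ^ (2 + A) := by positivity
            linarith
  -- Type II
  have hII : ‖bsum x (fun a b => alO z Y cf a *
        (if ∀ q ∈ pdv b, key (Pmin a) < key q then w (a * b) else 0))‖ ≤
      (5 * C2 * 24) * G * R := by
    have h3 := typeII_part (w := w) (cf := cf) (z := z) (Y := Y) (x := x)
      (T := C2 * (24 * G) * X ^ (5 / 6 : ℝ) / Real.log X ^ (A + 1))
      (Nat.log 2 (PP x).card + 1) (Nat.lt_pow_succ_log_self (by norm_num) _) hw ?_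
    · refine h3.trans ?_
      have h4 := natLog_card_le hX (by linarith : 0 ≤ x) hx2
      calc ((Nat.log 2 (PP x).card + 1 : ℕ) : ℝ) *
            (C2 * (24 * G) * X ^ (5 / 6 : ℝ) / Real.log X ^ (A + 1)) ≤
            (5 * Real.log X) * (C2 * (24 * G) * X ^ (5 / 6 : ℝ) / Real.log X ^ (A + 1)) := by
            apply mul_le_mul_of_nonneg_right h4
            positivity
        _ = (5 * C2 * 24) * G * R := by
            rw [hR, pow_succ]
            field_simp
    · intro f β hf hβ hβ2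
      have hzY : z ≤ Y := Real.rpow_le_rpow_of_exponent_le hX1 (by linarith)
      have hYz : Y * z ≤ X ^ (1 / 2 - κ) := by
        rw [hY, hz, ← Real.rpow_add hXpos]
        exact Real.rpow_le_rpow_of_exponent_le hX1 (by linarith)
      have hYzX : Y * z ≤ X := by
        refine hYz.trans ?_
        conv_rhs => rw [← Real.rpow_one X]
        exact Real.rpow_le_rpow_of_exponent_le hX1 (by linarith)
      have hcl := classG_alO hcfG hzY (by linarith) hYzX f hf
      have h5 := h2 X hX (24 * G) (by linarith) _ β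
        (by convert hcl using 1; ring) ?_ hβ hβ2 x hx1 hx2
      · exact h5
      · intro a ha
        have h6 := left_ne_zero_of_mul ha
        have h7 : Primary a ∧ Squarefree a ∧ Stop z Y a := by
          by_contra h
          exact h6 (by rw [alO, if_neg h])
        refine ⟨h7.2.2.2.2.1, h7.2.2.2.2.2.trans ?_⟩
        exact (mul_le_mul_of_nonneg_left h7.2.2.2.1.le (by linarith)).trans hYz
  refine (norm_add_le _ _).trans ((add_le_add hI hII).trans (le_of_eq ?_))
  rw [hR]; ring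

end Vale.Agent.P006.SV
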